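import Vale.Agent.P356.NA.Defs

/-!
Definitions for the strict area law of frustration free, locally gapped Hamiltonians: two copies
of the lattice, and abstract entropy functions.
-/

set_option linter.all false

namespace Vale.Agent.P356.SA

open Matrix Finset Vale.Agent.P356 Vale.Agent.P356.SV Vale.Agent.P356.Path Vale.Agent.P356.NA
open scoped BigOperators ComplexOrder Kronecker

section tensor
variable {V W : Type*} {q : ℕ}

/-- tensor product of two vectors, on the disjoint union of the two site sets -/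
def dbl (Ω : Conf V q → ℂ) (Ω' : Conf W q → ℂ) : Conf (V ⊕ W) q → ℂ :=
  fun s => Ω (s ∘ Sum.inl) * Ω' (s ∘ Sum.inr)

/-- operator on the first copy -/
def cp1 [DecidableEq (Conf W q)] (A : Op V q) : Op (V ⊕ W) q :=
  fun s t => A (s ∘ Sum.inl) (t ∘ Sum.inl) * (if s ∘ Sum.inr = t ∘ Sum.inr then 1 else 0)

/-- operator on the second copy -/
def cp2 [DecidableEq (Conf V q)] (A : Op W q) : Op (V ⊕ W) q :=
  fun s t => (if s ∘ Sum.inl = t ∘ Sum.inl then 1 else 0) * A (s ∘ Sum.inr) (t ∘ Sum.inr)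

end tensor

/-- weight of the eigenvalues whose `-log` deviates from the entropy by at least `u` -/
noncomputable def wt {ι : Type*} [Fintype ι] [DecidableEq ι] (ρ : Matrix ι ι ℂ) (u : ℝ) : ℝ :=
  open Classical in ∑ i, (if u ≤ |dev ρ i| then eig ρ i else 0)

/-- variance of `-log` of the eigenvalues -/
noncomputable def vr {ι : Type*} [Fintype ι] [DecidableEq ι] (ρ : Matrix ι ι ℂ) : ℝ :=
  ∑ i, eig ρ i * dev ρ i ^ 2

/-- mutual information of an entropy function -/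
def mi {V : Type*} [DecidableEq V] (S : Finset V → ℝ) (A B : Finset V) : ℝ :=
  S A + S B - S (A ∪ B)

/-- entropy functions of a pure state -/
structure EntLike {V : Type*} [Fintype V] [DecidableEq V] (S : Finset V → ℝ) : Prop where
  empty : S ∅ = 0
  nonneg : ∀ B, 0 ≤ S B
  compl : ∀ B, S Bᶜ = S B
  ssa : ∀ A B D, Disjoint A B → Disjoint A D → Disjoint B D →
    S B + S (A ∪ B ∪ D) ≤ S (A ∪ B) + S (B ∪ D)

/-- decoupling at distance `C l ^ a`, with the a priori bound `C l ^ b` on rectangles -/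
structure Dec {L : ℕ} (S : Finset (Site L) → ℝ) (a b C : ℝ) : Prop where
  card : ∀ B, S B ≤ C * B.card
  near : ∀ l x0 x1 y0 y1 : ℕ, 1 ≤ l → x1 ≤ x0 + l → y1 ≤ y0 + l →
    S (rect L x0 x1 y0 y1) ≤ C * (l : ℝ) ^ b
  dec : ∀ l x0 x1 y0 y1 : ℕ, 1 ≤ l → x1 ≤ x0 + l → y1 ≤ y0 + l → ∀ X Y : Finset (Site L),
    X ⊆ rect L x0 x1 y0 y1 → (∀ x ∈ X, ∀ y ∈ Y, C * (l : ℝ) ^ a ≤ dist1 x y) →
    mi S X Y ≤ C * (l : ℝ) ^ a

/-- admissible side lengths at scale `s` -/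
def Side (s a b : ℕ) : Prop := a + s ≤ b ∧ b ≤ a + 6 * s

/-- The local hypotheses: the change of the entropy when a box is added next to some of its
neighbours, and the splitting of a common side. -/
structure Loc {L : ℕ} (S : Finset (Site L) → ℝ) (a C : ℝ) : Prop where
  add : ∀ s xm x0 x1 xp ym y0 y1 yp : ℕ, 1 ≤ s → Side s x0 x1 → Side s y0 y1 →
      x1 ≤ L → y1 ≤ L → (x0 = 0 ∨ Side s xm x0) → (y0 = 0 ∨ Side s ym y0) →
      (x1 = L ∨ Side s x1 xp) → (y1 = L ∨ Side s y1 yp) → ∀ TL TR TD TU : Finset (Site L),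
      (TL = ∅ ∨ TL = rect L xm x0 y0 y1) → (TR = ∅ ∨ TR = rect L x1 xp y0 y1) →
      (TD = ∅ ∨ TD = rect L x0 x1 ym y0) → (TU = ∅ ∨ TU = rect L x0 x1 y1 yp) →
      S (rect L x0 x1 y0 y1 ∪ (TL ∪ TR ∪ TD ∪ TU)) - S (TL ∪ TR ∪ TD ∪ TU) ≤
        (mi S (rect L x0 x1 y0 y1) (rect L xm x0 y0 y1) +
          mi S (rect L x0 x1 y0 y1) (rect L x1 xp y0 y1) +
          mi S (rect L x0 x1 y0 y1) (rect L x0 x1 ym y0) +
          mi S (rect L x0 x1 y0 y1) (rect L x0 x1 y1 yp)) / 2 -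
        (mi S (rect L x0 x1 y0 y1) TL + mi S (rect L x0 x1 y0 y1) TR +
          mi S (rect L x0 x1 y0 y1) TD + mi S (rect L x0 x1 y0 y1) TU) + C * (s : ℝ) ^ a
  split : ∀ s x0 u0 x1 u2 x2 y0 y y1 : ℕ, 1 ≤ s → x0 ≤ u0 → u2 ≤ x2 →
      u0 + s ≤ x1 → x1 + s ≤ u2 → y0 + s ≤ y → y + s ≤ y1 → x1 ≤ x0 + 6 * s → x2 ≤ x1 + 6 * s →
      y1 ≤ y0 + 6 * s → x2 ≤ L → y1 ≤ L →
      (mi S (rect L x0 x1 y0 y1) (rect L x1 x2 y0 y1) ≤
        mi S (rect L u0 x1 y0 y) (rect L x1 u2 y0 y) +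
          mi S (rect L u0 x1 y y1) (rect L x1 u2 y y1) + C * (s : ℝ) ^ a) ∧
      (mi S (rect L y0 y1 x0 x1) (rect L y0 y1 x1 x2) ≤
        mi S (rect L y0 y u0 x1) (rect L y0 y x1 u2) +
          mi S (rect L y y1 u0 x1) (rect L y y1 x1 u2) + C * (s : ℝ) ^ a)
  card : ∀ B, S B ≤ C * B.card

end Vale.Agent.P356.SA
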