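import Vale.Agent.P356.SA.Ssa
import Vale.Agent.P356.SA.Defs

/-!
The entropy function of a pure state is `EntLike`.
-/

set_option linter.all false

namespace Vale.Agent.P356.SA

open Matrix Finset Vale.Agent.P356 Vale.Agent.P356.SV Vale.Agent.P356.Path
open scoped BigOperators ComplexOrder Kronecker

theorem entLike {V : Type} [Fintype V] [DecidableEq V] {q : ℕ} (Ω : Conf V q → ℂ)
    (hΩ : nsq Ω = 1) : EntLike (fun A => entropyOf A Ω) := by
  refine ⟨?_, fun B => entropy_nonneg B Ω hΩ, fun B => entropy_compl B Ω hΩ, ?_⟩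
  · refine le_antisymm ?_ (entropy_nonneg _ Ω hΩ)
    refine (b7_vn_le_log (b7_rdm_psd ∅ Ω) (b7_rdm_trace ∅ Ω hΩ)).trans (le_of_eq ?_)
    rw [Fintype.card_fun, Fintype.card_coe]
    simp
  · intro A B D hAB hAD hBD
    have h := ssa A B D hAB hAD hBD Ω
    show entropyOf B Ω + entropyOf (A ∪ B ∪ D) Ω ≤ entropyOf (A ∪ B) Ω + entropyOf (B ∪ D) Ω
    linarith

end Vale.Agent.P356.SA
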