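import Vale.Agent.P356.SA.Dbl
import Vale.Agent.P356.SV.Ent

/-!
BLOCK 2b: the spectrum of the reduced state of a product vector.
-/

set_option linter.all false

namespace Vale.Agent.P356.SA

open Matrix Finset Vale.Agent.P356 Vale.Agent.P356.SV Vale.Agent.P356.Path Vale.Agent.P356.NA
open scoped BigOperators ComplexOrder Kronecker

section spec
variable {ι κ κ' : Type*} [Fintype ι] [Fintype κ] [DecidableEq ι] [DecidableEq κ] [Fintype κ']
  [DecidableEq κ']

theorem sa2b_eig {ρ : Matrix ι ι ℂ} (h : ρ.IsHermitian) (i : ι) : eig ρ i = h.eigenvalues i := by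
  rw [eig, dif_pos h]

theorem sa2b_roots {ρ : Matrix ι ι ℂ} (h : ρ.IsHermitian) (F : ℝ → ℝ) :
    ∑ i, F (eig ρ i) = (ρ.charpoly.roots.map (fun z : ℂ => F z.re)).sum := by
  rw [h.roots_charpoly_eq_eigenvalues, Multiset.map_map]
  simp only [sa2b_eig h]
  rfl

/-- sums over the spectrum from any diagonalisation -/
theorem sa2b_diag {ρ : Matrix ι ι ℂ} (h : ρ.IsHermitian) (e : ι ≃ κ) (U : Matrix κ κ ℂ)
    (hU : U * Uᴴ = 1) (l : κ → ℝ)
    (hρ : Matrix.reindex e e ρ = U * diagonal (fun i => (l i : ℂ)) * Uᴴ) (F : ℝ → ℝ) :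
    ∑ i, F (eig ρ i) = ∑ j, F (l j) := by
  have hU' : Uᴴ * U = 1 := mul_eq_one_comm.mp hU
  rw [sa2b_roots h]
  have h1 : ρ.charpoly = (diagonal (fun i => (l i : ℂ))).charpoly := by
    rw [← Matrix.charpoly_reindex e ρ, hρ, Matrix.mul_assoc, Matrix.charpoly_mul_comm,
      Matrix.mul_assoc, hU', Matrix.mul_one]
  have h2 : (∏ i, (Polynomial.X - Polynomial.C (l i : ℂ))) =
      (((Finset.univ : Finset κ).val.map (fun i => (l i : ℂ))).map
        (fun a => Polynomial.X - Polynomial.C a)).prod := by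
    rw [Multiset.map_map]
    rfl
  rw [h1, Matrix.charpoly_diagonal, h2, Polynomial.roots_multiset_prod_X_sub_C, Multiset.map_map]
  rfl

/-- the spectrum of a tensor product -/
theorem sa2b_kron {ρ : Matrix ι ι ℂ} (h : ρ.IsHermitian) {σ : Matrix κ κ ℂ}
    (hσ : σ.IsHermitian) {τ : Matrix κ' κ' ℂ} (hτ : τ.IsHermitian) (e : ι ≃ κ × κ')
    (he : Matrix.reindex e e ρ = σ ⊗ₖ τ) (F : ℝ → ℝ) :
    ∑ i, F (eig ρ i) = ∑ j, ∑ k, F (eig σ j * eig τ k) := by
  set U : Matrix κ κ ℂ := (hσ.eigenvectorUnitary : Matrix κ κ ℂ) with hUdef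
  set W : Matrix κ' κ' ℂ := (hτ.eigenvectorUnitary : Matrix κ' κ' ℂ) with hWdef
  have hU : U * Uᴴ = 1 := b7_unitary hσ
  have hW : W * Wᴴ = 1 := b7_unitary hτ
  have hUW : (U ⊗ₖ W) * (U ⊗ₖ W)ᴴ = 1 := by
    rw [conjTranspose_kronecker, ← mul_kronecker_mul, hU, hW, one_kronecker_one]
  have h1 : Matrix.reindex e e ρ = (U ⊗ₖ W) *
      diagonal (fun i : κ × κ' => ((eig σ i.1 * eig τ i.2 : ℝ) : ℂ)) * (U ⊗ₖ W)ᴴ := by
    rw [he, conjTranspose_kronecker]
    have e1 : (diagonal (fun i : κ × κ' => ((eig σ i.1 * eig τ i.2 : ℝ) : ℂ))) =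
        (diagonal (fun i => (eig σ i : ℂ))) ⊗ₖ (diagonal (fun i => (eig τ i : ℂ))) := by
      rw [diagonal_kronecker_diagonal]
      congr 1
      funext i
      push_cast
      rfl
    rw [e1, ← mul_kronecker_mul, ← mul_kronecker_mul]
    simp only [sa2b_eig hσ, sa2b_eig hτ]
    rw [← b7_spec hσ, ← b7_spec hτ]
  rw [sa2b_diag h e (U ⊗ₖ W) hUW (fun i => eig σ i.1 * eig τ i.2) h1 F, Fintype.sum_prod_type]

end spec

section rdm
variable {V W : Type} [Fintype V] [DecidableEq V] [Fintype W] [DecidableEq W] {q : ℕ}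

/-- configurations of a region of two copies -/
def sa2b_in (A : Finset V) (B : Finset W) (q : ℕ) :
    ({x // x ∈ A.disjSum B} → Fin q) ≃ ({x // x ∈ A} → Fin q) × ({x // x ∈ B} → Fin q) where
  toFun c := (fun x => c ⟨Sum.inl x.1, Finset.inl_mem_disjSum.mpr x.2⟩,
    fun x => c ⟨Sum.inr x.1, Finset.inr_mem_disjSum.mpr x.2⟩)
  invFun z := fun x => match x with
    | ⟨Sum.inl v, hv⟩ => z.1 ⟨v, Finset.inl_mem_disjSum.mp hv⟩
    | ⟨Sum.inr w, hw⟩ => z.2 ⟨w, Finset.inr_mem_disjSum.mp hw⟩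
  left_inv c := by
    funext x
    rcases x with ⟨v | w, hx⟩ <;> rfl
  right_inv z := rfl

/-- configurations outside a region of two copies -/
def sa2b_out (A : Finset V) (B : Finset W) (q : ℕ) :
    ({x // ¬ x ∈ A.disjSum B} → Fin q) ≃
      ({x // ¬ x ∈ A} → Fin q) × ({x // ¬ x ∈ B} → Fin q) where
  toFun c := (fun x => c ⟨Sum.inl x.1, fun h => x.2 (Finset.inl_mem_disjSum.mp h)⟩,
    fun x => c ⟨Sum.inr x.1, fun h => x.2 (Finset.inr_mem_disjSum.mp h)⟩)
  invFun z := fun x => match x with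
    | ⟨Sum.inl v, hv⟩ => z.1 ⟨v, fun h => hv (Finset.inl_mem_disjSum.mpr h)⟩
    | ⟨Sum.inr w, hw⟩ => z.2 ⟨w, fun h => hw (Finset.inr_mem_disjSum.mpr h)⟩
  left_inv c := by
    funext x
    rcases x with ⟨v | w, hx⟩ <;> rfl
  right_inv z := rfl

theorem sa2b_glue (A : Finset V) (B : Finset W) (a : {x // x ∈ A.disjSum B} → Fin q)
    (b : {x // ¬ x ∈ A.disjSum B} → Fin q) (Ω : Conf V q → ℂ) (Ω' : Conf W q → ℂ) :
    dbl Ω Ω' ((cut (A.disjSum B) q).symm (a, b)) =
      Ω ((cut A q).symm ((sa2b_in A B q a).1, (sa2b_out A B q b).1)) *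
        Ω' ((cut B q).symm ((sa2b_in A B q a).2, (sa2b_out A B q b).2)) := by
  unfold dbl
  congr 2
  · funext x
    by_cases hx : x ∈ A
    · have h1 := cut_in (q := q) (A.disjSum B) (a, b) ⟨Sum.inl x, Finset.inl_mem_disjSum.mpr hx⟩
      have h2 := cut_in (q := q) A ((sa2b_in A B q a).1, (sa2b_out A B q b).1) ⟨x, hx⟩
      simp only at h1 h2
      rw [Function.comp_apply, h1, h2]
      rfl
    · have h1 := cut_out (q := q) (A.disjSum B) (a, b)
        ⟨Sum.inl x, fun h => hx (Finset.inl_mem_disjSum.mp h)⟩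
      have h2 := cut_out (q := q) A ((sa2b_in A B q a).1, (sa2b_out A B q b).1) ⟨x, hx⟩
      simp only at h1 h2
      rw [Function.comp_apply, h1, h2]
      rfl
  · funext x
    by_cases hx : x ∈ B
    · have h1 := cut_in (q := q) (A.disjSum B) (a, b) ⟨Sum.inr x, Finset.inr_mem_disjSum.mpr hx⟩
      have h2 := cut_in (q := q) B ((sa2b_in A B q a).2, (sa2b_out A B q b).2) ⟨x, hx⟩
      simp only at h1 h2
      rw [Function.comp_apply, h1, h2]
      rfl
    · have h1 := cut_out (q := q) (A.disjSum B) (a, b)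
        ⟨Sum.inr x, fun h => hx (Finset.inr_mem_disjSum.mp h)⟩
      have h2 := cut_out (q := q) B ((sa2b_in A B q a).2, (sa2b_out A B q b).2) ⟨x, hx⟩
      simp only at h1 h2
      rw [Function.comp_apply, h1, h2]
      rfl

theorem sa2b_rdm (A : Finset V) (B : Finset W) (Ω : Conf V q → ℂ) (Ω' : Conf W q → ℂ) :
    Matrix.reindex (sa2b_in A B q) (sa2b_in A B q) (rdm (A.disjSum B) (dbl Ω Ω')) =
      rdm A Ω ⊗ₖ rdm B Ω' := by
  ext x y
  rw [Matrix.reindex_apply, Matrix.submatrix_apply, kronecker_apply]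
  show ∑ c, dbl Ω Ω' ((cut (A.disjSum B) q).symm ((sa2b_in A B q).symm x, c)) *
      star (dbl Ω Ω' ((cut (A.disjSum B) q).symm ((sa2b_in A B q).symm y, c))) =
    (∑ b, Ω ((cut A q).symm (x.1, b)) * star (Ω ((cut A q).symm (y.1, b)))) *
      ∑ b, Ω' ((cut B q).symm (x.2, b)) * star (Ω' ((cut B q).symm (y.2, b)))
  rw [← (sa2b_out A B q).symm.sum_comp, Fintype.sum_prod_type, Finset.sum_mul_sum]
  refine Finset.sum_congr rfl fun b _ => Finset.sum_congr rfl fun b' _ => ?_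
  rw [sa2b_glue, sa2b_glue]
  simp only [Equiv.apply_symm_apply]
  rw [star_mul']
  ring

theorem sa2b_sum (A : Finset V) (B : Finset W) (Ω : Conf V q → ℂ) (Ω' : Conf W q → ℂ)
    (F : ℝ → ℝ) : ∑ i, F (eig (rdm (A.disjSum B) (dbl Ω Ω')) i) =
      ∑ j, ∑ k, F (eig (rdm A Ω) j * eig (rdm B Ω') k) :=
  sa2b_kron (b7_rdm_psd _ _).isHermitian (b7_rdm_psd _ _).isHermitian
    (b7_rdm_psd _ _).isHermitian (sa2b_in A B q) (sa2b_rdm A B Ω Ω') F

theorem sa2b_tr (A : Finset V) {Ω : Conf V q → ℂ} (h : nsq Ω = 1) : ∑ i, eig (rdm A Ω) i = 1 := by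
  have hH := (b7_rdm_psd A Ω).isHermitian
  simp only [sa2b_eig hH]
  exact b7_sum_eig hH (b7_rdm_trace A Ω h)

theorem sa2b_pos (A : Finset V) (Ω : Conf V q → ℂ) (i) : 0 ≤ eig (rdm A Ω) i := by
  rw [sa2b_eig (b7_rdm_psd A Ω).isHermitian]
  exact (b7_rdm_psd A Ω).eigenvalues_nonneg i

theorem sa2b_ent (A : Finset V) (Ω : Conf V q → ℂ) :
    vnEntropy (rdm A Ω) = ∑ i, Real.negMulLog (eig (rdm A Ω) i) := by
  have hH := (b7_rdm_psd A Ω).isHermitian
  rw [vnEntropy, dif_pos hH]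
  simp only [sa2b_eig hH]

/-- 2b: entropy of a product vector -/
theorem entropy_dbl (A : Finset V) (B : Finset W) {Ω : Conf V q → ℂ} {Ω' : Conf W q → ℂ}
    (h : nsq Ω = 1) (h' : nsq Ω' = 1) :
    entropyOf (A.disjSum B) (dbl Ω Ω') = entropyOf A Ω + entropyOf B Ω' := by
  show vnEntropy _ = vnEntropy _ + vnEntropy _
  rw [sa2b_ent, sa2b_ent, sa2b_ent, sa2b_sum]
  have h1 := sa2b_tr A h
  have h2 := sa2b_tr B h'
  have e : ∀ j k, Real.negMulLog (eig (rdm A Ω) j * eig (rdm B Ω') k) =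
      eig (rdm B Ω') k * Real.negMulLog (eig (rdm A Ω) j) +
        eig (rdm A Ω) j * Real.negMulLog (eig (rdm B Ω') k) := fun j k => Real.negMulLog_mul _ _
  simp only [e, Finset.sum_add_distrib]
  congr 1
  · refine Finset.sum_congr rfl fun j _ => ?_
    rw [← Finset.sum_mul, h2, one_mul]
  · rw [← Finset.sum_mul_sum, h1, one_mul]

/-- 2b: variance of a product vector -/
theorem vr_dbl (A : Finset V) (B : Finset W) {Ω : Conf V q → ℂ} {Ω' : Conf W q → ℂ}
    (h : nsq Ω = 1) (h' : nsq Ω' = 1) :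
    vr (rdm (A.disjSum B) (dbl Ω Ω')) = vr (rdm A Ω) + vr (rdm B Ω') := by
  have h1 := sa2b_tr A h
  have h2 := sa2b_tr B h'
  have hS : vnEntropy (rdm (A.disjSum B) (dbl Ω Ω')) =
      vnEntropy (rdm A Ω) + vnEntropy (rdm B Ω') := entropy_dbl A B h h'
  have hm : ∀ {U : Type} [Fintype U] [DecidableEq U] (D : Finset U) (Φ : Conf U q → ℂ)
      (hΦ : nsq Φ = 1), ∑ i, eig (rdm D Φ) i * dev (rdm D Φ) i = 0 := by
    intro U _ _ D Φ hΦ
    have e1 : ∀ i, eig (rdm D Φ) i * dev (rdm D Φ) i =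
        Real.negMulLog (eig (rdm D Φ) i) - eig (rdm D Φ) i * vnEntropy (rdm D Φ) := by
      intro i
      rw [dev, Real.negMulLog]
      ring
    simp only [e1, Finset.sum_sub_distrib]
    rw [← Finset.sum_mul, sa2b_tr D hΦ, one_mul, ← sa2b_ent, sub_self]
  have hm1 := hm A Ω h
  have hm2 := hm B Ω' h'
  have hsum := sa2b_sum A B Ω Ω' (fun x => x * (-Real.log x -
    (vnEntropy (rdm A Ω) + vnEntropy (rdm B Ω'))) ^ 2)
  have e0 : vr (rdm (A.disjSum B) (dbl Ω Ω')) = ∑ i, (fun x : ℝ => x * (-Real.log x -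
    (vnEntropy (rdm A Ω) + vnEntropy (rdm B Ω'))) ^ 2) (eig (rdm (A.disjSum B) (dbl Ω Ω')) i) := by
    rw [vr]
    refine Finset.sum_congr rfl fun i _ => ?_
    rw [dev, hS]
  rw [e0, hsum]
  have e : ∀ j k, (fun x : ℝ => x * (-Real.log x -
      (vnEntropy (rdm A Ω) + vnEntropy (rdm B Ω'))) ^ 2) (eig (rdm A Ω) j * eig (rdm B Ω') k) =
      eig (rdm B Ω') k * (eig (rdm A Ω) j * dev (rdm A Ω) j ^ 2) +
        eig (rdm A Ω) j * (eig (rdm B Ω') k * dev (rdm B Ω') k ^ 2) +
        2 * (eig (rdm A Ω) j * dev (rdm A Ω) j) * (eig (rdm B Ω') k * dev (rdm B Ω') k) := by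
    intro j k
    simp only
    rcases (sa2b_pos A Ω j).eq_or_lt with hj | hj
    · rw [← hj]; ring
    rcases (sa2b_pos B Ω' k).eq_or_lt with hk | hk
    · rw [← hk]; ring
    rw [Real.log_mul hj.ne' hk.ne', dev, dev]
    ring
  simp only [e, Finset.sum_add_distrib]
  have e3 : ∑ j, ∑ k, 2 * (eig (rdm A Ω) j * dev (rdm A Ω) j) *
      (eig (rdm B Ω') k * dev (rdm B Ω') k) = 0 := by
    rw [← Finset.sum_mul_sum, hm2, mul_zero]
  have e1 : ∑ j, ∑ k, eig (rdm B Ω') k * (eig (rdm A Ω) j * dev (rdm A Ω) j ^ 2) =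
      vr (rdm A Ω) := by
    rw [vr]
    refine Finset.sum_congr rfl fun j _ => ?_
    rw [← Finset.sum_mul, h2, one_mul]
  have e2 : ∑ j, ∑ k, eig (rdm A Ω) j * (eig (rdm B Ω') k * dev (rdm B Ω') k ^ 2) =
      vr (rdm B Ω') := by
    rw [vr, ← Finset.sum_mul_sum, h1, one_mul]
  rw [e1, e2, e3, add_zero]

theorem sa2b_num {a u w : ℝ} (ha0 : 0 < a) (hone : w ≤ 1)
    (htwo : w ≤ 12 * Real.exp (-(u / 2 / a))) : w ≤ 6 * Real.exp (-(u / (6 * a))) := by
  rcases le_or_gt u (6 * a * Real.log 6) with hu | hu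
  · refine hone.trans ?_
    have h3 : -Real.log 6 ≤ -(u / (6 * a)) := by
      rw [neg_le_neg_iff, div_le_iff₀ (by positivity)]
      linarith
    have h4 := Real.exp_le_exp.mpr h3
    rw [Real.exp_neg, Real.exp_log (by norm_num)] at h4
    linarith
  · refine htwo.trans ?_
    have e1 : Real.exp (-(u / 2 / a)) = Real.exp (-(u / (6 * a))) * Real.exp (-(u / (3 * a))) := by
      rw [← Real.exp_add]
      congr 1
      field_simp
      ring
    have h3 : Real.exp (-(u / (3 * a))) ≤ 1 / 6 := by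
      have h4 : -(u / (3 * a)) ≤ -Real.log 6 := by
        rw [neg_le_neg_iff, le_div_iff₀ (by positivity)]
        have h6 : 0 < Real.log 6 := Real.log_pos (by norm_num)
        have h7 : 0 < a * Real.log 6 := by positivity
        linarith
      have h5 := Real.exp_le_exp.mpr h4
      rw [Real.exp_neg (Real.log 6), Real.exp_log (by norm_num)] at h5
      linarith
    rw [e1]
    have h6 := mul_le_mul_of_nonneg_left h3 (Real.exp_pos (-(u / (6 * a)))).le
    have h7 := Real.exp_pos (-(u / (6 * a)))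
    linarith

/-- 2b: tails of a product vector -/
theorem tail_dbl (A : Finset V) (B : Finset W) {Ω : Conf V q → ℂ} {Ω' : Conf W q → ℂ}
    (h : nsq Ω = 1) (h' : nsq Ω' = 1) {K : ℝ} (hK : 0 ≤ K) (hA : TailLe (rdm A Ω) K)
    (hB : TailLe (rdm B Ω') K) :
    TailLe (rdm (A.disjSum B) (dbl Ω Ω')) ((10 + 6 * Real.sqrt K) ^ 2) := by
  classical
  intro u
  have h1 := sa2b_tr A h
  have h2 := sa2b_tr B h'
  have hS : vnEntropy (rdm (A.disjSum B) (dbl Ω Ω')) =
      vnEntropy (rdm A Ω) + vnEntropy (rdm B Ω') := entropy_dbl A B h h'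
  have hsK := Real.sqrt_nonneg K
  have hsq : Real.sqrt ((10 + 6 * Real.sqrt K) ^ 2) = 10 + 6 * Real.sqrt K :=
    Real.sqrt_sq (by linarith only [hsK])
  rw [hsq]
  obtain ⟨a, ha⟩ : ∃ a : ℝ, a = 4 + 2 * Real.sqrt K := ⟨_, rfl⟩
  have ha0 : 0 < a := by rw [ha]; linarith only [hsK]
  have ha6 : 4 + 2 * (10 + 6 * Real.sqrt K) = 6 * a := by rw [ha]; ring
  rw [ha6]
  have hA' := hA (u / 2)
  have hB' := hB (u / 2)
  rw [← ha] at hA' hB'
  have hsum := sa2b_sum A B Ω Ω' (fun x => if u ≤ |-Real.log x -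
    (vnEntropy (rdm A Ω) + vnEntropy (rdm B Ω'))| then x else 0)
  have e0 : (∑ i, (if u ≤ |dev (rdm (A.disjSum B) (dbl Ω Ω')) i| then
      eig (rdm (A.disjSum B) (dbl Ω Ω')) i else 0)) =
      ∑ i, (fun x : ℝ => if u ≤ |-Real.log x -
        (vnEntropy (rdm A Ω) + vnEntropy (rdm B Ω'))| then x else 0)
        (eig (rdm (A.disjSum B) (dbl Ω Ω')) i) := by
    refine Finset.sum_congr rfl fun i _ => ?_
    rw [dev, hS]
  rw [e0, hsum]
  have hone : ∑ j, ∑ k, (fun x : ℝ => if u ≤ |-Real.log x -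
      (vnEntropy (rdm A Ω) + vnEntropy (rdm B Ω'))| then x else 0)
        (eig (rdm A Ω) j * eig (rdm B Ω') k) ≤ 1 := by
    calc _ ≤ ∑ j, ∑ k, eig (rdm A Ω) j * eig (rdm B Ω') k := by
          refine Finset.sum_le_sum fun j _ => Finset.sum_le_sum fun k _ => ?_
          have := mul_nonneg (sa2b_pos A Ω j) (sa2b_pos B Ω' k)
          simp only
          split_ifs
          · exact le_rfl
          · exact this
      _ = 1 := by rw [← Finset.sum_mul_sum, h1, h2, one_mul]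
  have htwo : ∑ j, ∑ k, (fun x : ℝ => if u ≤ |-Real.log x -
      (vnEntropy (rdm A Ω) + vnEntropy (rdm B Ω'))| then x else 0)
        (eig (rdm A Ω) j * eig (rdm B Ω') k) ≤ 12 * Real.exp (-(u / 2 / a)) := by
    calc _ ≤ ∑ j, ∑ k, (eig (rdm B Ω') k *
            (if u / 2 ≤ |dev (rdm A Ω) j| then eig (rdm A Ω) j else 0) +
          eig (rdm A Ω) j *
            (if u / 2 ≤ |dev (rdm B Ω') k| then eig (rdm B Ω') k else 0)) := by
          refine Finset.sum_le_sum fun j _ => Finset.sum_le_sum fun k _ => ?_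
          have hj := sa2b_pos A Ω j
          have hk := sa2b_pos B Ω' k
          have hr1 : 0 ≤ (if u / 2 ≤ |dev (rdm A Ω) j| then eig (rdm A Ω) j else 0) := by
            split_ifs
            · exact hj
            · exact le_rfl
          have hr2 : 0 ≤ (if u / 2 ≤ |dev (rdm B Ω') k| then eig (rdm B Ω') k else 0) := by
            split_ifs
            · exact hk
            · exact le_rfl
          have hr := add_nonneg (mul_nonneg hk hr1) (mul_nonneg hj hr2)
          rcases hj.eq_or_lt with hj0 | hj0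
          · simp only [← hj0, zero_mul]
            rw [← hj0] at hr
            simpa using hr
          rcases hk.eq_or_lt with hk0 | hk0
          · simp only [← hk0, mul_zero]
            rw [← hk0] at hr
            simpa using hr
          simp only
          rw [Real.log_mul hj0.ne' hk0.ne']
          have e1 : -(Real.log (eig (rdm A Ω) j) + Real.log (eig (rdm B Ω') k)) -
              (vnEntropy (rdm A Ω) + vnEntropy (rdm B Ω')) =
              dev (rdm A Ω) j + dev (rdm B Ω') k := by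
            rw [dev, dev]; ring
          rw [e1]
          by_cases hu : u ≤ |dev (rdm A Ω) j + dev (rdm B Ω') k|
          · rw [if_pos hu]
            have h3 := abs_add_le (dev (rdm A Ω) j) (dev (rdm B Ω') k)
            by_cases h4 : u / 2 ≤ |dev (rdm A Ω) j|
            · rw [if_pos h4]
              have := mul_nonneg hj hr2
              linarith [mul_comm (eig (rdm A Ω) j) (eig (rdm B Ω') k)]
            · rw [if_neg h4]
              have h5 : u / 2 ≤ |dev (rdm B Ω') k| := by linarith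
              rw [if_pos h5]
              linarith
          · rw [if_neg hu]
            exact hr
      _ = (∑ j, (if u / 2 ≤ |dev (rdm A Ω) j| then eig (rdm A Ω) j else 0)) +
          ∑ k, (if u / 2 ≤ |dev (rdm B Ω') k| then eig (rdm B Ω') k else 0) := by
          simp only [Finset.sum_add_distrib]
          congr 1
          · refine Finset.sum_congr rfl fun j _ => ?_
            rw [← Finset.sum_mul, h2, one_mul]
          · rw [← Finset.sum_mul_sum, h1, one_mul]
      _ ≤ 6 * Real.exp (-(u / 2 / a)) + 6 * Real.exp (-(u / 2 / a)) := by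
          refine add_le_add ?_ ?_
          · convert hA' using 2
          · convert hB' using 2
      _ = _ := by ring
  exact sa2b_num ha0 hone htwo

end rdm

end Vale.Agent.P356.SA
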