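import Vale.Agent.P356.SA.Defs

/-!
Two copies of a system: calculus of `dbl`, `cp1`, `cp2`.
-/

set_option linter.all false

namespace Vale.Agent.P356.SA

open Matrix Finset Vale.Agent.P356 Vale.Agent.P356.SV Vale.Agent.P356.Path Vale.Agent.P356.NA
open scoped BigOperators ComplexOrder Kronecker

variable {V W : Type} [Fintype V] [DecidableEq V] [Fintype W] [DecidableEq W] {q : ℕ}

/-- sums over configurations of two copies -/
theorem sa2_sum {M : Type*} [AddCommMonoid M] (F : Conf V q → Conf W q → M) :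
    ∑ s : Conf (V ⊕ W) q, F (s ∘ Sum.inl) (s ∘ Sum.inr) = ∑ a, ∑ b, F a b := by
  rw [← Fintype.sum_prod_type' F]
  exact Fintype.sum_equiv (Equiv.sumArrowEquivProdArrow V W (Fin q)) _ _ fun s => rfl

theorem sa2_elim_inl (a : Conf V q) (b : Conf W q) :
    (Sum.elim a b : Conf (V ⊕ W) q) ∘ Sum.inl = a := rfl

theorem sa2_elim_inr (a : Conf V q) (b : Conf W q) :
    (Sum.elim a b : Conf (V ⊕ W) q) ∘ Sum.inr = b := rfl

theorem sa2_elim (s : Conf (V ⊕ W) q) : (Sum.elim (s ∘ Sum.inl) (s ∘ Sum.inr) : Conf (V ⊕ W) q) = s :=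
  funext fun x => by cases x <;> rfl

theorem sa2_sum' {M : Type*} [AddCommMonoid M] (F : Conf (V ⊕ W) q → M) :
    ∑ s, F s = ∑ a : Conf V q, ∑ b : Conf W q, F (Sum.elim a b) := by
  rw [← sa2_sum fun a b => F (Sum.elim a b)]
  exact Finset.sum_congr rfl fun s _ => by rw [sa2_elim]

theorem nsq_dbl (Ω : Conf V q → ℂ) (Ω' : Conf W q → ℂ) : nsq (dbl Ω Ω') = nsq Ω * nsq Ω' := by
  unfold nsq dbl
  rw [sa2_sum fun a b => ‖Ω a * Ω' b‖ ^ 2, Finset.sum_mul_sum]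
  exact Finset.sum_congr rfl fun a _ => Finset.sum_congr rfl fun b _ => by
    rw [norm_mul, mul_pow]

theorem ip_dbl (Ω φ : Conf V q → ℂ) (Ω' φ' : Conf W q → ℂ) :
    star (dbl Ω Ω') ⬝ᵥ dbl φ φ' = (star Ω ⬝ᵥ φ) * (star Ω' ⬝ᵥ φ') := by
  unfold dotProduct dbl
  refine (sa2_sum fun a b => star (Ω a * Ω' b) * (φ a * φ' b)).trans ?_
  rw [Finset.sum_mul_sum]
  refine Finset.sum_congr rfl fun a _ => Finset.sum_congr rfl fun b _ => ?_
  rw [star_mul', Pi.star_apply, Pi.star_apply]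
  ring

theorem sa2_cp1 (A : Op V q) : (cp1 A : Op (V ⊕ W) q) =
    (A ⊗ₖ (1 : Op W q)).submatrix (Equiv.sumArrowEquivProdArrow V W (Fin q))
      (Equiv.sumArrowEquivProdArrow V W (Fin q)) := by
  ext s t
  rw [submatrix_apply]
  change _ = A _ _ * (1 : Op W q) _ _
  rw [one_apply]
  rfl

theorem sa2_cp2 (A : Op W q) : (cp2 A : Op (V ⊕ W) q) =
    ((1 : Op V q) ⊗ₖ A).submatrix (Equiv.sumArrowEquivProdArrow V W (Fin q))
      (Equiv.sumArrowEquivProdArrow V W (Fin q)) := by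
  ext s t
  rw [submatrix_apply]
  change _ = (1 : Op V q) _ _ * A _ _
  rw [one_apply]
  rfl

/-- action of `cp1` on slices -/
theorem sa2_cp1_apply (A : Op V q) (ψ : Conf (V ⊕ W) q → ℂ) (s : Conf (V ⊕ W) q) :
    ((cp1 A : Op (V ⊕ W) q) *ᵥ ψ) s =
      (A *ᵥ fun a => ψ (Sum.elim a (s ∘ Sum.inr))) (s ∘ Sum.inl) := by
  change ∑ t, cp1 A s t * ψ t = ∑ a, A (s ∘ Sum.inl) a * ψ (Sum.elim a (s ∘ Sum.inr))
  rw [sa2_sum']
  refine Finset.sum_congr rfl fun a _ => ?_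
  rw [Finset.sum_eq_single (s ∘ Sum.inr)]
  · unfold cp1
    rw [sa2_elim_inl, sa2_elim_inr, if_pos rfl, mul_one]
  · intro b _ hb
    unfold cp1
    rw [sa2_elim_inl, sa2_elim_inr, if_neg (Ne.symm hb), mul_zero, zero_mul]
  · intro h
    exact absurd (Finset.mem_univ _) h

/-- action of `cp2` on slices -/
theorem sa2_cp2_apply (A : Op W q) (ψ : Conf (V ⊕ W) q → ℂ) (s : Conf (V ⊕ W) q) :
    ((cp2 A : Op (V ⊕ W) q) *ᵥ ψ) s =
      (A *ᵥ fun b => ψ (Sum.elim (s ∘ Sum.inl) b)) (s ∘ Sum.inr) := by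
  change ∑ t, cp2 A s t * ψ t = ∑ b, A (s ∘ Sum.inr) b * ψ (Sum.elim (s ∘ Sum.inl) b)
  rw [sa2_sum', Finset.sum_comm]
  refine Finset.sum_congr rfl fun b _ => ?_
  rw [Finset.sum_eq_single (s ∘ Sum.inl)]
  · unfold cp2
    rw [sa2_elim_inl, sa2_elim_inr, if_pos rfl, one_mul]
  · intro a _ ha
    unfold cp2
    rw [sa2_elim_inl, sa2_elim_inr, if_neg (Ne.symm ha), zero_mul, zero_mul]
  · intro h
    exact absurd (Finset.mem_univ _) h

theorem cp1_dbl (A : Op V q) (Ω : Conf V q → ℂ) (Ω' : Conf W q → ℂ) :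
    (cp1 A : Op (V ⊕ W) q) *ᵥ dbl Ω Ω' = dbl (A *ᵥ Ω) Ω' := by
  funext s
  rw [sa2_cp1_apply]
  change ∑ a, A _ a * (Ω a * Ω' (s ∘ Sum.inr)) = (∑ a, A _ a * Ω a) * Ω' (s ∘ Sum.inr)
  rw [Finset.sum_mul]
  exact Finset.sum_congr rfl fun a _ => (mul_assoc _ _ _).symm

theorem cp2_dbl (A : Op W q) (Ω : Conf V q → ℂ) (Ω' : Conf W q → ℂ) :
    (cp2 A : Op (V ⊕ W) q) *ᵥ dbl Ω Ω' = dbl Ω (A *ᵥ Ω') := by
  funext s
  rw [sa2_cp2_apply]
  change ∑ b, A _ b * (Ω (s ∘ Sum.inl) * Ω' b) = Ω (s ∘ Sum.inl) * ∑ b, A _ b * Ω' b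
  rw [Finset.mul_sum]
  exact Finset.sum_congr rfl fun a _ => by ring

theorem cp1_mul (A B : Op V q) : (cp1 (A * B) : Op (V ⊕ W) q) = cp1 A * cp1 B := by
  rw [sa2_cp1, sa2_cp1, sa2_cp1, submatrix_mul_equiv, ← mul_kronecker_mul, one_mul]

theorem cp2_mul (A B : Op W q) : (cp2 (A * B) : Op (V ⊕ W) q) = cp2 A * cp2 B := by
  rw [sa2_cp2, sa2_cp2, sa2_cp2, submatrix_mul_equiv, ← mul_kronecker_mul, one_mul]

theorem cp1_add (A B : Op V q) : (cp1 (A + B) : Op (V ⊕ W) q) = cp1 A + cp1 B := by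
  ext s t
  exact add_mul _ _ _

theorem cp2_add (A B : Op W q) : (cp2 (A + B) : Op (V ⊕ W) q) = cp2 A + cp2 B := by
  ext s t
  exact mul_add _ _ _

theorem cp1_smul (c : ℂ) (A : Op V q) : (cp1 (c • A) : Op (V ⊕ W) q) = c • cp1 A := by
  ext s t
  exact mul_assoc _ _ _

theorem cp2_smul (c : ℂ) (A : Op W q) : (cp2 (c • A) : Op (V ⊕ W) q) = c • cp2 A := by
  ext s t
  exact mul_left_comm _ _ _

theorem cp1_zero : (cp1 0 : Op (V ⊕ W) q) = 0 := by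
  ext s t
  exact zero_mul _

theorem cp2_zero : (cp2 0 : Op (V ⊕ W) q) = 0 := by
  ext s t
  exact mul_zero _

theorem cp1_neg (A : Op V q) : (cp1 (-A) : Op (V ⊕ W) q) = -cp1 A := by
  ext s t
  exact neg_mul _ _

theorem cp2_neg (A : Op W q) : (cp2 (-A) : Op (V ⊕ W) q) = -cp2 A := by
  ext s t
  exact mul_neg _ _

theorem cp1_sub (A B : Op V q) : (cp1 (A - B) : Op (V ⊕ W) q) = cp1 A - cp1 B := by
  rw [sub_eq_add_neg, cp1_add, cp1_neg, sub_eq_add_neg]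

theorem cp2_sub (A B : Op W q) : (cp2 (A - B) : Op (V ⊕ W) q) = cp2 A - cp2 B := by
  rw [sub_eq_add_neg, cp2_add, cp2_neg, sub_eq_add_neg]

theorem cp1_sum {ι : Type*} (s : Finset ι) (A : ι → Op V q) :
    (cp1 (∑ i ∈ s, A i) : Op (V ⊕ W) q) = ∑ i ∈ s, cp1 (A i) := by
  classical
  induction s using Finset.induction_on with
  | empty => rw [Finset.sum_empty, Finset.sum_empty, cp1_zero]
  | insert i s hi ih => rw [Finset.sum_insert hi, Finset.sum_insert hi, cp1_add, ih]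

theorem cp2_sum {ι : Type*} (s : Finset ι) (A : ι → Op W q) :
    (cp2 (∑ i ∈ s, A i) : Op (V ⊕ W) q) = ∑ i ∈ s, cp2 (A i) := by
  classical
  induction s using Finset.induction_on with
  | empty => rw [Finset.sum_empty, Finset.sum_empty, cp2_zero]
  | insert i s hi ih => rw [Finset.sum_insert hi, Finset.sum_insert hi, cp2_add, ih]

theorem cp1_one : (cp1 1 : Op (V ⊕ W) q) = 1 := by
  rw [sa2_cp1, one_kronecker_one, submatrix_one_equiv]

theorem cp2_one : (cp2 1 : Op (V ⊕ W) q) = 1 := by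
  rw [sa2_cp2, one_kronecker_one, submatrix_one_equiv]

theorem cp1_pow (A : Op V q) (n : ℕ) : (cp1 (A ^ n) : Op (V ⊕ W) q) = cp1 A ^ n := by
  induction n with
  | zero => rw [pow_zero, pow_zero, cp1_one]
  | succ n ih => rw [pow_succ, pow_succ, cp1_mul, ih]

theorem cp2_pow (A : Op W q) (n : ℕ) : (cp2 (A ^ n) : Op (V ⊕ W) q) = cp2 A ^ n := by
  induction n with
  | zero => rw [pow_zero, pow_zero, cp2_one]
  | succ n ih => rw [pow_succ, pow_succ, cp2_mul, ih]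

theorem cp1_ct (A : Op V q) : (cp1 A : Op (V ⊕ W) q)ᴴ = cp1 Aᴴ := by
  rw [sa2_cp1, sa2_cp1, conjTranspose_submatrix, conjTranspose_kronecker, conjTranspose_one]

theorem cp2_ct (A : Op W q) : (cp2 A : Op (V ⊕ W) q)ᴴ = cp2 Aᴴ := by
  rw [sa2_cp2, sa2_cp2, conjTranspose_submatrix, conjTranspose_kronecker, conjTranspose_one]

theorem cp12_comm (A : Op V q) (B : Op W q) :
    (cp1 A : Op (V ⊕ W) q) * cp2 B = cp2 B * cp1 A := by
  rw [sa2_cp1, sa2_cp2, submatrix_mul_equiv, submatrix_mul_equiv, ← mul_kronecker_mul,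
    ← mul_kronecker_mul, one_mul, one_mul, mul_one, mul_one]

/-- the norm in slices -/
theorem sa2_nsq_one (ψ : Conf (V ⊕ W) q → ℂ) :
    nsq ψ = ∑ b : Conf W q, nsq fun a : Conf V q => ψ (Sum.elim a b) := by
  unfold nsq
  rw [sa2_sum', Finset.sum_comm]

theorem sa2_nsq_two (ψ : Conf (V ⊕ W) q → ℂ) :
    nsq ψ = ∑ a : Conf V q, nsq fun b : Conf W q => ψ (Sum.elim a b) := by
  unfold nsq
  rw [sa2_sum']

theorem cp1_norm {A : Op V q} {J : ℝ} (h : OpNormLe A J) :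
    OpNormLe (cp1 A : Op (V ⊕ W) q) J := by
  intro ψ
  rw [sa2_nsq_one, sa2_nsq_one ψ, Finset.mul_sum]
  refine Finset.sum_le_sum fun b _ => ?_
  have h1 : (fun a : Conf V q => ((cp1 A : Op (V ⊕ W) q) *ᵥ ψ) (Sum.elim a b)) =
      A *ᵥ fun a => ψ (Sum.elim a b) := funext fun a => sa2_cp1_apply A ψ _
  rw [h1]
  exact h _

theorem cp2_norm {A : Op W q} {J : ℝ} (h : OpNormLe A J) :
    OpNormLe (cp2 A : Op (V ⊕ W) q) J := by
  intro ψ
  rw [sa2_nsq_two, sa2_nsq_two ψ, Finset.mul_sum]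
  refine Finset.sum_le_sum fun a _ => ?_
  have h1 : (fun b : Conf W q => ((cp2 A : Op (V ⊕ W) q) *ᵥ ψ) (Sum.elim a b)) =
      A *ᵥ fun b => ψ (Sum.elim a b) := funext fun b => sa2_cp2_apply A ψ _
  rw [h1]
  exact h _

theorem sa2_en_one (A : Op V q) (ψ : Conf (V ⊕ W) q → ℂ) : en (cp1 A : Op (V ⊕ W) q) ψ =
    ∑ b : Conf W q, en A fun a : Conf V q => ψ (Sum.elim a b) := by
  unfold en
  rw [← Complex.re_sum]
  congr 1
  unfold dotProduct
  rw [sa2_sum', Finset.sum_comm]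
  refine Finset.sum_congr rfl fun b _ => Finset.sum_congr rfl fun a _ => ?_
  rw [sa2_cp1_apply]
  rfl

theorem sa2_en_two (A : Op W q) (ψ : Conf (V ⊕ W) q → ℂ) : en (cp2 A : Op (V ⊕ W) q) ψ =
    ∑ a : Conf V q, en A fun b : Conf W q => ψ (Sum.elim a b) := by
  unfold en
  rw [← Complex.re_sum]
  congr 1
  unfold dotProduct
  rw [sa2_sum']
  refine Finset.sum_congr rfl fun a _ => Finset.sum_congr rfl fun b _ => ?_
  rw [sa2_cp2_apply]
  rfl

theorem cp1_pos {A : Op V q} (h : ∀ ψ, 0 ≤ en A ψ) : ∀ ψ, 0 ≤ en (cp1 A : Op (V ⊕ W) q) ψ := by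
  intro ψ
  rw [sa2_en_one]
  exact Finset.sum_nonneg fun b _ => h _

theorem cp2_pos {A : Op W q} (h : ∀ ψ, 0 ≤ en A ψ) : ∀ ψ, 0 ≤ en (cp2 A : Op (V ⊕ W) q) ψ := by
  intro ψ
  rw [sa2_en_two]
  exact Finset.sum_nonneg fun b _ => h _

theorem cp1_acts {A : Op V q} {X : Finset V} (h : ActsOn X A) :
    ActsOn (X.disjSum ∅) (cp1 A : Op (V ⊕ W) q) := by
  obtain ⟨k, hk⟩ := h
  have hm : ∀ x : X, Sum.inl (x : V) ∈ X.disjSum (∅ : Finset W) := fun x =>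
    Finset.inl_mem_disjSum.2 x.2
  refine ⟨fun s t => k (fun x => s ⟨_, hm x⟩) fun x => t ⟨_, hm x⟩, fun s t => ⟨fun h1 => ?_,
    ?_⟩⟩
  · have h2 : s ∘ Sum.inr = t ∘ Sum.inr := funext fun w => h1 _ fun h =>
      absurd (Finset.inr_mem_disjSum.1 h) (Finset.notMem_empty _)
    change A _ _ * (if s ∘ Sum.inr = t ∘ Sum.inr then 1 else 0) = _
    rw [if_pos h2, mul_one]
    exact (hk _ _).1 fun x hx => h1 _ fun h => hx (Finset.inl_mem_disjSum.1 h)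
  · rintro ⟨x | w, hx, hst⟩
    · change A _ _ * _ = 0
      rw [(hk _ _).2 ⟨x, fun h => hx (Finset.inl_mem_disjSum.2 h), hst⟩, zero_mul]
    · change A _ _ * (if s ∘ Sum.inr = t ∘ Sum.inr then 1 else 0) = 0
      rw [if_neg fun h => hst (congrFun h w), mul_zero]

theorem cp2_acts {A : Op W q} {X : Finset W} (h : ActsOn X A) :
    ActsOn ((∅ : Finset V).disjSum X) (cp2 A : Op (V ⊕ W) q) := by
  obtain ⟨k, hk⟩ := h
  have hm : ∀ x : X, Sum.inr (x : W) ∈ (∅ : Finset V).disjSum X := fun x =>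
    Finset.inr_mem_disjSum.2 x.2
  refine ⟨fun s t => k (fun x => s ⟨_, hm x⟩) fun x => t ⟨_, hm x⟩, fun s t => ⟨fun h1 => ?_,
    ?_⟩⟩
  · have h2 : s ∘ Sum.inl = t ∘ Sum.inl := funext fun w => h1 _ fun h =>
      absurd (Finset.inl_mem_disjSum.1 h) (Finset.notMem_empty _)
    change (if s ∘ Sum.inl = t ∘ Sum.inl then 1 else 0) * A _ _ = _
    rw [if_pos h2, one_mul]
    exact (hk _ _).1 fun x hx => h1 _ fun h => hx (Finset.inr_mem_disjSum.1 h)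
  · rintro ⟨w | x, hx, hst⟩
    · change (if s ∘ Sum.inl = t ∘ Sum.inl then 1 else 0) * A _ _ = 0
      rw [if_neg fun h => hst (congrFun h w), zero_mul]
    · change _ * A _ _ = 0
      rw [(hk _ _).2 ⟨x, fun h => hx (Finset.inr_mem_disjSum.2 h), hst⟩, mul_zero]

end Vale.Agent.P356.SA
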