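import Vale.Agent.P356.SA.Defs
import Vale.Agent.P356.NA.Layer

/-!
Block 7 (geometry): neighbourhoods of a region, sum of their boundaries, choice of the nested cuts
for the decoupling.
-/

set_option linter.all false

namespace Vale.Agent.P356.SA

open Matrix Finset Vale.Agent.P356 Vale.Agent.P356.SV Vale.Agent.P356.Path Vale.Agent.P356.NA
open scoped BigOperators

section nbh
variable {L : ℕ}

/-- neighbourhood of a region -/
def sa7_nb (X : Finset (Site L)) (r : ℕ) : Finset (Site L) :=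
  open Classical in Finset.univ.filter (fun y => ∃ x ∈ X, dist1 x y ≤ r)

theorem sa7_mem_nb {X : Finset (Site L)} {r : ℕ} {y : Site L} :
    y ∈ sa7_nb X r ↔ ∃ x ∈ X, dist1 x y ≤ r := by
  classical
  rw [sa7_nb, Finset.mem_filter]
  exact ⟨fun h => h.2, fun h => ⟨Finset.mem_univ _, h⟩⟩

theorem sa7_nb_mono (X : Finset (Site L)) {r t : ℕ} (h : r ≤ t) : sa7_nb X r ⊆ sa7_nb X t := by
  intro y hy
  rw [sa7_mem_nb] at hy ⊢
  obtain ⟨x, hx, hxy⟩ := hy
  exact ⟨x, hx, hxy.trans h⟩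

theorem sa7_sub_nb (X : Finset (Site L)) (r : ℕ) : X ⊆ sa7_nb X r := by
  intro y hy
  rw [sa7_mem_nb]
  refine ⟨y, hy, ?_⟩
  simp [dist1]

theorem sa7_tri (x y z : Site L) : dist1 x z ≤ dist1 x y + dist1 y z := by
  simp only [dist1]
  omega

theorem sa7_nb_step (X : Finset (Site L)) {r t : ℕ} {x y : Site L} (hx : x ∈ sa7_nb X r)
    (hxy : dist1 x y ≤ t) : y ∈ sa7_nb X (r + t) := by
  rw [sa7_mem_nb] at hx ⊢
  obtain ⟨z, hz, hzx⟩ := hx
  exact ⟨z, hz, (sa7_tri z x y).trans (Nat.add_le_add hzx hxy)⟩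

theorem sa7_nb_rect {X : Finset (Site L)} {x0 x1 y0 y1 : ℕ} (hX : X ⊆ rect L x0 x1 y0 y1)
    (r : ℕ) : sa7_nb X r ⊆ rect L (x0 - r) (x1 + r) (y0 - r) (y1 + r) := by
  intro y hy
  rw [sa7_mem_nb] at hy
  obtain ⟨x, hx, hxy⟩ := hy
  have h1 := hX hx
  rw [na_k_mem] at h1 ⊢
  rw [dist1] at hxy
  omega

/-- at most four neighbours -/
theorem sa7_four (y : Site L) :
    ((Finset.univ : Finset (Site L)).filter (fun x => dist1 x y = 1)).card ≤ 4 := by
  classical
  have h : ((Finset.univ : Finset (Site L)).filter (fun x => dist1 x y = 1)).card ≤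
      (({(0, 1), (0, 2), (1, 0), (2, 0)} : Finset (ℕ × ℕ))).card := by
    refine Finset.card_le_card_of_injOn
      (fun x => (if x.1.val = y.1.val + 1 then 1 else if y.1.val = x.1.val + 1 then 2 else 0,
        if x.2.val = y.2.val + 1 then 1 else if y.2.val = x.2.val + 1 then 2 else 0)) ?_ ?_
    · intro x hx
      rw [Finset.mem_coe, Finset.mem_filter, dist1] at hx
      have h1 := hx.2
      simp only [Finset.coe_insert, Finset.coe_singleton, Set.mem_insert_iff,
        Set.mem_singleton_iff, Prod.mk.injEq]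
      split_ifs <;> simp <;> omega
    · intro x hx x' hx' hxx
      rw [Finset.mem_coe, Finset.mem_filter, dist1] at hx hx'
      have h1 := hx.2
      have h2 := hx'.2
      simp only [Prod.mk.injEq] at hxx
      obtain ⟨h3, h4⟩ := hxx
      obtain ⟨⟨a, ha⟩, ⟨b, hb⟩⟩ := x
      obtain ⟨⟨a', ha'⟩, ⟨b', hb'⟩⟩ := x'
      simp only at h1 h2 h3 h4
      have key : a = a' ∧ b = b' := by
        split_ifs at h3 h4 <;> omega
      obtain ⟨k1, k2⟩ := key
      subst k1
      subst k2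
      rfl
  exact h.trans (by decide)

/-- boundary of a neighbourhood -/
theorem sa7_bdry_nb (X : Finset (Site L)) (r : ℕ) :
    bdry (sa7_nb X r) ≤ 4 * (sa7_nb X (r + 1) \ sa7_nb X r).card := by
  classical
  rw [bdry, mul_comm, ← smul_eq_mul, ← Finset.sum_const]
  have h1 : (Finset.univ : Finset (Site L × Site L)).filter
      (fun p => p.1 ∈ sa7_nb X r ∧ p.2 ∉ sa7_nb X r ∧ dist1 p.1 p.2 = 1) ⊆
      (sa7_nb X (r + 1) \ sa7_nb X r).biUnion (fun y =>
        ((Finset.univ : Finset (Site L)).filter (fun x => dist1 x y = 1)).image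
          (fun x => (x, y))) := by
    intro p hp
    rw [Finset.mem_filter] at hp
    obtain ⟨_, h1, h2, h3⟩ := hp
    rw [Finset.mem_biUnion]
    refine ⟨p.2, Finset.mem_sdiff.mpr ⟨sa7_nb_step X h1 h3.le, h2⟩, ?_⟩
    rw [Finset.mem_image]
    exact ⟨p.1, Finset.mem_filter.mpr ⟨Finset.mem_univ _, h3⟩, rfl⟩
  refine (Finset.card_le_card h1).trans (Finset.card_biUnion_le.trans ?_)
  exact Finset.sum_le_sum fun y _ => Finset.card_image_le.trans (sa7_four y)

/-- sum of the boundaries -/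
theorem sa7_bdry_sum (X : Finset (Site L)) (R N : ℕ) :
    ∑ k ∈ range N, bdry (sa7_nb X (k * (R + 1))) ≤ 4 * (sa7_nb X (N * (R + 1))).card := by
  classical
  induction N with
  | zero => simp
  | succ N ih =>
    rw [Finset.sum_range_succ]
    have h1 := sa7_bdry_nb X (N * (R + 1))
    have h2 : (sa7_nb X (N * (R + 1))).card + (sa7_nb X (N * (R + 1) + 1) \
        sa7_nb X (N * (R + 1))).card ≤ (sa7_nb X ((N + 1) * (R + 1))).card := by
      rw [Nat.add_comm, Finset.card_sdiff_add_card_eq_card (sa7_nb_mono X (Nat.le_succ _))]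
      refine Finset.card_le_card (sa7_nb_mono X ?_)
      rw [Nat.add_mul, Nat.one_mul]
      omega
    omega

theorem sa7_card_nb {X : Finset (Site L)} {x0 x1 y0 y1 l r : ℕ} (hX : X ⊆ rect L x0 x1 y0 y1)
    (hx : x1 ≤ x0 + l) (hy : y1 ≤ y0 + l) (hr : r ≤ l) : (sa7_nb X r).card ≤ 9 * l ^ 2 := by
  refine (Finset.card_le_card (sa7_nb_rect hX r)).trans ?_
  refine (na_k_card_rect L _ _ _ _ (3 * l) (by omega) (by omega)).trans (le_of_eq ?_)
  ring

end nbh

section select

/-- pigeonhole -/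
theorem sa7_few (f : ℕ → ℝ) (N : ℕ) {P T : ℝ} (hf : ∀ k, 0 ≤ f k) (hP : 0 < P) {n : ℕ}
    (hsum : ∑ k ∈ range N, f k ≤ P * n) : ((range N).filter (fun k => P < f k)).card ≤ n := by
  have h1 : P * (((range N).filter (fun k => P < f k)).card : ℝ) ≤ P * n := by
    calc P * (((range N).filter (fun k => P < f k)).card : ℝ) =
        ∑ k ∈ (range N).filter (fun k => P < f k), P := by
          rw [Finset.sum_const, nsmul_eq_mul, mul_comm]
      _ ≤ ∑ k ∈ (range N).filter (fun k => P < f k), f k :=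
          Finset.sum_le_sum fun k hk => (Finset.mem_filter.mp hk).2.le
      _ ≤ ∑ k ∈ range N, f k :=
          Finset.sum_le_sum_of_subset_of_nonneg (Finset.filter_subset _ _) fun k _ _ => hf k
      _ ≤ P * n := hsum
  have h2 := le_of_mul_le_mul_left h1 hP
  exact_mod_cast h2

/-- choice of the cuts -/
theorem sa7_select (f : ℕ → ℝ) (n : ℕ) (hn : 1 ≤ n) {P : ℝ} (hP : 0 < P) (hf : ∀ k, 0 ≤ f k)
    (hsum : ∑ k ∈ range (12 * n + 1), f k ≤ P * n) :
    ∃ (κ : ℕ → ℕ) (h : ℕ), (∀ i < n, κ i < κ (i + 1)) ∧ (∀ i ≤ n, κ i < 4 * n) ∧ 4 * n ≤ h ∧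
      h < 8 * n ∧ f h ≤ P ∧ ∀ i ≤ n, f (κ i) ≤ P ∧ f (12 * n - κ i) ≤ P := by
  classical
  set B := (range (12 * n + 1)).filter (fun k => P < f k) with hB
  have hBn : B.card ≤ n := sa7_few (T := 0) f _ hf hP hsum
  -- the middle cut
  obtain ⟨h, hh1, hh2⟩ : ∃ h ∈ Finset.Ico (4 * n) (8 * n), h ∉ B := by
    by_contra hcon
    push Not at hcon
    have h1 : (Finset.Ico (4 * n) (8 * n)) ⊆ B := hcon
    have h2 := Finset.card_le_card h1
    rw [Nat.card_Ico] at h2
    omega
  rw [Finset.mem_Ico] at hh1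
  have hfh : f h ≤ P := by
    by_contra hcon
    exact hh2 (Finset.mem_filter.mpr ⟨Finset.mem_range.mpr (by omega), not_le.mp hcon⟩)
  -- the good cuts
  set G := (range (4 * n)).filter (fun k => k ∉ B ∧ 12 * n - k ∉ B) with hG
  have hGc : n + 1 ≤ G.card := by
    have h1 : range (4 * n) ⊆ G ∪ (B ∪ B.image (fun k => 12 * n - k)) := by
      intro k hk
      have hk' := Finset.mem_range.mp hk
      rw [Finset.mem_union, Finset.mem_union, Finset.mem_image]
      by_cases h3 : k ∈ B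
      · exact Or.inr (Or.inl h3)
      · by_cases h4 : 12 * n - k ∈ B
        · exact Or.inr (Or.inr ⟨12 * n - k, h4, by omega⟩)
        · exact Or.inl (Finset.mem_filter.mpr ⟨hk, h3, h4⟩)
    have h2 := Finset.card_le_card h1
    have h3 := Finset.card_union_le G (B ∪ B.image (fun k => 12 * n - k))
    have h4 := Finset.card_union_le B (B.image (fun k => 12 * n - k))
    have h5 : (B.image (fun k => 12 * n - k)).card ≤ B.card := Finset.card_image_le
    rw [Finset.card_range] at h2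
    omega
  obtain ⟨G', hG', hG'c⟩ := Finset.exists_subset_card_eq hGc
  set e := G'.orderEmbOfFin hG'c with he
  have hmem : ∀ i, e i ∈ G := fun i => hG' (Finset.orderEmbOfFin_mem G' hG'c i)
  refine ⟨fun i => if hi : i < n + 1 then e ⟨i, hi⟩ else 0, h, ?_, ?_, hh1.1, hh1.2, hfh, ?_⟩
  · intro i hi
    simp only
    rw [dif_pos (by omega : i < n + 1), dif_pos (by omega : i + 1 < n + 1)]
    exact (e.strictMono (by simp [Fin.lt_def]))
  · intro i hi
    simp only
    rw [dif_pos (by omega : i < n + 1)]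
    exact Finset.mem_range.mp (Finset.mem_filter.mp (hmem _)).1
  · intro i hi
    simp only
    rw [dif_pos (by omega : i < n + 1)]
    have h1 := hmem ⟨i, by omega⟩
    rw [hG, Finset.mem_filter] at h1
    obtain ⟨h2, h3, h4⟩ := h1
    rw [Finset.mem_range] at h2
    constructor
    · by_contra hcon
      exact h3 (Finset.mem_filter.mpr ⟨Finset.mem_range.mpr (by omega), not_le.mp hcon⟩)
    · by_contra hcon
      exact h4 (Finset.mem_filter.mpr ⟨Finset.mem_range.mpr (by omega), not_le.mp hcon⟩)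

end select

section cuts
variable {L : ℕ}

theorem sa7_bdry_union (A B : Finset (Site L)) : bdry (A ∪ B) ≤ bdry A + bdry B := by
  classical
  rw [bdry, bdry, bdry]
  refine (Finset.card_le_card ?_).trans (Finset.card_union_le _ _)
  intro p hp
  rw [Finset.mem_filter] at hp
  obtain ⟨_, h1, h2, h3⟩ := hp
  rw [Finset.mem_union] at h1 h2
  push Not at h2
  rw [Finset.mem_union, Finset.mem_filter, Finset.mem_filter]
  rcases h1 with h1 | h1
  · exact Or.inl ⟨Finset.mem_univ _, h1, h2.1, h3⟩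
  · exact Or.inr ⟨Finset.mem_univ _, h1, h2.2, h3⟩

theorem sa7_refl (x : Site L) : dist1 x x = 0 := by simp [dist1]

/-- the cuts -/
theorem sa7_cuts (R n l x0 x1 y0 y1 : ℕ) (hn : 1 ≤ n) (hnl : 12 * n * (R + 1) + (R + 1) ≤ l)
    (hx : x1 ≤ x0 + l) (hy : y1 ≤ y0 + l) {P : ℝ} (hP : 36 * (l : ℝ) ^ 2 ≤ P * n) (hP0 : 0 < P)
    (X Y : Finset (Site L)) (hX : X ⊆ rect L x0 x1 y0 y1)
    (hXY : ∀ x ∈ X, ∀ y ∈ Y, 12 * n * (R + 1) < dist1 x y) :
    ∃ (I O : ℕ → Finset (Site L)) (Z : Finset (Site L)),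
      (∀ k x y, x ∈ I k → dist1 x y ≤ R → y ∈ I (k + 1)) ∧
      (∀ k x y, x ∈ O k → dist1 x y ≤ R → y ∈ O (k + 1)) ∧
      I n \ I 0 ⊆ rect L (x0 - l) (x1 + l) (y0 - l) (y1 + l) ∧
      O n \ O 0 ⊆ rect L (x0 - l) (x1 + l) (y0 - l) (y1 + l) ∧
      (∀ k < n, I k ⊆ Z) ∧ (∀ k < n, Disjoint (O k) Z) ∧ (∀ k < n, Disjoint (I k) (O k)) ∧
      (∀ k < n, X ⊆ I k) ∧ (∀ k < n, Y ⊆ O k) ∧ (bdry Z : ℝ) ≤ P ∧
      (∀ k < n, (bdry (I k) : ℝ) ≤ P) ∧ (∀ k < n, (bdry (O k) : ℝ) ≤ P) := by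
  classical
  have hsum : ∑ k ∈ range (12 * n + 1), ((bdry (sa7_nb X (k * (R + 1))) : ℕ) : ℝ) ≤ P * n := by
    refine le_trans ?_ hP
    have h1 := sa7_bdry_sum X R (12 * n + 1)
    have h2 : (12 * n + 1) * (R + 1) ≤ l := by
      rw [Nat.add_mul, Nat.one_mul]
      exact hnl
    have h3 := sa7_card_nb hX hx hy h2
    have h4 : ∑ k ∈ range (12 * n + 1), bdry (sa7_nb X (k * (R + 1))) ≤ 36 * l ^ 2 := by
      omega
    exact_mod_cast h4
  obtain ⟨κ, h, hκ1, hκ2, hh1, hh2, hfh, hκ3⟩ := sa7_select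
    (fun k => ((bdry (sa7_nb X (k * (R + 1))) : ℕ) : ℝ)) n hn hP0 (fun k => Nat.cast_nonneg _) hsum
  have hmul : ∀ {i j : ℕ}, i ≤ j → i * (R + 1) ≤ j * (R + 1) := fun h => Nat.mul_le_mul_right _ h
  have hmul1 : ∀ {i j : ℕ}, i < j → i * (R + 1) + R ≤ j * (R + 1) := by
    intro i j hij
    have := Nat.mul_le_mul_right (R + 1) (Nat.succ_le_of_lt hij)
    rw [Nat.succ_mul] at this
    omega
  have hrect : ∀ k, k ≤ 12 * n →
      sa7_nb X (k * (R + 1)) ⊆ rect L (x0 - l) (x1 + l) (y0 - l) (y1 + l) := by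
    intro k hk
    refine (sa7_nb_rect hX _).trans ?_
    intro p hp
    rw [na_k_mem] at hp ⊢
    have := hmul hk
    omega
  refine ⟨fun i => if i ≤ n then sa7_nb X (κ i * (R + 1)) else Finset.univ,
    fun i => if i ≤ n then (sa7_nb X ((12 * n - κ i) * (R + 1)))ᶜ else Finset.univ,
    sa7_nb X (h * (R + 1)), ?_, ?_, ?_, ?_, ?_, ?_, ?_, ?_, ?_, hfh, ?_, ?_⟩
  · intro k x y hx' hxy
    simp only at hx' ⊢
    by_cases hk : k + 1 ≤ n
    · rw [if_pos hk]
      rw [if_pos (by omega : k ≤ n)] at hx'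
      exact sa7_nb_mono X (hmul1 (hκ1 k (by omega))) (sa7_nb_step X hx' hxy)
    · rw [if_neg hk]
      exact Finset.mem_univ _
  · intro k x y hx' hxy
    simp only at hx' ⊢
    by_cases hk : k + 1 ≤ n
    · rw [if_pos hk]
      rw [if_pos (by omega : k ≤ n)] at hx'
      rw [Finset.mem_compl] at hx' ⊢
      intro hy'
      apply hx'
      have h1 := hκ1 k (by omega)
      have h2 := hκ2 (k + 1) hk
      refine sa7_nb_mono X (hmul1 (by omega : 12 * n - κ (k + 1) < 12 * n - κ k))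
        (sa7_nb_step X hy' ?_)
      rw [na_k_dist_comm]
      exact hxy
    · rw [if_neg hk]
      exact Finset.mem_univ _
  · simp only
    rw [if_pos le_rfl]
    exact Finset.sdiff_subset.trans (hrect _ (by have := hκ2 n le_rfl; omega))
  · simp only
    rw [if_pos le_rfl, if_pos (Nat.zero_le n)]
    intro p hp
    rw [Finset.mem_sdiff, Finset.mem_compl, Finset.mem_compl, not_not] at hp
    exact hrect _ (Nat.sub_le _ _) hp.2
  · intro k hk
    simp only
    rw [if_pos hk.le]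
    have := hκ2 k hk.le
    exact sa7_nb_mono X (hmul (by omega))
  · intro k hk
    simp only
    rw [if_pos hk.le, Finset.disjoint_left]
    intro p hp hp'
    rw [Finset.mem_compl] at hp
    have := hκ2 k hk.le
    exact hp (sa7_nb_mono X (hmul (by omega)) hp')
  · intro k hk
    simp only
    rw [if_pos hk.le, if_pos hk.le, Finset.disjoint_left]
    intro p hp hp'
    rw [Finset.mem_compl] at hp'
    have := hκ2 k hk.le
    exact hp' (sa7_nb_mono X (hmul (by omega)) hp)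
  · intro k hk
    simp only
    rw [if_pos hk.le]
    exact sa7_sub_nb X _
  · intro k hk
    simp only
    rw [if_pos hk.le]
    intro y hy'
    rw [Finset.mem_compl, sa7_mem_nb]
    rintro ⟨x, hx', hxy⟩
    have h1 := hXY x hx' y hy'
    have h2 := hmul (Nat.sub_le (12 * n) (κ k))
    omega
  · intro k hk
    simp only
    rw [if_pos hk.le]
    exact (hκ3 k hk.le).1
  · intro k hk
    simp only
    rw [if_pos hk.le]
    refine le_trans ?_ (hκ3 k hk.le).2
    exact_mod_cast na_k_bdry_compl _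

end cuts

end Vale.Agent.P356.SA
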