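import Mathlib

/-!
Block 7 (parameters): exponents and numerical estimates for the decoupling.
-/

set_option linter.all false

namespace Vale.Agent.P356.SA

section par

theorem sa7_pow_le {x : ℝ} (hx : 1 ≤ x) {a b : ℝ} (h : a ≤ b) : x ^ a ≤ x ^ b :=
  Real.rpow_le_rpow_of_exponent_le hx h

theorem sa7_one_le {x : ℝ} (hx : 1 ≤ x) {a : ℝ} (h : 0 ≤ a) : 1 ≤ x ^ a :=
  Real.one_le_rpow hx h

/-- the window -/
theorem sa7_p_u {x κ P : ℝ} {n : ℕ} (hx : 1 ≤ x) (hκ : 0 ≤ κ) (hn : (n : ℝ) ≤ 2 * x)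
    (hP0 : 0 ≤ P) (hP : P ≤ 36 * x ^ (21 / 20 : ℝ)) :
    (24 + 12 * Real.sqrt (κ * (2 * P))) * Real.log (2400 * ((n : ℝ) + 1) ^ 2) ≤
      (24 + 12 * Real.sqrt (72 * κ)) * (Real.log 21600 + 20) * x ^ (24 / 25 : ℝ) := by
  have hx0 : 0 < x := by linarith only [hx]
  have hn0 : (0 : ℝ) ≤ n := Nat.cast_nonneg n
  have h1 : Real.sqrt (κ * (2 * P)) ≤ Real.sqrt (72 * κ) * x ^ (21 / 40 : ℝ) := by
    have h2 : κ * (2 * P) ≤ (72 * κ) * x ^ (21 / 20 : ℝ) := by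
      calc κ * (2 * P) ≤ κ * (2 * (36 * x ^ (21 / 20 : ℝ))) := by gcongr
        _ = _ := by ring
    refine (Real.sqrt_le_sqrt h2).trans (le_of_eq ?_)
    rw [Real.sqrt_mul (by positivity)]
    congr 1
    rw [Real.sqrt_eq_rpow, ← Real.rpow_mul hx0.le]
    norm_num
  have h3 : 24 + 12 * Real.sqrt (κ * (2 * P)) ≤
      (24 + 12 * Real.sqrt (72 * κ)) * x ^ (21 / 40 : ℝ) := by
    have h4 := sa7_one_le hx (by norm_num : (0 : ℝ) ≤ 21 / 40)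
    linarith only [h1, h4]
  have h5 : Real.log (2400 * ((n : ℝ) + 1) ^ 2) ≤ (Real.log 21600 + 20) * x ^ (1 / 10 : ℝ) := by
    have h6 : 2400 * ((n : ℝ) + 1) ^ 2 ≤ 21600 * x ^ 2 := by
      have h7 : (n : ℝ) + 1 ≤ 3 * x := by linarith only [hn, hx]
      have h8 : ((n : ℝ) + 1) ^ 2 ≤ (3 * x) ^ 2 := pow_le_pow_left₀ (by positivity) h7 2
      linarith only [h8]
    refine (Real.log_le_log (by positivity) h6).trans ?_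
    rw [Real.log_mul (by norm_num) (by positivity), Real.log_pow]
    have h9 : Real.log x ≤ x ^ (1 / 10 : ℝ) / (1 / 10) :=
      Real.log_le_rpow_div hx0.le (by norm_num)
    have h10 := sa7_one_le hx (by norm_num : (0 : ℝ) ≤ 1 / 10)
    have h11 : 0 ≤ Real.log 21600 := Real.log_nonneg (by norm_num)
    have h12 := mul_le_mul_of_nonneg_left h10 h11
    push_cast
    linarith only [h9, h12]
  have h13 : 0 ≤ Real.log (2400 * ((n : ℝ) + 1) ^ 2) := by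
    refine Real.log_nonneg ?_
    have : (1 : ℝ) ≤ ((n : ℝ) + 1) ^ 2 := one_le_pow₀ (by linarith only [hn0])
    linarith only [this]
  calc (24 + 12 * Real.sqrt (κ * (2 * P))) * Real.log (2400 * ((n : ℝ) + 1) ^ 2) ≤
      ((24 + 12 * Real.sqrt (72 * κ)) * x ^ (21 / 40 : ℝ)) *
        ((Real.log 21600 + 20) * x ^ (1 / 10 : ℝ)) :=
        mul_le_mul h3 h5 h13 (by positivity)
    _ = (24 + 12 * Real.sqrt (72 * κ)) * (Real.log 21600 + 20) *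
        (x ^ (21 / 40 : ℝ) * x ^ (1 / 10 : ℝ)) := by ring
    _ = (24 + 12 * Real.sqrt (72 * κ)) * (Real.log 21600 + 20) * x ^ (5 / 8 : ℝ) := by
      rw [← Real.rpow_add hx0]
      norm_num
    _ ≤ _ := by
      refine mul_le_mul_of_nonneg_left (sa7_pow_le hx (by norm_num)) ?_
      have h11 : 0 ≤ Real.log 21600 := Real.log_nonneg (by norm_num)
      positivity

theorem sa7_p_M {x Cn P : ℝ} (hx : 1 ≤ x) (hCn : 0 ≤ Cn) (hP0 : 0 ≤ P)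
    (hP : P ≤ 36 * x ^ (21 / 20 : ℝ)) :
    Cn * (2 * P) ^ (106 / 105 : ℝ) ≤ Cn * 72 ^ (106 / 105 : ℝ) * x ^ (53 / 50 : ℝ) := by
  have hx0 : 0 < x := by linarith only [hx]
  have h1 : 2 * P ≤ 72 * x ^ (21 / 20 : ℝ) := by linarith only [hP]
  have h2 := Real.rpow_le_rpow (by positivity) h1 (by norm_num : (0 : ℝ) ≤ 106 / 105)
  rw [Real.mul_rpow (x := 72) (by norm_num) (by positivity), ← Real.rpow_mul hx0.le] at h2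
  have h3 : (21 / 20 : ℝ) * (106 / 105) = 53 / 50 := by norm_num
  rw [h3] at h2
  rw [mul_assoc]
  exact mul_le_mul_of_nonneg_left h2 hCn

theorem sa7_p_jl {x c₀ Cj j s K₀ : ℝ} (hx : 1 ≤ x) (hc₀ : 0 < c₀)
    (hjs : j * s ≤ Cj * x ^ (53 / 50 : ℝ)) (hjs0 : 0 ≤ j * s) (hK : x ^ (1 / 10 : ℝ) ≤ K₀) :
    j * (c₀ * s / K₀) ≤ c₀ * Cj * x ^ (24 / 25 : ℝ) := by
  have hx0 : 0 < x := by linarith only [hx]
  have hxp : 0 < x ^ (1 / 10 : ℝ) := Real.rpow_pos_of_pos hx0 _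
  have hK0 : 0 < K₀ := lt_of_lt_of_le hxp hK
  have h1 : j * (c₀ * s / K₀) = c₀ * (j * s) / K₀ := by ring
  rw [h1, div_le_iff₀ hK0]
  have h2 : x ^ (24 / 25 : ℝ) * x ^ (1 / 10 : ℝ) = x ^ (53 / 50 : ℝ) := by
    rw [← Real.rpow_add hx0]
    norm_num
  have hCj : 0 ≤ Cj := by
    by_contra hcon
    have h3 : Cj * x ^ (53 / 50 : ℝ) < 0 :=
      mul_neg_of_neg_of_pos (not_le.mp hcon) (Real.rpow_pos_of_pos hx0 _)
    linarith only [h3, hjs, hjs0]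
  calc c₀ * (j * s) ≤ c₀ * (Cj * x ^ (53 / 50 : ℝ)) := mul_le_mul_of_nonneg_left hjs hc₀.le
    _ = c₀ * Cj * x ^ (24 / 25 : ℝ) * x ^ (1 / 10 : ℝ) := by rw [← h2]; ring
    _ ≤ c₀ * Cj * x ^ (24 / 25 : ℝ) * K₀ := mul_le_mul_of_nonneg_left hK (by positivity)

theorem sa7_p_b {x B C Λ : ℝ} (hx : 1 ≤ x) (hB : B ≤ C * x ^ (53 / 50 : ℝ))
    (hΛ : Λ = x ^ (1 / 10 : ℝ)) : B / Λ ≤ C * x ^ (24 / 25 : ℝ) := by
  have hx0 : 0 < x := by linarith only [hx]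
  have hxp : 0 < Λ := by
    rw [hΛ]
    exact Real.rpow_pos_of_pos hx0 _
  rw [div_le_iff₀ hxp, hΛ]
  have h2 : x ^ (24 / 25 : ℝ) * x ^ (1 / 10 : ℝ) = x ^ (53 / 50 : ℝ) := by
    rw [← Real.rpow_add hx0]
    norm_num
  rw [mul_assoc, h2]
  exact hB

theorem sa7_p_logs {x s : ℝ} (hx : 1 ≤ x) (hs1 : 1 ≤ s) (hs : s ≤ 4 * x ^ (1 / 2 : ℝ)) :
    1 + Real.log s ≤ (51 + Real.log 4) * x ^ (1 / 100 : ℝ) := by
  have hx0 : 0 < x := by linarith only [hx]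
  have h1 := Real.log_le_log (by linarith only [hs1]) hs
  rw [Real.log_mul (by norm_num) (Real.rpow_pos_of_pos hx0 _).ne', Real.log_rpow hx0] at h1
  have h2 : Real.log x ≤ x ^ (1 / 100 : ℝ) / (1 / 100) :=
    Real.log_le_rpow_div hx0.le (by norm_num)
  have h3 := sa7_one_le hx (by norm_num : (0 : ℝ) ≤ 1 / 100)
  have h4 : 0 ≤ Real.log 4 := Real.log_nonneg (by norm_num)
  have h5 := mul_le_mul_of_nonneg_left h3 h4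
  linarith only [h1, h2, h3, h5]

theorem sa7_p_jg {x C₁ Cj Cl j s K₀ Λ n ls : ℝ} (hx : 1 ≤ x) (hC₁ : 0 < C₁) (hCl : 0 ≤ Cl)
    (hjs : j * s ≤ Cj * x ^ (53 / 50 : ℝ)) (hj : 0 ≤ j) (hs0 : 0 < s) (hK0 : 0 ≤ K₀)
    (hK : K₀ ≤ 2 * x ^ (1 / 10 : ℝ)) (hls0 : 0 ≤ ls) (hls : ls ≤ Cl * x ^ (1 / 100 : ℝ))
    (hs : s ≤ 4 * x ^ (1 / 2 : ℝ)) (hΛ : Λ = x ^ (1 / 10 : ℝ)) (hn : x ^ (19 / 20 : ℝ) ≤ n) :
    j * (C₁ * K₀ * ls * s ^ 4 * (Λ / n) ^ 2) / (2 * Λ) ≤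
      64 * C₁ * Cj * Cl * x ^ (24 / 25 : ℝ) := by
  have hx0 : 0 < x := by linarith only [hx]
  have hpos : ∀ a : ℝ, 0 < x ^ a := fun a => Real.rpow_pos_of_pos hx0 a
  have hΛ0 : 0 < Λ := by rw [hΛ]; exact hpos _
  have hn0 : 0 < n := lt_of_lt_of_le (hpos _) hn
  have hCj : 0 ≤ Cj := by
    by_contra hcon
    have h3 : Cj * x ^ (53 / 50 : ℝ) < 0 := mul_neg_of_neg_of_pos (not_le.mp hcon) (hpos _)
    have h4 : 0 ≤ j * s := mul_nonneg hj hs0.le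
    linarith only [h3, hjs, h4]
  have h1 : j * (C₁ * K₀ * ls * s ^ 4 * (Λ / n) ^ 2) / (2 * Λ) =
      C₁ * (j * s) * K₀ * ls * s ^ 3 * Λ / (2 * n ^ 2) := by
    field_simp
  rw [h1, div_le_iff₀ (by positivity)]
  have h2 : C₁ * (j * s) * K₀ * ls * s ^ 3 * Λ ≤
      C₁ * (Cj * x ^ (53 / 50 : ℝ)) * (2 * x ^ (1 / 10 : ℝ)) * (Cl * x ^ (1 / 100 : ℝ)) *
        (4 * x ^ (1 / 2 : ℝ)) ^ 3 * x ^ (1 / 10 : ℝ) := by
    rw [hΛ]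
    have hp1 := hpos (53 / 50)
    have hp2 := hpos (1 / 10)
    have hp3 := hpos (1 / 100)
    have hp4 := hpos (1 / 2)
    gcongr
  refine h2.trans ?_
  have h3 : x ^ (53 / 50 : ℝ) * x ^ (1 / 10 : ℝ) * x ^ (1 / 100 : ℝ) * (x ^ (1 / 2 : ℝ)) ^ 3 *
      x ^ (1 / 10 : ℝ) = x ^ (87 / 100 : ℝ) * (x ^ (19 / 20 : ℝ)) ^ 2 := by
    rw [← Real.rpow_natCast (x ^ (1 / 2 : ℝ)), ← Real.rpow_natCast (x ^ (19 / 20 : ℝ)),
      ← Real.rpow_mul hx0.le, ← Real.rpow_mul hx0.le, ← Real.rpow_add hx0, ← Real.rpow_add hx0,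
      ← Real.rpow_add hx0, ← Real.rpow_add hx0, ← Real.rpow_add hx0]
    norm_num
  have h4 : (x ^ (19 / 20 : ℝ)) ^ 2 ≤ n ^ 2 := pow_le_pow_left₀ (hpos _).le hn 2
  have h5 : x ^ (87 / 100 : ℝ) ≤ x ^ (24 / 25 : ℝ) := sa7_pow_le hx (by norm_num)
  calc C₁ * (Cj * x ^ (53 / 50 : ℝ)) * (2 * x ^ (1 / 10 : ℝ)) * (Cl * x ^ (1 / 100 : ℝ)) *
        (4 * x ^ (1 / 2 : ℝ)) ^ 3 * x ^ (1 / 10 : ℝ) =
      128 * C₁ * Cj * Cl * (x ^ (53 / 50 : ℝ) * x ^ (1 / 10 : ℝ) * x ^ (1 / 100 : ℝ) *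
        (x ^ (1 / 2 : ℝ)) ^ 3 * x ^ (1 / 10 : ℝ)) := by ring
    _ = 128 * C₁ * Cj * Cl * (x ^ (87 / 100 : ℝ) * (x ^ (19 / 20 : ℝ)) ^ 2) := by rw [h3]
    _ ≤ 128 * C₁ * Cj * Cl * (x ^ (24 / 25 : ℝ) * n ^ 2) := by
      refine mul_le_mul_of_nonneg_left ?_ (by positivity)
      exact mul_le_mul h5 h4 (by positivity) (hpos _).le
    _ = _ := by ring

theorem sa7_p_log {x C Q : ℝ} {n : ℝ} (hx : 1 ≤ x) (hC : 1 ≤ C) (hn0 : 0 < n) (hn : n ≤ 2 * x)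
    (hQ0 : 0 < Q) (hQ : Q ≤ C * x ^ (53 / 50 : ℝ)) :
    Real.log (n * Q) ≤ (Real.log (2 * C) + 4) * x ^ (24 / 25 : ℝ) := by
  have hx0 : 0 < x := by linarith only [hx]
  have h1 : n * Q ≤ (2 * C) * x ^ 3 := by
    have h2 : x ^ (53 / 50 : ℝ) ≤ x ^ 2 := by
      rw [← Real.rpow_natCast x 2]
      exact sa7_pow_le hx (by norm_num)
    calc n * Q ≤ (2 * x) * (C * x ^ 2) := by
          refine mul_le_mul hn (hQ.trans ?_) hQ0.le (by positivity)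
          exact mul_le_mul_of_nonneg_left h2 (by linarith only [hC])
      _ = _ := by ring
  have h2 := Real.log_le_log (mul_pos hn0 hQ0) h1
  rw [Real.log_mul (x := 2 * C) (by positivity) (by positivity), Real.log_pow] at h2
  have h3 : Real.log x ≤ x ^ (24 / 25 : ℝ) / (24 / 25) :=
    Real.log_le_rpow_div hx0.le (by norm_num)
  have h4 := sa7_one_le hx (by norm_num : (0 : ℝ) ≤ 24 / 25)
  have h5 : 0 ≤ Real.log (2 * C) := Real.log_nonneg (by linarith only [hC])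
  have h6 := mul_le_mul_of_nonneg_left h4 h5
  push_cast at h2
  linarith only [h2, h3, h4, h6]

theorem sa7_ceil {y : ℝ} (hy : 1 ≤ y) : ∃ n : ℕ, 1 ≤ n ∧ y ≤ n ∧ (n : ℝ) ≤ 2 * y := by
  have h1 : y ≤ (⌈y⌉₊ : ℝ) := Nat.le_ceil y
  refine ⟨⌈y⌉₊, ?_, h1, ?_⟩
  · have : (1 : ℝ) ≤ (⌈y⌉₊ : ℝ) := hy.trans h1
    exact_mod_cast this
  · have := (Nat.ceil_lt_add_one (by linarith only [hy] : (0 : ℝ) ≤ y)).le
    linarith only [this, hy]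

theorem sa7_sq {l : ℕ} (hl : 1 ≤ l) : ∃ s : ℕ, 1 ≤ s ∧ 3 * l ≤ s ^ 2 ∧ s ^ 2 ≤ 4 * (3 * l) ∧
    (s : ℝ) ≤ 4 * (l : ℝ) ^ (1 / 2 : ℝ) ∧ (l : ℝ) ^ (1 / 2 : ℝ) ≤ s := by
  have h1 : 3 * l < (Nat.sqrt (3 * l) + 1) ^ 2 := by
    rw [sq]
    exact Nat.lt_succ_sqrt (3 * l)
  have h2 : Nat.sqrt (3 * l) * Nat.sqrt (3 * l) ≤ 3 * l := Nat.sqrt_le (3 * l)
  have h3 : 1 ≤ Nat.sqrt (3 * l) := by
    rw [Nat.le_sqrt]
    omega
  have h4 : (Nat.sqrt (3 * l) + 1) ^ 2 ≤ 4 * (3 * l) := by nlinarith only [h2, h3]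
  have h0 : (0 : ℝ) ≤ l := Nat.cast_nonneg l
  refine ⟨Nat.sqrt (3 * l) + 1, Nat.le_add_left _ _, h1.le, h4, ?_, ?_⟩
  · have h5 : (((Nat.sqrt (3 * l) + 1 : ℕ) : ℝ)) ^ 2 ≤ (4 * (l : ℝ) ^ (1 / 2 : ℝ)) ^ 2 := by
      have h6 : (((Nat.sqrt (3 * l) + 1) ^ 2 : ℕ) : ℝ) ≤ ((4 * (3 * l) : ℕ) : ℝ) := by
        exact_mod_cast h4
      rw [← Real.sqrt_eq_rpow, mul_pow, Real.sq_sqrt h0]
      push_cast at h6 ⊢
      linarith only [h6, h0]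
    exact le_of_sq_le_sq h5 (by positivity)
  · have h5 : ((l : ℝ) ^ (1 / 2 : ℝ)) ^ 2 ≤ (((Nat.sqrt (3 * l) + 1 : ℕ) : ℝ)) ^ 2 := by
      have h6 : ((3 * l : ℕ) : ℝ) ≤ (((Nat.sqrt (3 * l) + 1) ^ 2 : ℕ) : ℝ) := by
        exact_mod_cast h1.le
      rw [← Real.sqrt_eq_rpow, Real.sq_sqrt h0]
      push_cast at h6 ⊢
      linarith only [h6, h0]
    exact le_of_sq_le_sq h5 (by positivity)

/-- thresholds -/
theorem sa7_thr {R l : ℕ} (hl : (25 * (R + 1)) ^ 20 ≤ l) :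
    25 * ((R : ℝ) + 1) * (l : ℝ) ^ (19 / 20 : ℝ) ≤ l ∧ 16 ≤ (l : ℝ) := by
  have h3 : (((25 * (R + 1) : ℕ) : ℝ) ^ 20) ≤ l := by exact_mod_cast hl
  have h4 := Real.rpow_le_rpow (by positivity) h3 (by norm_num : (0 : ℝ) ≤ 1 / 20)
  have h5 : (((25 * (R + 1) : ℕ) : ℝ) ^ 20) ^ (1 / 20 : ℝ) = ((25 * (R + 1) : ℕ) : ℝ) := by
    rw [← Real.rpow_natCast, ← Real.rpow_mul (by positivity)]
    norm_num
  rw [h5] at h4
  have h25 : (25 : ℝ) ≤ ((25 * (R + 1) : ℕ) : ℝ) := by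
    have : 25 ≤ 25 * (R + 1) := by omega
    exact_mod_cast this
  have h16 : (16 : ℝ) ≤ l := by
    refine le_trans ?_ h3
    have h6 : ((25 * (R + 1) : ℕ) : ℝ) ≤ ((25 * (R + 1) : ℕ) : ℝ) ^ 20 :=
      le_self_pow₀ (by linarith only [h25]) (by norm_num)
    linarith only [h6, h25]
  have hl0 : (0 : ℝ) < l := by linarith only [h16]
  refine ⟨?_, h16⟩
  have h6 : (l : ℝ) ^ (1 / 20 : ℝ) * (l : ℝ) ^ (19 / 20 : ℝ) = l := by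
    rw [← Real.rpow_add hl0]
    norm_num
  calc 25 * ((R : ℝ) + 1) * (l : ℝ) ^ (19 / 20 : ℝ) ≤
      (l : ℝ) ^ (1 / 20 : ℝ) * (l : ℝ) ^ (19 / 20 : ℝ) := by
        refine mul_le_mul_of_nonneg_right ?_ (by positivity)
        push_cast at h4
        exact h4
    _ = l := h6

theorem sa7_four_le {x : ℝ} (hx : 16 ≤ x) : 4 * x ^ (1 / 10 : ℝ) ≤ x ^ (19 / 20 : ℝ) := by
  have hx0 : 0 < x := by linarith only [hx]
  have hx1 : 1 ≤ x := by linarith only [hx]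
  have h1 : (4 : ℝ) ≤ x ^ (1 / 2 : ℝ) := by
    rw [← Real.sqrt_eq_rpow]
    rw [Real.le_sqrt (by norm_num) hx0.le]
    linarith only [hx]
  have h2 : x ^ (1 / 2 : ℝ) ≤ x ^ (17 / 20 : ℝ) := sa7_pow_le hx1 (by norm_num)
  calc 4 * x ^ (1 / 10 : ℝ) ≤ x ^ (17 / 20 : ℝ) * x ^ (1 / 10 : ℝ) :=
        mul_le_mul_of_nonneg_right (h1.trans h2) (by positivity)
    _ = _ := by
      rw [← Real.rpow_add hx0]
      norm_num

theorem sa7_p_j {b c₀ s : ℝ} (hb : 0 ≤ b) (hc₀ : 0 < c₀) (hs : 0 < s) :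
    ∃ j : ℕ, b + 3 ≤ j * (c₀ * s) ∧ (j : ℝ) * s ≤ (b + 3) / c₀ + s := by
  have hcs : 0 < c₀ * s := mul_pos hc₀ hs
  refine ⟨⌈(b + 3) / (c₀ * s)⌉₊, ?_, ?_⟩
  · have h1 : (b + 3) / (c₀ * s) ≤ (⌈(b + 3) / (c₀ * s)⌉₊ : ℝ) := Nat.le_ceil _
    rwa [div_le_iff₀ hcs] at h1
  · have h2 : (⌈(b + 3) / (c₀ * s)⌉₊ : ℝ) ≤ (b + 3) / (c₀ * s) + 1 :=
      (Nat.ceil_lt_add_one (by positivity)).le
    have h3 := mul_le_mul_of_nonneg_right h2 hs.le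
    refine h3.trans (le_of_eq ?_)
    field_simp

/-- the final sum of the errors -/
theorem sa7_p_total {x Cu CM C₁ c₀ Cj Cb Cl u M b g lD j n Λ s K₀ ls : ℝ} (hx : 1 ≤ x)
    (hCu : 0 ≤ Cu) (hCM : 0 ≤ CM) (hC₁ : 0 < C₁) (hc₀ : 0 < c₀) (hCl : 0 ≤ Cl) (hu0 : 0 ≤ u)
    (hM0 : 0 ≤ M)
    (hu : u ≤ Cu * x ^ (24 / 25 : ℝ)) (hM : M ≤ CM * x ^ (53 / 50 : ℝ))
    (hb : b = 2 * (M + u) + 2) (hCb : Cb = 2 * (CM + Cu) + 2) (hCj : Cj = (Cb + 3) / c₀ + 4)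
    (hj : 0 ≤ j) (hj2 : j * s ≤ (b + 3) / c₀ + s) (hs0 : 0 < s) (hs : s ≤ 4 * x ^ (1 / 2 : ℝ))
    (hK0 : 0 ≤ K₀) (hK1 : x ^ (1 / 10 : ℝ) ≤ K₀) (hK : K₀ ≤ 2 * x ^ (1 / 10 : ℝ))
    (hls0 : 0 ≤ ls) (hls : ls ≤ Cl * x ^ (1 / 100 : ℝ)) (hΛ : Λ = x ^ (1 / 10 : ℝ))
    (hn1 : 1 ≤ n) (hn : x ^ (19 / 20 : ℝ) ≤ n) (hn2 : n ≤ 2 * x ^ (19 / 20 : ℝ))
    (hg : g = C₁ * K₀ * ls * s ^ 4 * (Λ / n) ^ 2) (hlD : lD = c₀ * s / K₀) :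
    2 * u + 6 + j * g / (2 * Λ) + (b + 3 + j * lD) / Λ + j * lD + n + 2 * Real.log n +
        Real.log (n * ((M + u) + 2 + j * g / (2 * Λ) + (b + 3 + j * lD) / Λ)) ≤
      (2 * Cu + 6 + 64 * C₁ * Cj * Cl + (Cb + 3 + c₀ * Cj) + c₀ * Cj + 2 + 4 +
        (Real.log (2 * (CM + Cu + 2 + 64 * C₁ * Cj * Cl + (Cb + 3 + c₀ * Cj))) + 4)) *
          x ^ (24 / 25 : ℝ) := by
  have hx0 : 0 < x := by linarith only [hx]
  have hw := sa7_one_le hx (by norm_num : (0 : ℝ) ≤ 24 / 25)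
  have hww : x ^ (24 / 25 : ℝ) ≤ x ^ (53 / 50 : ℝ) := sa7_pow_le hx (by norm_num)
  have hCb0 : 0 ≤ Cb := by rw [hCb]; positivity
  have hCj0 : 0 ≤ Cj := by rw [hCj]; positivity
  have hb0 : 0 ≤ b := by rw [hb]; positivity
  have hbC : b ≤ Cb * x ^ (53 / 50 : ℝ) := by
    have h1 : Cu * x ^ (24 / 25 : ℝ) ≤ Cu * x ^ (53 / 50 : ℝ) :=
      mul_le_mul_of_nonneg_left hww hCu
    rw [hb, hCb]
    linarith only [hu, hM, h1, hw, hww]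
  have hjs : j * s ≤ Cj * x ^ (53 / 50 : ℝ) := by
    have h1 : (b + 3) / c₀ ≤ (Cb + 3) / c₀ * x ^ (53 / 50 : ℝ) := by
      rw [div_mul_eq_mul_div]
      refine div_le_div_of_nonneg_right ?_ hc₀.le
      linarith only [hbC, hw, hww]
    have h2 : x ^ (1 / 2 : ℝ) ≤ x ^ (53 / 50 : ℝ) := sa7_pow_le hx (by norm_num)
    rw [hCj]
    linarith only [hj2, h1, h2, hs]
  have hjs0 : 0 ≤ j * s := mul_nonneg hj hs0.le
  have e1 : j * g / (2 * Λ) ≤ 64 * C₁ * Cj * Cl * x ^ (24 / 25 : ℝ) := by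
    rw [hg]
    exact sa7_p_jg hx hC₁ hCl hjs hj hs0 hK0 hK hls0 hls hs hΛ hn
  have e2 : j * lD ≤ c₀ * Cj * x ^ (24 / 25 : ℝ) := by
    rw [hlD]
    exact sa7_p_jl hx hc₀ hjs hjs0 hK1
  have hΛ0 : 0 < Λ := by rw [hΛ]; exact Real.rpow_pos_of_pos hx0 _
  have hn0 : 0 < n := by linarith only [hn1]
  have hK00 : 0 < K₀ := lt_of_lt_of_le (Real.rpow_pos_of_pos hx0 _) hK1
  have hlD0 : 0 ≤ j * lD := by rw [hlD]; positivity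
  have hg0 : 0 ≤ g := by rw [hg]; positivity
  have e3 : (b + 3 + j * lD) / Λ ≤ (Cb + 3 + c₀ * Cj) * x ^ (24 / 25 : ℝ) := by
    refine sa7_p_b hx ?_ hΛ
    have h1 : c₀ * Cj * x ^ (24 / 25 : ℝ) ≤ c₀ * Cj * x ^ (53 / 50 : ℝ) :=
      mul_le_mul_of_nonneg_left hww (by positivity)
    linarith only [hbC, e2, h1, hw, hww]
  have h19 : x ^ (19 / 20 : ℝ) ≤ x ^ (24 / 25 : ℝ) := sa7_pow_le hx (by norm_num)
  have h19' : x ^ (19 / 20 : ℝ) ≤ x := by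
    have := sa7_pow_le hx (by norm_num : (19 / 20 : ℝ) ≤ 1)
    rwa [Real.rpow_one] at this
  have e4 : n ≤ 2 * x ^ (24 / 25 : ℝ) := by linarith only [hn2, h19]
  have e5 : Real.log n ≤ n := (Real.log_le_sub_one_of_pos hn0).trans (by linarith only)
  have q1 : 0 ≤ j * g / (2 * Λ) := by positivity
  have q2 : 0 ≤ (b + 3 + j * lD) / Λ := by positivity
  have e6 := sa7_p_log (Q := (M + u) + 2 + j * g / (2 * Λ) + (b + 3 + j * lD) / Λ)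
    (C := CM + Cu + 2 + 64 * C₁ * Cj * Cl + (Cb + 3 + c₀ * Cj)) hx
    (by
      have h1 : 0 ≤ 64 * C₁ * Cj * Cl := by positivity
      have h2 : 0 ≤ c₀ * Cj := by positivity
      linarith only [hCM, hCu, h1, h2, hCb0]) hn0
    (by linarith only [hn2, h19'])
    (by linarith only [hM0, hu0, q1, q2])
    (by
      have h1 : Cu * x ^ (24 / 25 : ℝ) ≤ Cu * x ^ (53 / 50 : ℝ) :=
        mul_le_mul_of_nonneg_left hww hCu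
      have h2 : 64 * C₁ * Cj * Cl * x ^ (24 / 25 : ℝ) ≤ 64 * C₁ * Cj * Cl * x ^ (53 / 50 : ℝ) :=
        mul_le_mul_of_nonneg_left hww (by positivity)
      have h3 : (Cb + 3 + c₀ * Cj) * x ^ (24 / 25 : ℝ) ≤
          (Cb + 3 + c₀ * Cj) * x ^ (53 / 50 : ℝ) :=
        mul_le_mul_of_nonneg_left hww (by positivity)
      linarith only [hM, hu, e1, e3, h1, h2, h3, hw, hww])
  linarith only [hu, e1, e2, e3, e4, e5, e6, hw]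

end par

end Vale.Agent.P356.SA
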