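import Vale.Agent.P356.NA.Cost
import Vale.Agent.P356.SA.Dbl

/-!
Growth of `1 - δ H_B` in one of two copies of the lattice, along nested regions of both copies.
-/

set_option linter.all false

namespace Vale.Agent.P356.SA

open Matrix Finset Vale.Agent.P356 Vale.Agent.P356.SV Vale.Agent.P356.Path Vale.Agent.P356.NA
open scoped BigOperators ComplexOrder Kronecker

section B3

/-- counting the terms that meet a region -/
theorem sa3_count {L q R : ℕ} (G : Finset (Site L)) (h : Finset (Site L) → Op (Site L) q)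
    (hd : ∀ X, h X ≠ 0 → X.Nonempty ∧ ∀ x ∈ X, ∀ y ∈ X, dist1 x y ≤ R) {J : ℝ} (hJ : 0 ≤ J)
    (hq : 1 ≤ q) (F : Finset (Finset (Site L))) (hF : ∀ X ∈ F, h X ≠ 0 ∧ ∃ x ∈ X, x ∈ G) :
    ∑ X ∈ F, J * (q : ℝ) ^ (2 * X.card) ≤
      J * (q : ℝ) ^ (2 * (2 * R + 1) ^ 2) * NR R * G.card := by
  classical
  have hq1 : (1 : ℝ) ≤ q := by exact_mod_cast hq
  have hsub : F ⊆ G.biUnion (fun x => (ball x R).powerset) := by
    intro X hX
    obtain ⟨hne, x, hx, hxG⟩ := hF X hX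
    obtain ⟨-, hdX⟩ := hd X hne
    rw [Finset.mem_biUnion]
    refine ⟨x, hxG, ?_⟩
    rw [Finset.mem_powerset]
    intro z hz
    exact Finset.mem_filter.mpr ⟨Finset.mem_univ _, hdX z hz x hx⟩
  have hcardF : F.card ≤ G.card * NR R := by
    refine (Finset.card_le_card hsub).trans (Finset.card_biUnion_le.trans ?_)
    refine (Finset.sum_le_card_nsmul _ _ (NR R) (fun p _ => card_local p R)).trans ?_
    rw [smul_eq_mul]
  have hX : ∀ X ∈ F, J * (q : ℝ) ^ (2 * X.card) ≤ J * (q : ℝ) ^ (2 * (2 * R + 1) ^ 2) := by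
    intro X hX
    obtain ⟨⟨x, hx⟩, hdX⟩ := hd X (hF X hX).1
    have h1 : X ⊆ ball x R := by
      intro z hz
      exact Finset.mem_filter.mpr ⟨Finset.mem_univ _, hdX z hz x hx⟩
    have h2 : X.card ≤ (2 * R + 1) ^ 2 := (Finset.card_le_card h1).trans (card_ball x R)
    refine mul_le_mul_of_nonneg_left ?_ hJ
    exact pow_le_pow_right₀ hq1 (by omega)
  refine (Finset.sum_le_card_nsmul _ _ _ hX).trans ?_
  rw [nsmul_eq_mul]
  have h3 : (F.card : ℝ) ≤ G.card * NR R := by exact_mod_cast hcardF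
  have h4 : 0 ≤ J * (q : ℝ) ^ (2 * (2 * R + 1) ^ 2) := by positivity
  refine (mul_le_mul_of_nonneg_right h3 h4).trans (le_of_eq ?_)
  ring

/-- growth of `1 - δ c(H_B)` for an embedding `c` of the lattice into two copies -/
theorem sa3_growth {L q R : ℕ} {J Δ : ℝ} (hJ : 0 < J) (hq : 1 ≤ q)
    {h : Finset (Site L) → Op (Site L) q} {Ω : Conf (Site L) q → ℂ} (hF : FFLG L q R J Δ h Ω)
    (n : ℕ) {θ : ℝ} (hθ : 0 < θ) (hθ1 : θ ≤ 1 / 4) (I : ℕ → Finset (Site L))
    (hI : ∀ k x y, x ∈ I k → dist1 x y ≤ R → y ∈ I (k + 1)) {m : ℝ} (hm : 0 ≤ m)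
    (U : ℕ → Finset (Site L ⊕ Site L)) (hU : ∀ j k, j ≤ k → U j ⊆ U k)
    (c : Op (Site L) q → Op (Site L ⊕ Site L) q)
    (E : Finset (Site L) → Finset (Site L ⊕ Site L)) (hEc : ∀ X, (E X).card = X.card)
    (hE1 : ∀ X k, (∀ x ∈ X, x ∈ I k) → E X ⊆ U k)
    (hE2 : ∀ X k, (∀ x ∈ X, x ∉ I k) → ∀ x ∈ E X, x ∉ U k)
    (hc0 : c 0 = 0) (hcsum : ∀ A : Finset (Site L) → Op (Site L) q, c (∑ X, A X) = ∑ X, c (A X))
    (hch : ∀ A, A.IsHermitian → (c A).IsHermitian)
    (hca : ∀ A X, ActsOn X A → ActsOn (E X) (c A))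
    (hcn : ∀ A (J : ℝ), OpNormLe A J → OpNormLe (c A) J)
    (hcp : ∀ A, (∀ ψ, 0 ≤ en A ψ) → ∀ ψ, 0 ≤ en (c A) ψ)
    (B : Finset (Site L)) :
    ∃ C : ℝ, 0 ≤ C ∧ ∀ δ : ℝ, 0 ≤ δ →
      Gro (α := fun k => Conf {x // x ∈ (U k)ᶜ} q) (β := fun k => Conf {x // ¬ x ∈ (U k)ᶜ} q)
        (fun k => cut (U k)ᶜ q) (fun _ => θ) n m (1 - (δ : ℂ) • c (HB h B))
        (18 * δ * θ ^ 2 * (J * (q : ℝ) ^ (2 * (2 * R + 1) ^ 2) * NR R) *
          ((B ∩ I n) \ I 0).card + C * δ ^ 2) := by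
  classical
  -- monotonicity of the regions
  have hI1 : ∀ k x, x ∈ I k → x ∈ I (k + 1) := fun k x hx =>
    hI k x x hx (by rw [dist1_self]; exact Nat.zero_le _)
  have hIm : ∀ j k, j ≤ k → ∀ x, x ∈ I j → x ∈ I k := by
    intro j k hjk
    induction k, hjk using Nat.le_induction with
    | base => exact fun x hx => hx
    | succ k _ ih => exact fun x hx => hI1 k x (ih x hx)
  -- the terms
  let h' : Finset (Site L) → Op (Site L) q := fun X => if X ⊆ B then h X else 0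
  have hsum : ∑ X, c (h' X) = c (HB h B) := by
    rw [← hcsum, HB, Finset.sum_filter]
  have hh'1 : ∀ X, h' X ≠ 0 → X ⊆ B ∧ h' X = h X ∧ h X ≠ 0 := by
    intro X hX
    by_cases hXB : X ⊆ B
    · have e : h' X = h X := if_pos hXB
      exact ⟨hXB, e, by rwa [e] at hX⟩
    · exact absurd (if_neg hXB) hX
  -- the index of a term
  have hex : ∀ X : Finset (Site L), ∃ k, k = n ∨ ∃ x ∈ X, x ∈ I k := fun X => ⟨n, Or.inl rfl⟩
  let κ : Finset (Site L) → ℕ := fun X => Nat.find (hex X)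
  have hκ1 : ∀ X, κ X < n → ∃ x ∈ X, x ∈ I (κ X) := by
    intro X hX
    rcases Nat.find_spec (hex X) with h1 | h1
    · exact absurd h1 (ne_of_lt hX)
    · exact h1
  have hκ2 : ∀ X j, j < κ X → ∀ x ∈ X, x ∉ I j := by
    intro X j hj x hx hxI
    exact Nat.find_min (hex X) hj (Or.inr ⟨x, hx, hxI⟩)
  let w : Finset (Site L) → ℝ := fun X =>
    if h' X ≠ 0 ∧ ∃ x ∈ X, x ∉ I 0 then J * (q : ℝ) ^ (2 * X.card) else 0
  obtain ⟨C, hC, hG⟩ := growth (N := Conf (Site L ⊕ Site L) q)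
    (α := fun k => Conf {x // x ∈ (U k)ᶜ} q)
    (β := fun k => Conf {x // ¬ x ∈ (U k)ᶜ} q) (fun k => cut (U k)ᶜ q)
    (by
      -- nested cuts
      intro j k hjk Y S
      obtain ⟨S', hS'⟩ := b5_opR (U j)ᶜ S
      rw [hS']
      refine opOn_comm (U k)ᶜ (U j)ᶜᶜ ?_ Y S'
      rw [Finset.disjoint_left]
      intro x hx hx'
      rw [compl_compl] at hx'
      exact (Finset.mem_compl.mp hx) (hU j k hjk hx'))
    (fun _ => θ) hm (fun _ => hθ) (fun _ => hθ1) n (fun X => c (h' X)) κ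
    (by
      intro X j hj S
      by_cases h0 : h' X = 0
      · simp only [h0, hc0, Matrix.zero_mul, Matrix.mul_zero]
      · obtain ⟨hXB, e, hne⟩ := hh'1 X h0
        simp only [e]
        obtain ⟨S', hS'⟩ := b5_opR (U j)ᶜ S
        obtain ⟨k, hk⟩ := b5_actsOn (hca _ _ (hF.loc X))
        rw [hS', hk]
        refine opOn_comm (E X) (U j)ᶜᶜ ?_ k S'
        rw [Finset.disjoint_left]
        intro x hx hx'
        rw [compl_compl] at hx'
        exact hE2 X j (hκ2 X j hj) x hx hx')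
    (by
      intro X j hj hjn Y
      by_cases h0 : h' X = 0
      · simp only [h0, hc0, Matrix.zero_mul, Matrix.mul_zero]
      · obtain ⟨hXB, e, hne⟩ := hh'1 X h0
        simp only [e]
        obtain ⟨k, hk⟩ := b5_actsOn (hca _ _ (hF.loc X))
        obtain ⟨x, hx, hxI⟩ := hκ1 X (hj.trans hjn)
        have hsub : ∀ y ∈ X, y ∈ I j := fun y hy =>
          hIm (κ X + 1) j hj y (hI (κ X) x y hxI ((hF.range X hne).2 x hx y hy))
        rw [hk]
        refine opOn_comm (E X) (U j)ᶜ ?_ k Y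
        rw [Finset.disjoint_left]
        intro y hy hy'
        exact (Finset.mem_compl.mp hy') (hE1 X j hsub hy))
    w
    (by
      intro X hX
      by_cases h0 : h' X = 0
      · have e1 : w X = 0 := if_neg (fun h1 => h1.1 h0)
        rw [e1]
        refine cutBound_right _ 0 _ ?_
        simp only [h0, hc0, opR_zero]
      · obtain ⟨hXB, e, hne⟩ := hh'1 X h0
        by_cases h1 : ∃ x ∈ X, x ∉ I 0
        · have e1 : w X = |J| * (q : ℝ) ^ (2 * (E X).card) := by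
            rw [abs_of_pos hJ, hEc]; exact if_pos ⟨h0, h1⟩
          rw [e1]
          simp only [e]
          refine b5_cut _ (E X) (hch _ (hF.herm X)) (hca _ _ (hF.loc X)) (hcn _ _ (hF.norm X))
            (fun h2 => ?_)
          rw [← Finset.card_pos, hEc, Finset.card_pos]
          exact (hF.range X hne).1
        · have e1 : w X = 0 := if_neg (fun h2 => h1 h2.2)
          rw [e1]
          simp only [e]
          refine b5_cut_zero _ (E X) (hca _ _ (hF.loc X)) (fun x hx hx' => ?_)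
          push Not at h1
          exact (Finset.mem_compl.mp hx') (hE1 X (κ X)
            (fun y hy => hIm 0 (κ X) (Nat.zero_le _) y (h1 y hy)) hx))
    (by
      intro ψ
      rw [hsum]
      refine hcp _ (fun ψ => ?_) ψ
      rw [HB, en, sum_mulVec, dotProduct_sum, Complex.re_sum]
      exact Finset.sum_nonneg fun X _ => hF.pos X ψ)
  refine ⟨C, hC, fun δ hδ => ?_⟩
  have h1 := hG δ hδ
  rw [hsum] at h1
  refine Gro.mono h1 ?_
  -- the weights
  have h2 : (∑ X, if κ X < n then θ ^ 2 * w X else 0) ≤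
      θ ^ 2 * (J * (q : ℝ) ^ (2 * (2 * R + 1) ^ 2) * NR R * ((B ∩ I n) \ I 0).card) := by
    have h3 : (∑ X, if κ X < n then θ ^ 2 * w X else 0) =
        θ ^ 2 * ∑ X ∈ Finset.univ.filter (fun X => κ X < n ∧ (h' X ≠ 0 ∧ ∃ x ∈ X, x ∉ I 0)),
          J * (q : ℝ) ^ (2 * X.card) := by
      rw [Finset.mul_sum, Finset.sum_filter]
      refine Finset.sum_congr rfl fun X _ => ?_
      by_cases h4 : κ X < n
      · by_cases h5 : h' X ≠ 0 ∧ ∃ x ∈ X, x ∉ I 0
        · rw [if_pos h4, if_pos ⟨h4, h5⟩]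
          simp only [w, if_pos h5]
        · rw [if_pos h4, if_neg (fun h6 => h5 h6.2)]
          simp only [w, if_neg h5, mul_zero]
      · rw [if_neg h4, if_neg (fun h6 => h4 h6.1)]
    rw [h3]
    have h4 := sa3_count (R := R) ((B ∩ I n) \ I 0) h hF.range hJ.le hq
      (Finset.univ.filter (fun X => κ X < n ∧ (h' X ≠ 0 ∧ ∃ x ∈ X, x ∉ I 0))) (by
        intro X hX
        obtain ⟨_, hXn, hX0, z, hz, hz0⟩ := Finset.mem_filter.mp hX
        obtain ⟨hXB, e, hne⟩ := hh'1 X hX0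
        obtain ⟨x, hx, hxI⟩ := hκ1 X hXn
        refine ⟨hne, z, hz, Finset.mem_sdiff.mpr ⟨Finset.mem_inter.mpr ⟨hXB hz, ?_⟩, hz0⟩⟩
        exact hIm (κ X + 1) n hXn z (hI (κ X) x z hxI ((hF.range X hne).2 x hx z hz)))
    exact mul_le_mul_of_nonneg_left h4 (by positivity)
  have h3 : 0 ≤ 18 * δ := by positivity
  have h4 := mul_le_mul_of_nonneg_left h2 h3
  have e : 18 * δ * (θ ^ 2 * (J * (q : ℝ) ^ (2 * (2 * R + 1) ^ 2) * NR R *
      ((B ∩ I n) \ I 0).card)) = 18 * δ * θ ^ 2 * (J * (q : ℝ) ^ (2 * (2 * R + 1) ^ 2) * NR R) *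
        ((B ∩ I n) \ I 0).card := by ring
  rw [e] at h4
  linarith

/-- growth of `1 - δ H_B` in copy 1 or copy 2, along the nested cuts `(I k in copy 1) + (O k in
copy 2)`; only the part of the window `I n \ I 0` counts -/
theorem region_growth2 {L q R : ℕ} {J Δ : ℝ} (hJ : 0 < J) (hq : 1 ≤ q)
    {h : Finset (Site L) → Op (Site L) q} {Ω : Conf (Site L) q → ℂ} (hF : FFLG L q R J Δ h Ω)
    (n : ℕ) {θ : ℝ} (hθ : 0 < θ) (hθ1 : θ ≤ 1 / 4) (I O : ℕ → Finset (Site L))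
    (hI : ∀ k x y, x ∈ I k → dist1 x y ≤ R → y ∈ I (k + 1))
    (hO : ∀ k x y, x ∈ O k → dist1 x y ≤ R → y ∈ O (k + 1)) {m : ℝ} (hm : 0 ≤ m)
    (B : Finset (Site L)) :
    ∃ C : ℝ, 0 ≤ C ∧ ∀ δ : ℝ, 0 ≤ δ →
      Gro (α := fun k => Conf {x // x ∈ ((I k).disjSum (O k))ᶜ} q)
        (β := fun k => Conf {x // ¬ x ∈ ((I k).disjSum (O k))ᶜ} q)
        (fun k => cut ((I k).disjSum (O k))ᶜ q) (fun _ => θ) n m
        (1 - (δ : ℂ) • (cp1 (HB h B) : Op (Site L ⊕ Site L) q))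
        (18 * δ * θ ^ 2 * (J * (q : ℝ) ^ (2 * (2 * R + 1) ^ 2) * NR R) *
          ((B ∩ I n) \ I 0).card + C * δ ^ 2) ∧
      Gro (α := fun k => Conf {x // x ∈ ((I k).disjSum (O k))ᶜ} q)
        (β := fun k => Conf {x // ¬ x ∈ ((I k).disjSum (O k))ᶜ} q)
        (fun k => cut ((I k).disjSum (O k))ᶜ q) (fun _ => θ) n m
        (1 - (δ : ℂ) • (cp2 (HB h B) : Op (Site L ⊕ Site L) q))
        (18 * δ * θ ^ 2 * (J * (q : ℝ) ^ (2 * (2 * R + 1) ^ 2) * NR R) *
          ((B ∩ O n) \ O 0).card + C * δ ^ 2) := by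
  have mono : ∀ I : ℕ → Finset (Site L), (∀ k x y, x ∈ I k → dist1 x y ≤ R → y ∈ I (k + 1)) →
      ∀ j k, j ≤ k → I j ⊆ I k := by
    intro I hI j k hjk
    induction k, hjk using Nat.le_induction with
    | base => exact fun x hx => hx
    | succ k _ ih =>
      intro x hx
      exact hI k x x (ih hx) (by rw [dist1_self]; exact Nat.zero_le _)
  have hU : ∀ j k, j ≤ k → (I j).disjSum (O j) ⊆ (I k).disjSum (O k) := fun j k hjk =>
    Finset.disjSum_mono (mono I hI j k hjk) (mono O hO j k hjk)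
  obtain ⟨C1, hC1, h1⟩ := sa3_growth hJ hq hF n hθ hθ1 I hI hm
    (fun k => (I k).disjSum (O k)) hU (fun A => cp1 A) (fun X => X.disjSum ∅)
    (fun X => by rw [Finset.card_disjSum, Finset.card_empty, add_zero])
    (fun X k hX => Finset.disjSum_mono (fun x hx => hX x hx) (Finset.empty_subset _))
    (fun X k hX x hx hx' => by
      rcases x with x | x
      · exact hX x (Finset.inl_mem_disjSum.mp hx) (Finset.inl_mem_disjSum.mp hx')
      · exact absurd (Finset.inr_mem_disjSum.mp hx) (Finset.notMem_empty _))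
    cp1_zero (fun A => cp1_sum _ _)
    (fun A hA => by
      show (cp1 A)ᴴ = cp1 A
      rw [cp1_ct, hA.eq])
    (fun A X hA => cp1_acts hA) (fun A J hA => cp1_norm hA) (fun A hA => cp1_pos hA) B
  obtain ⟨C2, hC2, h2⟩ := sa3_growth hJ hq hF n hθ hθ1 O hO hm
    (fun k => (I k).disjSum (O k)) hU (fun A => cp2 A) (fun X => (∅ : Finset (Site L)).disjSum X)
    (fun X => by rw [Finset.card_disjSum, Finset.card_empty, zero_add])
    (fun X k hX => Finset.disjSum_mono (Finset.empty_subset _) (fun x hx => hX x hx))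
    (fun X k hX x hx hx' => by
      rcases x with x | x
      · exact absurd (Finset.inl_mem_disjSum.mp hx) (Finset.notMem_empty _)
      · exact hX x (Finset.inr_mem_disjSum.mp hx) (Finset.inr_mem_disjSum.mp hx'))
    cp2_zero (fun A => cp2_sum _ _)
    (fun A hA => by
      show (cp2 A)ᴴ = cp2 A
      rw [cp2_ct, hA.eq])
    (fun A X hA => cp2_acts hA) (fun A J hA => cp2_norm hA) (fun A hA => cp2_pos hA) B
  refine ⟨max C1 C2, hC1.trans (le_max_left _ _), fun δ hδ => ⟨?_, ?_⟩⟩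
  · refine Gro.mono (h1 δ hδ) ?_
    have h3 : C1 * δ ^ 2 ≤ max C1 C2 * δ ^ 2 :=
      mul_le_mul_of_nonneg_right (le_max_left _ _) (sq_nonneg _)
    linarith
  · refine Gro.mono (h2 δ hδ) ?_
    have h3 : C2 * δ ^ 2 ≤ max C1 C2 * δ ^ 2 :=
      mul_le_mul_of_nonneg_right (le_max_right _ _) (sq_nonneg _)
    linarith

end B3

end Vale.Agent.P356.SA
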