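import Vale.Agent.P356.SA.ExK2a
import Vale.Agent.P356.SA.Dbl
import Vale.Agent.P356.SA.Cost2

set_option linter.all false

/-!
BLOCK 4: the approximate ground state projector for two copies.
-/

namespace Vale.Agent.P356.SA

open Matrix Finset Vale.Agent.P356 Vale.Agent.P356.SV Vale.Agent.P356.Path Vale.Agent.P356.NA
open scoped BigOperators ComplexOrder Kronecker

section copies
variable {V W : Type} [Fintype V] [DecidableEq V] [Fintype W] [DecidableEq W] {q : ℕ}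

theorem sa4_cp1 : CopyMap (fun A : Op V q => (cp1 A : Op (V ⊕ W) q)) where
  one := cp1_one
  mul := cp1_mul
  add := cp1_add
  smul := cp1_smul
  ct := cp1_ct
  norm := fun A J h => cp1_norm h

theorem sa4_cp2 : CopyMap (fun A : Op W q => (cp2 A : Op (V ⊕ W) q)) where
  one := cp2_one
  mul := cp2_mul
  add := cp2_add
  smul := cp2_smul
  ct := cp2_ct
  norm := fun A J h => cp2_norm h

/-- the product of the two projections kills the complement of the product vector -/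
theorem sa4_kill {P : Op V q} {Ω : Conf V q → ℂ}
    (hP : ∀ χ, P *ᵥ χ = (star Ω ⬝ᵥ χ) • Ω) {ψ : Conf (V ⊕ V) q → ℂ}
    (hψ : star (dbl Ω Ω) ⬝ᵥ ψ = 0) :
    (cp1 P : Op (V ⊕ V) q) *ᵥ ((cp2 P : Op (V ⊕ V) q) *ᵥ ψ) = 0 := by
  funext s
  rw [sa2_cp1_apply, hP]
  have h1 : ∀ a : Conf V q, ((cp2 P : Op (V ⊕ V) q) *ᵥ ψ) (Sum.elim a (s ∘ Sum.inr)) =
      (star Ω ⬝ᵥ fun b => ψ (Sum.elim a b)) * Ω (s ∘ Sum.inr) := by
    intro a
    rw [sa2_cp2_apply, hP]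
    rfl
  have h2 : (star Ω ⬝ᵥ fun a : Conf V q => ((cp2 P : Op (V ⊕ V) q) *ᵥ ψ)
      (Sum.elim a (s ∘ Sum.inr))) = (star (dbl Ω Ω) ⬝ᵥ ψ) * Ω (s ∘ Sum.inr) := by
    have e1 : star (dbl Ω Ω) ⬝ᵥ ψ = ∑ a : Conf V q, ∑ b : Conf V q,
        star (Ω a * Ω b) * ψ (Sum.elim a b) := by
      unfold dotProduct
      rw [sa2_sum']
      rfl
    rw [e1, Finset.sum_mul]
    unfold dotProduct
    refine Finset.sum_congr rfl fun a _ => ?_
    show star Ω a * ((cp2 P : Op (V ⊕ V) q) *ᵥ ψ) (Sum.elim a (s ∘ Sum.inr)) = _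
    rw [h1 a]
    unfold dotProduct
    rw [Finset.sum_mul, Finset.sum_mul, Finset.mul_sum]
    refine Finset.sum_congr rfl fun b _ => ?_
    rw [star_mul', Pi.star_apply, Pi.star_apply]
    ring
  rw [h2, hψ, zero_mul, zero_smul]
  rfl

end copies

section num

theorem sa4_param (c₀ C₁ : ℝ) (hc₀ : 0 < c₀) (hC₁ : 0 < C₁) :
    ∃ s0 : ℕ, 1 ≤ s0 ∧ ∀ s : ℕ, s0 ≤ s →
      Real.exp (-(2 * c₀ * s)) + (25 * (s : ℝ) ^ 2 * Real.exp (-(2 * c₀ * s)) +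
        25 * (s : ℝ) ^ 2 * C₁ * Real.exp (-(4 * c₀ * s))) ≤ Real.exp (-(c₀ * s)) / 3 := by
  obtain ⟨x0, hx0⟩ := Filter.eventually_atTop.mp (j_ev_exp (3 * (26 + 25 * C₁)) c₀ hc₀)
  refine ⟨max 1 ⌈x0⌉₊, le_max_left _ _, fun s hs => ?_⟩
  have hs1 : 1 ≤ s := (le_max_left _ _).trans hs
  have hsx : x0 ≤ (s : ℝ) := (Nat.le_ceil x0).trans (by exact_mod_cast (le_max_right _ _).trans hs)
  have h1 := hx0 s hsx
  have hS : (1 : ℝ) ≤ (s : ℝ) := by exact_mod_cast hs1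
  have h2 : Real.exp (-(4 * c₀ * s)) ≤ Real.exp (-(2 * c₀ * s)) := by
    apply Real.exp_le_exp.mpr
    have : 0 ≤ c₀ * s := by positivity
    linarith
  have h3 : Real.exp (-(2 * c₀ * s)) = Real.exp (-(c₀ * s)) * Real.exp (-(c₀ * s)) := by
    rw [← Real.exp_add]; congr 1; ring
  have h4 : Real.exp (c₀ * s) * Real.exp (-(c₀ * s)) = 1 := by
    rw [← Real.exp_add, add_neg_cancel, Real.exp_zero]
  have hp := Real.exp_pos (-(c₀ * s))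
  have hs2 : (1 : ℝ) ≤ (s : ℝ) ^ 2 := one_le_pow₀ hS
  calc Real.exp (-(2 * c₀ * s)) + (25 * (s : ℝ) ^ 2 * Real.exp (-(2 * c₀ * s)) +
        25 * (s : ℝ) ^ 2 * C₁ * Real.exp (-(4 * c₀ * s))) ≤
      (s : ℝ) ^ 2 * Real.exp (-(2 * c₀ * s)) + (25 * (s : ℝ) ^ 2 * Real.exp (-(2 * c₀ * s)) +
        25 * (s : ℝ) ^ 2 * C₁ * Real.exp (-(2 * c₀ * s))) := by
        have e1 : Real.exp (-(2 * c₀ * s)) ≤ (s : ℝ) ^ 2 * Real.exp (-(2 * c₀ * s)) :=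
          le_mul_of_one_le_left (Real.exp_pos _).le hs2
        have e2 : 25 * (s : ℝ) ^ 2 * C₁ * Real.exp (-(4 * c₀ * s)) ≤
            25 * (s : ℝ) ^ 2 * C₁ * Real.exp (-(2 * c₀ * s)) :=
          mul_le_mul_of_nonneg_left h2 (by positivity)
        linarith
    _ = (3 * (26 + 25 * C₁) * (s : ℝ) ^ 2) * Real.exp (-(c₀ * s)) *
        Real.exp (-(c₀ * s)) / 3 := by rw [h3]; ring
    _ ≤ Real.exp (c₀ * s) * Real.exp (-(c₀ * s)) * Real.exp (-(c₀ * s)) / 3 := by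
        apply div_le_div_of_nonneg_right _ (by norm_num)
        refine mul_le_mul_of_nonneg_right ?_ hp.le
        exact mul_le_mul_of_nonneg_right h1 hp.le
    _ = Real.exp (-(c₀ * s)) / 3 := by rw [h4, one_mul]

theorem sa4_M {M l s : ℕ} (hs1 : 1 ≤ s) (hls : l ≤ s ^ 2)
    (hM2 : M ≤ ((l + 2 * 0) / s + 4) ^ 2) : M ≤ 25 * s ^ 2 := by
  refine hM2.trans ?_
  have h1 : (l + 2 * 0) / s ≤ s := by
    rw [Nat.div_le_iff_le_mul_add_pred hs1]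
    have h2 : s * s = s ^ 2 := by ring
    omega
  have h2 : (l + 2 * 0) / s + 4 ≤ 5 * s := by omega
  calc ((l + 2 * 0) / s + 4) ^ 2 ≤ (5 * s) ^ 2 := Nat.pow_le_pow_left h2 2
    _ = 25 * s ^ 2 := by ring

theorem sa4_log {M s : ℝ} (hM1 : 1 ≤ M) (hs : 1 ≤ s) (hM : M ≤ 25 * s ^ 2) :
    1 ≤ Real.log (4 * M) ∧ Real.log (4 * M) ≤ 5 * (1 + Real.log s) := by
  constructor
  · rw [Real.le_log_iff_exp_le (by positivity)]
    have := Real.exp_one_lt_d9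
    linarith
  · have h1 : Real.log (4 * M) ≤ Real.log (100 * s ^ 2) :=
      Real.log_le_log (by positivity) (by linarith)
    have h2 : Real.log (100 * s ^ 2) = Real.log 100 + 2 * Real.log s := by
      rw [Real.log_mul (by norm_num) (by positivity), Real.log_pow]
      push_cast
      ring
    have h3 : Real.log 100 ≤ 5 := by
      rw [Real.log_le_iff_le_exp (by norm_num)]
      have h4 : Real.exp 5 = Real.exp 1 ^ 5 := by rw [← Real.exp_nat_mul]; norm_num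
      rw [h4]
      have h5 : (2.7 : ℝ) ≤ Real.exp 1 := by linarith [Real.exp_one_gt_d9]
      calc (100 : ℝ) ≤ 2.7 ^ 5 := by norm_num
        _ ≤ _ := pow_le_pow_left₀ (by norm_num) h5 5
    have h4 : 0 ≤ Real.log s := Real.log_nonneg hs
    linarith

/-- the cost of one copy -/
theorem sa4_cost {c₀ Δ κ s M f K₀ Λm τ T θ ls : ℝ} (hc₀ : 0 < c₀) (hΔ : 0 < Δ) (hκ : 0 ≤ κ)
    (hs : 1 ≤ s) (hM0 : 0 ≤ M) (hM : M ≤ 25 * s ^ 2) (hf0 : 0 ≤ f) (hK₀ : 1 ≤ K₀)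
    (hΛ1 : 1 ≤ Λm) (hls : 0 ≤ ls) (hΛ2 : Λm ≤ 5 * (1 + ls)) (hf : f * (2 * K₀ * Λm) ≤ c₀ * s)
    (hτ : τ = 5 * K₀ * Λm / Δ) (hT : T = (5 * K₀ * Λm + 2 * c₀ * s) / Δ) :
    (M * (τ + 1) + f * (T + 1)) * (72 * κ * θ ^ 2 * s ^ 2) + s ^ 4 * θ ^ 2 ≤
      (72 * κ * (25 * (25 / Δ + 1) + 3 * c₀ / Δ + c₀ ^ 2 / Δ + c₀) + 1) * K₀ * (1 + ls) *
        s ^ 4 * θ ^ 2 := by
  have hs0 : 0 < s := by linarith
  have hs2 : s ≤ s ^ 2 := by nlinarith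
  have hKls : 1 ≤ K₀ * (1 + ls) := by nlinarith
  have h1 : τ + 1 ≤ (25 / Δ + 1) * (K₀ * (1 + ls)) := by
    have e1 : τ ≤ 25 / Δ * (K₀ * (1 + ls)) := by
      rw [hτ, div_mul_eq_mul_div]
      apply div_le_div_of_nonneg_right _ hΔ.le
      have := mul_le_mul_of_nonneg_left hΛ2 (show 0 ≤ 5 * K₀ by positivity)
      linarith
    rw [add_mul, one_mul]
    linarith
  have h2 : M * (τ + 1) ≤ 25 * (25 / Δ + 1) * (K₀ * (1 + ls)) * s ^ 2 := by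
    have e1 : M * (τ + 1) ≤ (25 * s ^ 2) * ((25 / Δ + 1) * (K₀ * (1 + ls))) :=
      mul_le_mul hM h1 (by rw [hτ]; positivity) (by positivity)
    linarith
  have hf2 : 2 * f ≤ c₀ * s := by
    have e1 : 1 ≤ K₀ * Λm := by nlinarith
    have e2 : 2 * f * 1 ≤ 2 * f * (K₀ * Λm) := mul_le_mul_of_nonneg_left e1 (by positivity)
    linarith
  have h3 : f * (T + 1) ≤ (3 * c₀ / Δ + c₀ ^ 2 / Δ + c₀) * s ^ 2 := by
    have e1 : f * T ≤ (3 * c₀ * s + c₀ ^ 2 * s ^ 2) / Δ := by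
      rw [hT, mul_div_assoc']
      apply div_le_div_of_nonneg_right _ hΔ.le
      have e2 : f * (5 * K₀ * Λm) ≤ 3 * (c₀ * s) := by nlinarith
      have e3 : f * (2 * c₀ * s) ≤ c₀ * s * (c₀ * s) := by
        have := mul_le_mul_of_nonneg_right hf2 (show 0 ≤ c₀ * s by positivity)
        linarith
      nlinarith
    have e2 : (3 * c₀ * s + c₀ ^ 2 * s ^ 2) / Δ ≤ (3 * c₀ / Δ + c₀ ^ 2 / Δ) * s ^ 2 := by
      rw [← add_div, div_mul_eq_mul_div]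
      apply div_le_div_of_nonneg_right _ hΔ.le
      nlinarith
    have e3 : f ≤ c₀ * s ^ 2 := by nlinarith
    calc f * (T + 1) = f * T + f := by ring
      _ ≤ (3 * c₀ / Δ + c₀ ^ 2 / Δ) * s ^ 2 + c₀ * s ^ 2 := by linarith
      _ = _ := by ring
  have h4 : M * (τ + 1) + f * (T + 1) ≤
      (25 * (25 / Δ + 1) + 3 * c₀ / Δ + c₀ ^ 2 / Δ + c₀) * (K₀ * (1 + ls)) * s ^ 2 := by
    have e1 : (3 * c₀ / Δ + c₀ ^ 2 / Δ + c₀) * s ^ 2 ≤
        (3 * c₀ / Δ + c₀ ^ 2 / Δ + c₀) * s ^ 2 * (K₀ * (1 + ls)) :=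
      le_mul_of_one_le_right (by positivity) hKls
    linarith
  have h5 := mul_le_mul_of_nonneg_right h4 (show 0 ≤ 72 * κ * θ ^ 2 * s ^ 2 by positivity)
  have h6 : s ^ 4 * θ ^ 2 ≤ K₀ * (1 + ls) * (s ^ 4 * θ ^ 2) :=
    le_mul_of_one_le_left (by positivity) hKls
  calc (M * (τ + 1) + f * (T + 1)) * (72 * κ * θ ^ 2 * s ^ 2) + s ^ 4 * θ ^ 2 ≤
      (25 * (25 / Δ + 1) + 3 * c₀ / Δ + c₀ ^ 2 / Δ + c₀) * (K₀ * (1 + ls)) * s ^ 2 *
        (72 * κ * θ ^ 2 * s ^ 2) + K₀ * (1 + ls) * (s ^ 4 * θ ^ 2) := add_le_add h5 h6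
    _ = _ := by ring

/-- the error of one copy -/
theorem sa4_err {c₀ C₁ s M f K₀ Λm : ℝ} {fn : ℕ} (hf : f = fn) (hM1 : 1 ≤ M)
    (hM : M ≤ 25 * s ^ 2) (hC₁ : 0 < C₁) (hK₀ : 1 ≤ K₀) (hΛm : Λm = Real.log (4 * M))
    (hΛ1 : 1 ≤ Λm) (hf4 : c₀ * s ≤ (f + 1) * (2 * K₀ * Λm)) :
    (M * Real.exp (-(5 * K₀ * Λm))) ^ (fn + 1) + M * Real.exp (-(5 * K₀ * Λm + 2 * c₀ * s)) +
      M * C₁ * Real.exp (-(4 * c₀ * s)) ≤
    Real.exp (-(2 * c₀ * s)) + (25 * s ^ 2 * Real.exp (-(2 * c₀ * s)) +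
        25 * s ^ 2 * C₁ * Real.exp (-(4 * c₀ * s))) := by
  have h1 : M * Real.exp (-(5 * K₀ * Λm)) ≤ Real.exp (-(4 * K₀ * Λm)) := by
    have h2 : (4 * M : ℝ) = Real.exp Λm := by rw [hΛm, Real.exp_log (by positivity)]
    have h3 : Real.exp Λm ≤ Real.exp (K₀ * Λm) := by
      apply Real.exp_le_exp.mpr
      nlinarith
    have h4 : Real.exp (-(4 * K₀ * Λm)) = Real.exp (K₀ * Λm) * Real.exp (-(5 * K₀ * Λm)) := by
      rw [← Real.exp_add]; congr 1; ring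
    rw [h4]
    refine mul_le_mul_of_nonneg_right ?_ (Real.exp_pos _).le
    linarith
  have h2 : (M * Real.exp (-(5 * K₀ * Λm))) ^ (fn + 1) ≤ Real.exp (-(2 * c₀ * s)) := by
    calc (M * Real.exp (-(5 * K₀ * Λm))) ^ (fn + 1) ≤ Real.exp (-(4 * K₀ * Λm)) ^ (fn + 1) :=
          pow_le_pow_left₀ (by positivity) h1 _
      _ = Real.exp (-(4 * K₀ * Λm * (fn + 1))) := by
          rw [← Real.exp_nat_mul]
          congr 1
          push_cast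
          ring
      _ ≤ Real.exp (-(2 * c₀ * s)) := by
          apply Real.exp_le_exp.mpr
          rw [hf] at hf4
          linarith
  have h3 : M * Real.exp (-(5 * K₀ * Λm + 2 * c₀ * s)) ≤
      25 * s ^ 2 * Real.exp (-(2 * c₀ * s)) := by
    refine mul_le_mul hM ?_ (Real.exp_pos _).le (by positivity)
    apply Real.exp_le_exp.mpr
    have : 0 ≤ 5 * K₀ * Λm := by positivity
    linarith
  have h4 : M * C₁ * Real.exp (-(4 * c₀ * s)) ≤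
      25 * s ^ 2 * C₁ * Real.exp (-(4 * c₀ * s)) :=
    mul_le_mul_of_nonneg_right (mul_le_mul_of_nonneg_right hM hC₁.le) (Real.exp_pos _).le
  linarith

theorem sa4_floor {c₀ s K₀ Λm : ℝ} (hΛ : 0 < Λm) (hK : 0 < K₀) (hc : 0 < c₀) (hs : 0 < s) :
    ∃ f : ℕ, (f : ℝ) * (2 * K₀ * Λm) ≤ c₀ * s ∧ c₀ * s ≤ (f + 1) * (2 * K₀ * Λm) := by
  have hp : 0 < 2 * K₀ * Λm := by positivity
  refine ⟨⌊c₀ * s / (2 * K₀ * Λm)⌋₊, ?_, ?_⟩
  · rw [← le_div_iff₀ hp]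
    exact Nat.floor_le (by positivity)
  · have h1 : c₀ * s / (2 * K₀ * Λm) < ⌊c₀ * s / (2 * K₀ * Λm)⌋₊ + 1 := Nat.lt_floor_add_one _
    rw [div_lt_iff₀ hp] at h1
    exact h1.le

end num

theorem exists_K2 (q R : ℕ) (hq : 1 ≤ q) (J Δ : ℝ) (hJ : 0 < J) (hΔ : 0 < Δ) :
    ∃ (c₀ C : ℝ) (l₀ : ℕ), 0 < c₀ ∧ 0 < C ∧ ∀ (L : ℕ) (h : Finset (Site L) → Op (Site L) q)
      (Ω : Conf (Site L) q → ℂ), FFLG L q R J Δ h Ω →
      ∀ (l n s K₀ : ℕ) (Λ : ℝ), l₀ ≤ l → l ≤ s ^ 2 → s ^ 2 ≤ 4 * l → 1 ≤ K₀ → 1 ≤ n → 1 ≤ Λ →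
        4 * Λ ≤ n →
      ∀ x0 x1 y0 y1 : ℕ, x1 ≤ x0 + l → y1 ≤ y0 + l → ∀ I O : ℕ → Finset (Site L),
      (∀ k x y, x ∈ I k → dist1 x y ≤ R → y ∈ I (k + 1)) →
      (∀ k x y, x ∈ O k → dist1 x y ≤ R → y ∈ O (k + 1)) →
      I n \ I 0 ⊆ rect L x0 x1 y0 y1 → O n \ O 0 ⊆ rect L x0 x1 y0 y1 →
      ∀ m : ℝ, 0 ≤ m →
      ∃ (K : Op (Site L ⊕ Site L) q) (D g : ℝ), 1 ≤ D ∧ 0 ≤ g ∧
        Real.log D ≤ c₀ * s / K₀ ∧
        g ≤ C * K₀ * (1 + Real.log s) * (s : ℝ) ^ 4 * (Λ / n) ^ 2 ∧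
        Rep (α := fun k => Conf {x // x ∈ ((I k).disjSum (O k))ᶜ} q)
          (β := fun k => Conf {x // ¬ x ∈ ((I k).disjSum (O k))ᶜ} q)
          (fun k => cut ((I k).disjSum (O k))ᶜ q) (fun _ => Λ / (n : ℝ)) n m K D g ∧
        K *ᵥ dbl Ω Ω = dbl Ω Ω ∧ Kᴴ *ᵥ dbl Ω Ω = dbl Ω Ω ∧
        ∀ ψ, star (dbl Ω Ω) ⬝ᵥ ψ = 0 → nsq (K *ᵥ ψ) ≤ Real.exp (-(c₀ * s)) ^ 2 * nsq ψ := by
  obtain ⟨c₁, C₁, hc₁, hC₁, htile⟩ := tiling q R hq J Δ hJ hΔ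
  obtain ⟨κ₀, hκ₀⟩ : ∃ κ₀ : ℝ, κ₀ = J * (q : ℝ) ^ (2 * (2 * R + 1) ^ 2) * NR R := ⟨_, rfl⟩
  have hqp : (0 : ℝ) < q := by exact_mod_cast hq
  have hNR : (0 : ℝ) < NR R := by unfold NR; positivity
  have hκp : 0 < κ₀ := by rw [hκ₀]; positivity
  obtain ⟨c₀, hc₀⟩ : ∃ c₀ : ℝ, c₀ = c₁ / 4 := ⟨_, rfl⟩
  have hc₀p : 0 < c₀ := by rw [hc₀]; positivity
  obtain ⟨s0, hs01, hpar⟩ := sa4_param c₀ C₁ hc₀p hC₁
  obtain ⟨A, hA⟩ : ∃ A : ℝ,
    A = 72 * κ₀ * (25 * (25 / Δ + 1) + 3 * c₀ / Δ + c₀ ^ 2 / Δ + c₀) + 1 := ⟨_, rfl⟩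
  have hAp : 0 < A := by rw [hA]; positivity
  refine ⟨c₀, 2 * A, s0 ^ 2, hc₀p, by positivity, ?_⟩
  intro L h Ω hF l n s K₀ Λ hl0 hls hsl hK₀ hn hΛ hΛn x0 x1 y0 y1 hx hy I O hI hO hIw hOw m hm
  have hs0 : s0 ≤ s := by
    have : s0 ^ 2 ≤ s ^ 2 := hl0.trans hls
    exact (Nat.pow_le_pow_iff_left (by norm_num)).mp this
  have hs1 : 1 ≤ s := hs01.trans hs0
  obtain ⟨M, B, hM1, hM2, hB, hBK⟩ := htile L h Ω hF l s 0 hs1 x0 x1 y0 y1 hx hy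
  set S : ℝ := (s : ℝ) with hS
  have hS1 : (1 : ℝ) ≤ S := by rw [hS]; exact_mod_cast hs1
  have hS0 : 0 < S := by linarith
  have hMr : (M : ℝ) ≤ 25 * S ^ 2 := by rw [hS]; exact_mod_cast sa4_M hs1 hls hM2
  have hMp : (1 : ℝ) ≤ M := by exact_mod_cast hM1
  obtain ⟨Λm, hΛm⟩ : ∃ Λm : ℝ, Λm = Real.log (4 * M) := ⟨_, rfl⟩
  obtain ⟨hΛ1, hΛ2⟩ := sa4_log hMp hS1 hMr
  rw [← hΛm] at hΛ1 hΛ2
  have hΛp : 0 < Λm := by linarith
  have hK₀r : (1 : ℝ) ≤ K₀ := by exact_mod_cast hK₀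
  have hK₀p : (0 : ℝ) < K₀ := by linarith
  obtain ⟨f, hf3, hf4⟩ := sa4_floor hΛp hK₀p hc₀p hS0
  have hnr : (1 : ℝ) ≤ n := by exact_mod_cast hn
  have hn0 : (0 : ℝ) < n := by linarith
  have hθ : 0 < Λ / (n : ℝ) := by positivity
  have hθ1 : Λ / (n : ℝ) ≤ 1 / 4 := by
    rw [div_le_div_iff₀ hn0 (by norm_num)]
    linarith
  set θ : ℝ := Λ / (n : ℝ) with hθdef
  have hherm : ∀ i, (HB h (B i)).IsHermitian := fun i => j_HB_herm hF _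
  have hposi : ∀ i ψ, 0 ≤ en (HB h (B i)) ψ := fun i ψ => j_HB_pos hF _ ψ
  set h0 : ℝ := Fintype.card (Finset (Site L)) * J with hh0
  have hh0p : 0 ≤ h0 := by positivity
  have hnorm : ∀ i, OpNormLe (HB h (B i)) h0 := fun i => j_HB_norm hJ.le hF _
  have hgap : ∀ i < M, ∀ ψ, Δ * en (HB h (B i)) ψ ≤ nsq (HB h (B i) *ᵥ ψ) := by
    intro i hi ψ
    obtain ⟨a, b, c, d, habcd⟩ := (hB i hi).1
    rw [habcd]
    exact hF.gap a b c d ψ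
  have hcard : ∀ i < M, ∀ W : Finset (Site L), W ⊆ rect L x0 x1 y0 y1 →
      ((B i ∩ W).card : ℝ) ≤ 4 * S ^ 2 := by
    intro i hi W hW
    have h1 : (B i ∩ W).card ≤ 4 * s ^ 2 := by
      refine le_trans (Finset.card_le_card ?_) (hB i hi).2
      exact Finset.inter_subset_inter_left hW
    rw [hS]
    exact_mod_cast h1
  obtain ⟨τ, hτ⟩ : ∃ τ : ℝ, τ = 5 * K₀ * Λm / Δ := ⟨_, rfl⟩
  obtain ⟨T, hT⟩ : ∃ T : ℝ, T = (5 * K₀ * Λm + 2 * c₀ * S) / Δ := ⟨_, rfl⟩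
  have hτp : 0 < τ := by rw [hτ]; positivity
  have hτT : τ ≤ T := by
    rw [hτ, hT]
    apply div_le_div_of_nonneg_right _ hΔ.le
    have : 0 ≤ 2 * c₀ * S := by positivity
    linarith
  have hΔτ : Δ * τ = 5 * K₀ * Λm := by rw [hτ]; field_simp
  have hΔT : Δ * T = 5 * K₀ * Λm + 2 * c₀ * S := by rw [hT]; field_simp
  obtain ⟨x₀, hx₀⟩ : ∃ x₀ : ℝ, x₀ = 72 * κ₀ * θ ^ 2 * S ^ 2 := ⟨_, rfl⟩
  have hx₀p : 0 ≤ x₀ := by rw [hx₀]; positivity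
  have hgr : ∀ (δ : ℝ), 0 ≤ δ → ∀ W : Finset (Site L), W ⊆ rect L x0 x1 y0 y1 → ∀ i < M,
      18 * δ * θ ^ 2 * (J * (q : ℝ) ^ (2 * (2 * R + 1) ^ 2) * NR R) * ((B i ∩ W).card : ℝ) ≤
        δ * x₀ := by
    intro δ hδ W hW i hi
    rw [← hκ₀, hx₀]
    have h1 := mul_le_mul_of_nonneg_left (hcard i hi W hW)
      (show 0 ≤ 18 * δ * θ ^ 2 * κ₀ by positivity)
    refine h1.trans (le_of_eq ?_)
    ring
  -- copy 1
  obtain ⟨K1, hK1r, hK1n, hK1f⟩ := ek_gen (α := fun k => Conf {x // x ∈ ((I k).disjSum (O k))ᶜ} q)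
    (β := fun k => Conf {x // ¬ x ∈ ((I k).disjSum (O k))ᶜ} q)
    (sa4_cp1 (V := Site L) (W := Site L) (q := q)) (fun k => cut ((I k).disjSum (O k))ᶜ q)
    (fun _ => θ) n (mm := m) M hM1 (fun i => HB h (B i)) hΔ hh0p hherm hposi hnorm hgap hx₀p
    (by
      intro i hi
      obtain ⟨C, hC, hG⟩ := region_growth2 hJ hq hF n hθ hθ1 I O hI hO hm (B i)
      refine ⟨C, hC, fun δ hδ => j_gro_mono (hG δ hδ).1 ?_⟩
      have h1 := hgr δ hδ _ hIw i hi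
      rw [← Finset.inter_sdiff_assoc] at h1
      linarith)
    hτp hτT f (c := S ^ 4 * θ ^ 2) (by positivity)
  obtain ⟨K2, hK2r, hK2n, hK2f⟩ := ek_gen (α := fun k => Conf {x // x ∈ ((I k).disjSum (O k))ᶜ} q)
    (β := fun k => Conf {x // ¬ x ∈ ((I k).disjSum (O k))ᶜ} q)
    (sa4_cp2 (V := Site L) (W := Site L) (q := q)) (fun k => cut ((I k).disjSum (O k))ᶜ q)
    (fun _ => θ) n (mm := m) M hM1 (fun i => HB h (B i)) hΔ hh0p hherm hposi hnorm hgap hx₀p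
    (by
      intro i hi
      obtain ⟨C, hC, hG⟩ := region_growth2 hJ hq hF n hθ hθ1 I O hI hO hm (B i)
      refine ⟨C, hC, fun δ hδ => j_gro_mono (hG δ hδ).2 ?_⟩
      have h1 := hgr δ hδ _ hOw i hi
      rw [← Finset.inter_sdiff_assoc] at h1
      linarith)
    hτp hτT f (c := S ^ 4 * θ ^ 2) (by positivity)
  have hD1 : (1 : ℝ) ≤ (2 * (M : ℝ) + 1) ^ f := one_le_pow₀ (by linarith)
  have hgp : 0 ≤ (M * (τ + 1) + f * (T + 1)) * x₀ + S ^ 4 * θ ^ 2 := by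
    have : 0 < T := by linarith
    positivity
  have hfree1 : ∀ i < M, (cp1 (HB h (B i)) : Op (Site L ⊕ Site L) q) *ᵥ dbl Ω Ω = 0 := by
    intro i _
    rw [cp1_dbl, j_HB_free hF]
    funext s
    simp [dbl]
  have hfree2 : ∀ i < M, (cp2 (HB h (B i)) : Op (Site L ⊕ Site L) q) *ᵥ dbl Ω Ω = 0 := by
    intro i _
    rw [cp2_dbl, j_HB_free hF]
    funext s
    simp [dbl]
  obtain ⟨hf1, hf1'⟩ := hK1f _ hfree1
  obtain ⟨hf2, hf2'⟩ := hK2f _ hfree2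
  refine ⟨K1 * K2, (2 * (M : ℝ) + 1) ^ f * (2 * (M : ℝ) + 1) ^ f,
    ((M * (τ + 1) + f * (T + 1)) * x₀ + S ^ 4 * θ ^ 2) +
      ((M * (τ + 1) + f * (T + 1)) * x₀ + S ^ 4 * θ ^ 2), one_le_mul_of_one_le_of_one_le hD1 hD1,
    by linarith, ?_, ?_, hK1r.mul hK2r (by linarith), ?_, ?_, ?_⟩
  · -- the number of terms
    rw [Real.log_mul (by positivity) (by positivity), Real.log_pow]
    have h1 : Real.log (2 * (M : ℝ) + 1) ≤ Λm := by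
      rw [hΛm]
      exact Real.log_le_log (by positivity) (by linarith)
    have h2 : (f : ℝ) * Real.log (2 * (M : ℝ) + 1) ≤ f * Λm :=
      mul_le_mul_of_nonneg_left h1 (Nat.cast_nonneg f)
    rw [le_div_iff₀ hK₀p]
    have h3 := mul_le_mul_of_nonneg_right h2 hK₀p.le
    linarith
  · -- the growth
    have h1 := sa4_cost (θ := θ) hc₀p hΔ hκp.le hS1 (by linarith) hMr (Nat.cast_nonneg f) hK₀r hΛ1
      (Real.log_nonneg hS1) hΛ2 hf3 hτ hT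
    rw [← hA, ← hx₀] at h1
    linarith
  · rw [← mulVec_mulVec, hf2, hf1]
  · rw [conjTranspose_mul, ← mulVec_mulVec, hf1', hf2']
  · intro ψ hψ
    -- the error of one copy
    obtain ⟨ε₁, hε₁⟩ : ∃ ε₁ : ℝ, ε₁ = Real.exp (-(c₀ * S)) / 3 := ⟨_, rfl⟩
    have hε₁p : 0 < ε₁ := by rw [hε₁]; positivity
    have hexp1 : Real.exp (-(c₀ * S)) ≤ 1 := by
      rw [Real.exp_le_one_iff]
      have : 0 ≤ c₀ * S := by positivity
      linarith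
    have hε₁1 : ε₁ ≤ 1 := by rw [hε₁]; linarith
    have hc4 : 4 * c₀ * S = c₁ * S := by rw [hc₀]; ring
    have herr : (M * Real.exp (-(Δ * τ))) ^ (f + 1) + M * Real.exp (-(Δ * T)) +
        M * C₁ * Real.exp (-(c₁ * S)) ≤ ε₁ := by
      rw [hε₁, hΔτ, hΔT, ← hc4]
      exact (sa4_err rfl hMp hMr hC₁ hK₀r hΛm hΛ1 hf4).trans (hpar s hs0)
    have hH := j_HB_herm hF Finset.univ
    have hPn : OpNormLe (kpr (HB h Finset.univ)) 1 := j_op_isPr (kpr_isPr hH)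
    have hd1 : OpNormLe (K1 - (cp1 (kpr (HB h Finset.univ)) : Op (Site L ⊕ Site L) q)) ε₁ := by
      have e1 : K1 - (cp1 (kpr (HB h Finset.univ)) : Op (Site L ⊕ Site L) q) =
          (K1 - cp1 (prR (fun i => kpr (HB h (B i))) M)) +
          (cp1 (prR (fun i => kpr (HB h (B i))) M - kpr (HB h Finset.univ))) := by
        rw [cp1_sub]; abel
      rw [e1]
      refine j_op_mono (by positivity) herr (j_op_add (by positivity) (by positivity) hK1n ?_)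
      exact cp1_norm hBK
    have hd2 : OpNormLe (K2 - (cp2 (kpr (HB h Finset.univ)) : Op (Site L ⊕ Site L) q)) ε₁ := by
      have e1 : K2 - (cp2 (kpr (HB h Finset.univ)) : Op (Site L ⊕ Site L) q) =
          (K2 - cp2 (prR (fun i => kpr (HB h (B i))) M)) +
          (cp2 (prR (fun i => kpr (HB h (B i))) M - kpr (HB h Finset.univ))) := by
        rw [cp2_sub]; abel
      rw [e1]
      refine j_op_mono (by positivity) herr (j_op_add (by positivity) (by positivity) hK2n ?_)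
      exact cp2_norm hBK
    have hK2b : OpNormLe K2 (ε₁ + 1) := by
      have e1 : K2 = (K2 - (cp2 (kpr (HB h Finset.univ)) : Op (Site L ⊕ Site L) q)) +
          cp2 (kpr (HB h Finset.univ)) := by abel
      rw [e1]
      exact j_op_add hε₁p.le zero_le_one hd2 (cp2_norm hPn)
    have hd3 : OpNormLe (K1 * K2 - (cp1 (kpr (HB h Finset.univ)) : Op (Site L ⊕ Site L) q) *
        cp2 (kpr (HB h Finset.univ))) (Real.exp (-(c₀ * S))) := by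
      have e1 : K1 * K2 - (cp1 (kpr (HB h Finset.univ)) : Op (Site L ⊕ Site L) q) *
          cp2 (kpr (HB h Finset.univ)) = (K1 - cp1 (kpr (HB h Finset.univ))) * K2 +
          cp1 (kpr (HB h Finset.univ)) * (K2 - cp2 (kpr (HB h Finset.univ))) := by
        rw [Matrix.sub_mul, Matrix.mul_sub]; abel
      rw [e1]
      refine j_op_mono (by positivity) ?_ (j_op_add (by positivity) (by positivity)
        (j_op_mul hε₁p.le (by positivity) hd1 hK2b)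
        (j_op_mul zero_le_one hε₁p.le (cp1_norm hPn) hd2))
      have h1 : ε₁ * (ε₁ + 1) ≤ ε₁ * 2 := mul_le_mul_of_nonneg_left (by linarith) hε₁p.le
      have h2 : 3 * ε₁ = Real.exp (-(c₀ * S)) := by rw [hε₁]; ring
      linarith
    have h1 := hd3 ψ
    -- the projections kill `ψ`
    have hP : ∀ χ, kpr (HB h Finset.univ) *ᵥ χ = (star Ω ⬝ᵥ χ) • Ω := by
      intro χ
      have hΩΩ : star Ω ⬝ᵥ Ω = 1 := by rw [ip_self, hF.unit, Complex.ofReal_one]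
      have h2 : star Ω ⬝ᵥ (χ - (star Ω ⬝ᵥ χ) • Ω) = 0 := by
        rw [dotProduct_sub, dotProduct_smul, hΩΩ, smul_eq_mul, mul_one, sub_self]
      have h3 := j_kpr_univ hF h2
      rw [mulVec_sub, mulVec_smul, kpr_of_ker hH (j_HB_free hF _), sub_eq_zero] at h3
      exact h3
    rw [sub_mulVec, ← mulVec_mulVec _ (cp1 (kpr (HB h Finset.univ))), sa4_kill hP hψ,
      sub_zero] at h1
    exact h1

end Vale.Agent.P356.SA
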