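import Vale.Agent.P356.SA.Dbl
import Vale.Agent.P356.NA.Init

/-!
The crosswise initial vector on two copies (block 5 of the strict area law).
-/

set_option linter.all false

namespace Vale.Agent.P356.SA

open Matrix Finset Vale.Agent.P356 Vale.Agent.P356.SV Vale.Agent.P356.Path Vale.Agent.P356.NA
open scoped BigOperators ComplexOrder Kronecker

section lowrank
variable {N α β : Type*} [Fintype N] [DecidableEq N] [Fintype α] [DecidableEq α]
    [Fintype β] [DecidableEq β]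

/-- low rank through a factorisation -/
theorem sa5_LR_of_mul {m : Type*} [Fintype m] (e : N ≃ α × β) (φ : N → ℂ) (A : Matrix α m ℂ)
    (B : Matrix m β ℂ) (h : ∀ s, φ s = (A * B) (e s).1 (e s).2) : LR e φ A.rank := by
  obtain ⟨E, hE, hEA, hEt⟩ := na_g_supp A
  refine ⟨E, hE, hEt.le, ?_⟩
  funext s
  have h1 : s = e.symm ((e s).1, (e s).2) := by simp
  rw [h1, opL_mulVec_apply]
  have h2 : ∀ a b, φ (e.symm (a, b)) = (A * B) a b := by
    intro a b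
    rw [h, Equiv.apply_symm_apply]
  simp only [h2]
  have h3 : E * (A * B) = A * B := by rw [← Matrix.mul_assoc, hEA]
  conv_rhs => rw [← h3]
  rfl

end lowrank

section cross
variable {α β : Type*} [Fintype α] [Fintype β] [DecidableEq α] [DecidableEq β]

theorem sa5_rot_apply (x y : α × β → ℂ) (i : α) (b : β) :
    ((rotW x)ᴴ *ᵥ y) (i, b) = ∑ a, star (eigU x a i) * y (a, b) := by
  rw [rotW, conjTranspose_kronecker, conjTranspose_one, kron_one_mulVec]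
  rfl

theorem sa5_left (x : α × β → ℂ) (i a : α) :
    ∑ b, star (x (a, b)) * ((rotW x)ᴴ *ᵥ x) (i, b) = (eigp x i : ℂ) * star (eigU x a i) := by
  have h1 : ∀ b, star (x (a, b)) * ((rotW x)ᴴ *ᵥ x) (i, b) =
      ∑ a', star (eigU x a' i) * (x (a', b) * star (x (a, b))) := by
    intro b
    rw [sa5_rot_apply, Finset.mul_sum]
    exact Finset.sum_congr rfl fun a' _ => by ring
  simp only [h1]
  rw [Finset.sum_comm]
  simp only [← Finset.mul_sum]
  have h2 : ((eigU x)ᴴ * redA x) i a = (eigp x i : ℂ) * star (eigU x a i) := by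
    have h3 : (eigU x)ᴴ * redA x = diagonal (fun i => (eigp x i : ℂ)) * (eigU x)ᴴ := by
      conv_lhs => rw [redA_spec x]
      rw [← Matrix.mul_assoc, ← Matrix.mul_assoc, eigU_mul', Matrix.one_mul]
    rw [h3, diagonal_mul, conjTranspose_apply]
  rw [← h2, Matrix.mul_apply]
  rfl

/-- the crosswise overlap -/
theorem sa5_cross (x y : α × β → ℂ) (i : α) :
    ∑ a₁, ∑ b₁, ∑ a₂, ∑ b₂, star (x (a₁, b₁)) * star (x (a₂, b₂)) *
        (y (a₁, b₂) * (((rotW x)ᴴ *ᵥ x) (i, b₁) * eigU x a₂ i)) =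
      (eigp x i : ℂ) * ∑ b, star (((rotW x)ᴴ *ᵥ x) (i, b)) * ((rotW x)ᴴ *ᵥ y) (i, b) := by
  have h1 : ∀ a₁, ∑ b₁, ∑ a₂, ∑ b₂, star (x (a₁, b₁)) * star (x (a₂, b₂)) *
        (y (a₁, b₂) * (((rotW x)ᴴ *ᵥ x) (i, b₁) * eigU x a₂ i)) =
      (∑ b₁, star (x (a₁, b₁)) * ((rotW x)ᴴ *ᵥ x) (i, b₁)) *
        ∑ b₂, (∑ a₂, star (x (a₂, b₂)) * eigU x a₂ i) * y (a₁, b₂) := by
    intro a₁
    rw [Finset.sum_mul]
    refine Finset.sum_congr rfl fun b₁ _ => ?_
    rw [Finset.sum_comm, Finset.mul_sum]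
    refine Finset.sum_congr rfl fun b₂ _ => ?_
    rw [Finset.sum_mul, Finset.mul_sum]
    exact Finset.sum_congr rfl fun a₂ _ => by ring
  have h2 : ∀ b, ∑ a, star (x (a, b)) * eigU x a i = star (((rotW x)ᴴ *ᵥ x) (i, b)) := by
    intro b
    rw [sa5_rot_apply, star_sum]
    refine Finset.sum_congr rfl fun a _ => ?_
    rw [star_mul', star_star]
    ring
  simp only [h1, sa5_left, h2]
  simp only [mul_assoc]
  rw [← Finset.mul_sum]
  congr 1
  simp only [Finset.mul_sum]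
  rw [Finset.sum_comm]
  refine Finset.sum_congr rfl fun b _ => ?_
  rw [sa5_rot_apply x y, Finset.mul_sum]
  exact Finset.sum_congr rfl fun a _ => by ring

/-- weight of the `i`-th row of `y` in the frame of `x` -/
noncomputable def sa5_w (x y : α × β → ℂ) (i : α) : ℝ := ∑ b, ‖((rotW x)ᴴ *ᵥ y) (i, b)‖ ^ 2

theorem sa5_w_nonneg (x y : α × β → ℂ) (i : α) : 0 ≤ sa5_w x y i :=
  Finset.sum_nonneg fun _ _ => sq_nonneg _

theorem sa5_w_sum (x y : α × β → ℂ) : ∑ i, sa5_w x y i = ∑ z, ‖y z‖ ^ 2 := by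
  rw [← nsq_conj (rotW x) (rotW_mul x) y, Fintype.sum_prod_type]
  rfl

theorem sa5_w_self (x : α × β → ℂ) (i : α) : sa5_w x x i = eigp x i :=
  row_norm_of_diag (rot_self x) i

/-- lower bound for the crosswise overlap -/
theorem sa5_cross_lower (x y : α × β → ℂ) (i : α) (h0 : 0 < eigp x i)
    (hw : sa5_w x (x - y) i ≤ eigp x i / 4) :
    eigp x i / 2 ≤ ‖∑ b, star (((rotW x)ᴴ *ᵥ x) (i, b)) * ((rotW x)ᴴ *ᵥ y) (i, b)‖ := by
  set z := (rotW x)ᴴ *ᵥ x with hz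
  set d := (rotW x)ᴴ *ᵥ (x - y) with hd
  have h1 : ∀ b, ((rotW x)ᴴ *ᵥ y) (i, b) = z (i, b) - d (i, b) := by
    intro b
    rw [hz, hd, mulVec_sub, Pi.sub_apply]
    ring
  have h2 : ∑ b, star (z (i, b)) * ((rotW x)ᴴ *ᵥ y) (i, b) =
      (eigp x i : ℂ) - ∑ b, star (z (i, b)) * d (i, b) := by
    simp only [h1, mul_sub, Finset.sum_sub_distrib]
    congr 1
    have h3 := rot_self x i i
    rw [if_pos rfl] at h3
    rw [← h3]
    exact Finset.sum_congr rfl fun b _ => mul_comm _ _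
  have h4 : ‖∑ b, star (z (i, b)) * d (i, b)‖ ≤ eigp x i / 2 := by
    have h5 := norm_ip_le (fun b => z (i, b)) (fun b => d (i, b))
    have h6 : Real.sqrt (∑ b, ‖z (i, b)‖ ^ 2) * Real.sqrt (∑ b, ‖d (i, b)‖ ^ 2) ≤
        eigp x i / 2 := by
      have e1 : ∑ b, ‖z (i, b)‖ ^ 2 = eigp x i := sa5_w_self x i
      have e2 : ∑ b, ‖d (i, b)‖ ^ 2 = sa5_w x (x - y) i := rfl
      rw [e1, e2, ← Real.sqrt_mul h0.le]
      refine Real.sqrt_le_iff.mpr ⟨by positivity, ?_⟩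
      nlinarith
    exact h5.trans h6
  rw [h2]
  have h7 : ‖(eigp x i : ℂ)‖ = eigp x i := by
    rw [Complex.norm_real, Real.norm_eq_abs, abs_of_pos h0]
  have h8 := norm_sub_norm_le (eigp x i : ℂ) (∑ b, star (z (i, b)) * d (i, b))
  rw [h7] at h8
  linarith

end cross

section regions
variable {V : Type} [Fintype V] [DecidableEq V] {q : ℕ}

/-- a typical eigenvector of the reduced state on `X`, seen well by the vector `ψ` -/
theorem sa5_choose (X : Finset V) (Ω ψ : Conf V q → ℂ) (hΩ : nsq Ω = 1) (K u : ℝ)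
    (hX : TailLe (rdm X Ω) K) (hu : 6 * Real.exp (-(u / (4 + 2 * Real.sqrt K))) ≤ 1 / 400)
    (hψ : nsq (Ω - ψ) ≤ 1 / 400) :
    ∃ i, Real.exp (-(entropyOf X Ω + u)) ≤ eigp (Ω ∘ (cut X q).symm) i ∧
      eigp (Ω ∘ (cut X q).symm) i ≤ 1 ∧
      sa5_w (Ω ∘ (cut X q).symm) (Ω ∘ (cut X q).symm - ψ ∘ (cut X q).symm) i ≤
        eigp (Ω ∘ (cut X q).symm) i / 4 := by
  classical
  set x := Ω ∘ (cut X q).symm with hx
  set y := ψ ∘ (cut X q).symm with hy
  have hp0 := eigp_nonneg x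
  have hp1 := eigp_sum x (b6a_unit X Ω hΩ)
  have heig : ∀ i, eig (rdm X Ω) i = eigp x i := fun i => by
    rw [eig_of_herm (rdm_herm X Ω)]
    rfl
  have hwsum : ∑ i, sa5_w x (x - y) i ≤ 1 / 400 := by
    rw [sa5_w_sum]
    refine le_trans (le_of_eq ?_) hψ
    rw [nsq, ← Equiv.sum_comp (cut X q).symm]
    rfl
  have htail := (hX u).trans hu
  simp only [heig] at htail
  by_contra hcon
  push Not at hcon
  have key : ∀ i, eigp x i ≤ 4 * sa5_w x (x - y) i +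
      (if u ≤ |dev (rdm X Ω) i| then eigp x i else 0) := by
    intro i
    have hw0 := sa5_w_nonneg x (x - y) i
    by_cases h : u ≤ |dev (rdm X Ω) i|
    · rw [if_pos h]
      linarith
    · rw [if_neg h]
      rcases (hp0 i).eq_or_lt with h0 | h0
      · rw [← h0]
        linarith
      · have h1 : Real.exp (-(entropyOf X Ω + u)) ≤ eigp x i := by
          rw [not_le] at h
          have h2 := (le_abs_self _).trans_lt h
          rw [dev, heig] at h2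
          have h3 : vnEntropy (rdm X Ω) = entropyOf X Ω := rfl
          rw [h3] at h2
          rw [← Real.exp_log h0]
          refine Real.exp_le_exp.mpr ?_
          linarith
        have h4 : eigp x i ≤ 1 := by
          rw [← hp1]
          exact Finset.single_le_sum (fun j _ => hp0 j) (Finset.mem_univ i)
        have h5 := hcon i h1 h4
        linarith
  have h6 := Finset.sum_le_sum fun i (_ : i ∈ Finset.univ) => key i
  rw [hp1, Finset.sum_add_distrib, ← Finset.mul_sum] at h6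
  linarith

/-- the configuration on the sites that mixes the two copies along `X` -/
def sa5_mix (X : Finset V) (s : Conf (V ⊕ V) q) : Conf V q :=
  fun x => if x ∈ X then s (Sum.inl x) else s (Sum.inr x)

/-- the crosswise vector -/
def sa5_v (X : Finset V) (ψ : Conf V q → ℂ) (f : ({x // ¬ x ∈ X} → Fin q) → ℂ)
    (g : ({x // x ∈ X} → Fin q) → ℂ) : Conf (V ⊕ V) q → ℂ :=
  fun s => ψ (sa5_mix X s) * (f (fun x => s (Sum.inl x.1)) * g (fun x => s (Sum.inr x.1)))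

theorem sa5_mix_elim (X : Finset V) (a₁ a₂ : {x // x ∈ X} → Fin q)
    (b₁ b₂ : {x // ¬ x ∈ X} → Fin q) :
    sa5_mix X (Sum.elim ((cut X q).symm (a₁, b₁)) ((cut X q).symm (a₂, b₂))) =
      (cut X q).symm (a₁, b₂) := by
  funext z
  by_cases h : z ∈ X
  · simp only [sa5_mix, h, if_true, Sum.elim_inl, cut, Equiv.piEquivPiSubtypeProd_symm_apply,
      dite_true]
  · simp only [sa5_mix, h, if_false, Sum.elim_inr, cut, Equiv.piEquivPiSubtypeProd_symm_apply,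
      dite_false]

theorem sa5_v_elim (X : Finset V) (ψ : Conf V q → ℂ) (f : ({x // ¬ x ∈ X} → Fin q) → ℂ)
    (g : ({x // x ∈ X} → Fin q) → ℂ) (a₁ a₂ : {x // x ∈ X} → Fin q)
    (b₁ b₂ : {x // ¬ x ∈ X} → Fin q) :
    sa5_v X ψ f g (Sum.elim ((cut X q).symm (a₁, b₁)) ((cut X q).symm (a₂, b₂))) =
      ψ ((cut X q).symm (a₁, b₂)) * (f b₁ * g a₂) := by
  rw [sa5_v, sa5_mix_elim]
  congr 2
  · congr 1
    funext x
    have h := x.2
    simp only [Sum.elim_inl, cut, Equiv.piEquivPiSubtypeProd_symm_apply, h, dite_false]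
  · congr 1
    funext x
    have h := x.2
    simp only [Sum.elim_inr, cut, Equiv.piEquivPiSubtypeProd_symm_apply, h, dite_true]

theorem sa5_sum4 {M : Type*} [AddCommMonoid M] (X : Finset V) (F : Conf (V ⊕ V) q → M) :
    ∑ s, F s = ∑ a₁, ∑ b₁, ∑ a₂, ∑ b₂,
      F (Sum.elim ((cut X q).symm (a₁, b₁)) ((cut X q).symm (a₂, b₂))) := by
  rw [sa2_sum', sum_equiv_prod (cut X q)]
  refine Finset.sum_congr rfl fun a₁ _ => Finset.sum_congr rfl fun b₁ _ => ?_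
  rw [sum_equiv_prod (cut X q)]

theorem sa5_v_nsq (X : Finset V) (ψ : Conf V q → ℂ) (f : ({x // ¬ x ∈ X} → Fin q) → ℂ)
    (g : ({x // x ∈ X} → Fin q) → ℂ) :
    nsq (sa5_v X ψ f g) = nsq ψ * ((∑ b, ‖f b‖ ^ 2) * ∑ a, ‖g a‖ ^ 2) := by
  rw [nsq, sa5_sum4 X]
  simp only [sa5_v_elim, norm_mul, mul_pow]
  rw [nsq, sum_equiv_prod (cut X q), Finset.sum_mul]
  refine Finset.sum_congr rfl fun a₁ _ => ?_
  simp only [← Finset.sum_mul, ← Finset.mul_sum]

/-- the overlap of the crosswise vector with the doubled state -/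
theorem sa5_v_ip (X : Finset V) (Ω ψ : Conf V q → ℂ) (i : {x // x ∈ X} → Fin q) (c : ℂ) :
    star (dbl Ω Ω) ⬝ᵥ sa5_v X ψ
        (fun b => c * ((rotW (Ω ∘ (cut X q).symm))ᴴ *ᵥ (Ω ∘ (cut X q).symm)) (i, b))
        (fun a => eigU (Ω ∘ (cut X q).symm) a i) =
      c * ((eigp (Ω ∘ (cut X q).symm) i : ℂ) *
        ∑ b, star (((rotW (Ω ∘ (cut X q).symm))ᴴ *ᵥ (Ω ∘ (cut X q).symm)) (i, b)) *
          ((rotW (Ω ∘ (cut X q).symm))ᴴ *ᵥ (ψ ∘ (cut X q).symm)) (i, b)) := by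
  rw [← sa5_cross, dotProduct, sa5_sum4 X]
  simp only [Pi.star_apply, sa5_v_elim, dbl, sa2_elim_inl, sa2_elim_inr, Finset.mul_sum]
  refine Finset.sum_congr rfl fun a₁ _ => Finset.sum_congr rfl fun b₁ _ =>
    Finset.sum_congr rfl fun a₂ _ => Finset.sum_congr rfl fun b₂ _ => ?_
  simp only [Function.comp_apply, star_mul']
  ring

/-- the rank of the crosswise vector -/
theorem sa5_v_rank (X I O : Finset V) (hIX : I ⊆ X) (hOX : Disjoint O X) (ψ : Conf V q → ℂ)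
    (f : ({x // ¬ x ∈ X} → Fin q) → ℂ) (g : ({x // x ∈ X} → Fin q) → ℂ) {r : ℝ}
    (h : LR (cut (I ∪ O)ᶜ q) ψ r) : LR (cut (I.disjSum O)ᶜ q) (sa5_v X ψ f g) r := by
  classical
  obtain ⟨E, hE, hEr, hEψ⟩ := h
  have hin : ∀ x : {x // x ∈ (I ∪ O)ᶜ}, (Sum.inl x.1 : V ⊕ V) ∈ (I.disjSum O)ᶜ := by
    intro x
    have h1 := x.2
    rw [Finset.mem_compl, Finset.mem_union, not_or] at h1
    rw [Finset.mem_compl, Finset.inl_mem_disjSum]
    exact h1.1
  have hin' : ∀ x : {x // x ∈ (I ∪ O)ᶜ}, (Sum.inr x.1 : V ⊕ V) ∈ (I.disjSum O)ᶜ := by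
    intro x
    have h1 := x.2
    rw [Finset.mem_compl, Finset.mem_union, not_or] at h1
    rw [Finset.mem_compl, Finset.inr_mem_disjSum]
    exact h1.2
  have hY : ∀ x : {x // ¬ x ∈ X}, (Sum.inl x.1 : V ⊕ V) ∈ (I.disjSum O)ᶜ := by
    intro x
    rw [Finset.mem_compl, Finset.inl_mem_disjSum]
    exact fun h => x.2 (hIX h)
  have hX : ∀ x : {x // x ∈ X}, (Sum.inr x.1 : V ⊕ V) ∈ (I.disjSum O)ᶜ := by
    intro x
    rw [Finset.mem_compl, Finset.inr_mem_disjSum]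
    exact fun h => Finset.disjoint_left.mp hOX h x.2
  have hout : ∀ x : {x // ¬ x ∈ (I ∪ O)ᶜ}, x.1 ∈ I →
      ¬ (Sum.inl x.1 : V ⊕ V) ∈ (I.disjSum O)ᶜ := by
    intro x hx
    rw [Finset.mem_compl, Finset.inl_mem_disjSum, not_not]
    exact hx
  have hout' : ∀ x : {x // ¬ x ∈ (I ∪ O)ᶜ}, x.1 ∉ I →
      ¬ (Sum.inr x.1 : V ⊕ V) ∈ (I.disjSum O)ᶜ := by
    intro x hx
    have h1 := x.2
    rw [Finset.mem_compl, not_not, Finset.mem_union] at h1
    rw [Finset.mem_compl, Finset.inr_mem_disjSum, not_not]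
    exact h1.resolve_left hx
  set ρ : ({z // z ∈ (I.disjSum O)ᶜ} → Fin q) → ({x // x ∈ (I ∪ O)ᶜ} → Fin q) :=
    fun a x => if x.1 ∈ X then a ⟨Sum.inl x.1, hin x⟩ else a ⟨Sum.inr x.1, hin' x⟩ with hρ
  set σ : ({z // ¬ z ∈ (I.disjSum O)ᶜ} → Fin q) → ({x // ¬ x ∈ (I ∪ O)ᶜ} → Fin q) :=
    fun b x => if hx : x.1 ∈ I then b ⟨Sum.inl x.1, hout x hx⟩
      else b ⟨Sum.inr x.1, hout' x hx⟩ with hσ
  set d : ({z // z ∈ (I.disjSum O)ᶜ} → Fin q) → ℂ :=
    fun a => f (fun x => a ⟨Sum.inl x.1, hY x⟩) * g (fun x => a ⟨Sum.inr x.1, hX x⟩) with hd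
  have hρs : ∀ s : Conf (V ⊕ V) q, ρ ((cut (I.disjSum O)ᶜ q) s).1 =
      ((cut (I ∪ O)ᶜ q) (sa5_mix X s)).1 := by
    intro s
    funext x
    rfl
  have hσs : ∀ s : Conf (V ⊕ V) q, σ ((cut (I.disjSum O)ᶜ q) s).2 =
      ((cut (I ∪ O)ᶜ q) (sa5_mix X s)).2 := by
    intro s
    funext x
    simp only [hσ]
    by_cases hx : x.1 ∈ I
    · rw [dif_pos hx]
      show s (Sum.inl x.1) = sa5_mix X s x.1
      rw [sa5_mix, if_pos (hIX hx)]
    · rw [dif_neg hx]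
      show s (Sum.inr x.1) = sa5_mix X s x.1
      have h1 := x.2
      rw [Finset.mem_compl, not_not, Finset.mem_union] at h1
      rw [sa5_mix, if_neg (Finset.disjoint_left.mp hOX (h1.resolve_left hx))]
  have hds : ∀ s : Conf (V ⊕ V) q, d ((cut (I.disjSum O)ᶜ q) s).1 =
      f (fun x => s (Sum.inl x.1)) * g (fun x => s (Sum.inr x.1)) := fun s => rfl
  set D : Matrix ({z // z ∈ (I.disjSum O)ᶜ} → Fin q) ({x // x ∈ (I ∪ O)ᶜ} → Fin q) ℂ :=
    fun a w => if ρ a = w then d a else 0 with hD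
  set B : Matrix ({x // x ∈ (I ∪ O)ᶜ} → Fin q) ({z // ¬ z ∈ (I.disjSum O)ᶜ} → Fin q) ℂ :=
    fun w b => ψ ((cut (I ∪ O)ᶜ q).symm (w, σ b)) with hB
  have hDE : ∀ a w, (D * E) a w = d a * E (ρ a) w := by
    intro a w
    rw [Matrix.mul_apply, Finset.sum_eq_single (ρ a)]
    · simp only [hD, if_true]
    · intro w' _ hw'
      simp only [hD]
      rw [if_neg (Ne.symm hw'), zero_mul]
    · intro h
      exact absurd (Finset.mem_univ _) h
  have hfac : ∀ s, sa5_v X ψ f g s =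
      ((D * E) * B) ((cut (I.disjSum O)ᶜ q) s).1 ((cut (I.disjSum O)ᶜ q) s).2 := by
    intro s
    rw [Matrix.mul_apply]
    simp only [hDE, hB, hρs, hσs, hds]
    have h1 : ψ (sa5_mix X s) = ∑ w, E ((cut (I ∪ O)ᶜ q) (sa5_mix X s)).1 w *
        ψ ((cut (I ∪ O)ᶜ q).symm (w, ((cut (I ∪ O)ᶜ q) (sa5_mix X s)).2)) := by
      rw [← opL_mulVec_apply, hEψ, Prod.mk.eta, Equiv.symm_apply_apply]
    rw [sa5_v, h1, Finset.sum_mul]
    exact Finset.sum_congr rfl fun w _ => by ring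
  refine LR_mono _ (sa5_LR_of_mul _ _ (D * E) B hfac) (le_trans ?_ hEr)
  rw [na_g_trace_rank hE]
  exact_mod_cast Matrix.rank_mul_le_right D E

/-- BLOCK 5: the crosswise initial vector -/
theorem init_vec2 (Ω : Conf V q → ℂ) (hΩ : nsq Ω = 1) (n : ℕ) (I O : ℕ → Finset V)
    (X : Finset V) (hI : ∀ j k, j ≤ k → I j ⊆ I k) (hO : ∀ j k, j ≤ k → O j ⊆ O k)
    (hIX : ∀ k < n, I k ⊆ X) (hOX : ∀ k < n, Disjoint (O k) X) (K u : ℝ) (hu : 0 < u)
    (hK : 0 ≤ K) (hX : TailLe (rdm X Ω) K) (hW : ∀ k < n, TailLe (rdm (I k ∪ O k)ᶜ Ω) K)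
    (hu2 : 6 * Real.exp (-(u / (4 + 2 * Real.sqrt K))) ≤ 1 / (400 * ((n : ℝ) + 1) ^ 2)) :
    ∃ v : Conf (V ⊕ V) q → ℂ, nsq v ≤ 1 ∧
      Real.exp (-(2 * (entropyOf X Ω + u) + 2)) ≤ ‖star (dbl Ω Ω) ⬝ᵥ v‖ ∧
      ∀ k < n, LR (cut ((I k).disjSum (O k))ᶜ q) v (Real.exp (entropyOf (I k ∪ O k)ᶜ Ω + u)) := by
  classical
  have hn0 : (0 : ℝ) ≤ n := Nat.cast_nonneg n
  have hT : ∀ k, ∃ T : Op {x // x ∈ (I k ∪ O k)ᶜ} q, k < n → IsPr T ∧
      T.trace.re ≤ Real.exp (entropyOf (I k ∪ O k)ᶜ Ω + u) ∧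
      nsq ((1 - opOn (I k ∪ O k)ᶜ T) *ᵥ Ω) ≤ 1 / (400 * ((n : ℝ) + 1) ^ 2) := by
    intro k
    by_cases hk : k < n
    · obtain ⟨T, h1, h2, h3, _⟩ := typical (I k ∪ O k)ᶜ Ω hΩ K (hW k hk) u hu
      exact ⟨T, fun _ => ⟨h1, h2, h3.trans hu2⟩⟩
    · exact ⟨0, fun h => absurd h hk⟩
  choose T hT using hT
  set Q : ℕ → Op V q := fun k => opOn (I k ∪ O k)ᶜ (T k) with hQ
  have hQc : ∀ k < n, Contr (Q k) := fun k hk => b6d_contr (b6d_isPr_opOn _ (hT k hk).1)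
  have hstep : ∀ k < n, nrm ((1 - Q k) *ᵥ Ω) ≤ 1 / (20 * ((n : ℝ) + 1)) := by
    intro k hk
    have h1 := (hT k hk).2.2
    have h2 : nrm ((1 - Q k) *ᵥ Ω) ^ 2 ≤ (1 / (20 * ((n : ℝ) + 1))) ^ 2 := by
      rw [nrm_sq]
      refine h1.trans (le_of_eq ?_)
      rw [div_pow, mul_pow]
      norm_num
    exact (sq_le_sq₀ (nrm_nonneg _) (by positivity)).mp h2
  obtain ⟨hc1, hc2⟩ := na_i_chain Q Ω n _ hQc hstep n le_rfl
  set ψ : Conf V q → ℂ := prL Q n *ᵥ Ω with hψ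
  have hψ1 : nsq (Ω - ψ) ≤ 1 / 400 := by
    rw [← nrm_sq]
    have h1 : nrm (Ω - ψ) ≤ 1 / 20 := by
      refine hc1.trans ?_
      rw [mul_one_div, div_le_div_iff₀ (by positivity) (by norm_num)]
      linarith
    calc nrm (Ω - ψ) ^ 2 ≤ (1 / 20) ^ 2 := pow_le_pow_left₀ (nrm_nonneg _) h1 2
      _ = 1 / 400 := by norm_num
  have hψ2 : nsq ψ ≤ 1 := by
    rw [← nrm_sq]
    have h1 : nrm Ω = 1 := by rw [nrm, hΩ, Real.sqrt_one]
    rw [h1] at hc2
    exact pow_le_one₀ (nrm_nonneg _) hc2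
  have hu3 : 6 * Real.exp (-(u / (4 + 2 * Real.sqrt K))) ≤ 1 / 400 := by
    refine hu2.trans ?_
    rw [div_le_div_iff₀ (by positivity) (by norm_num)]
    nlinarith
  obtain ⟨i, hi1, hi2, hi3⟩ := sa5_choose X Ω ψ hΩ K u hX hu3 hψ1
  set x := Ω ∘ (cut X q).symm with hx
  set y := ψ ∘ (cut X q).symm with hy
  set lam := eigp x i with hlam
  have hl0 : 0 < lam := (Real.exp_pos _).trans_le hi1
  set c : ℂ := ((1 / Real.sqrt lam : ℝ) : ℂ) with hc
  have hcn : ‖c‖ = 1 / Real.sqrt lam := by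
    rw [hc, Complex.norm_real, Real.norm_eq_abs, abs_of_nonneg (by positivity)]
  have hs0 : 0 < Real.sqrt lam := Real.sqrt_pos.mpr hl0
  have hss : Real.sqrt lam * Real.sqrt lam = lam := Real.mul_self_sqrt hl0.le
  refine ⟨sa5_v X ψ (fun b => c * ((rotW x)ᴴ *ᵥ x) (i, b)) (fun a => eigU x a i), ?_, ?_, ?_⟩
  · rw [sa5_v_nsq]
    have h1 : ∑ b, ‖c * ((rotW x)ᴴ *ᵥ x) (i, b)‖ ^ 2 = 1 := by
      simp only [norm_mul, mul_pow]
      rw [← Finset.mul_sum, row_norm_of_diag (rot_self x) i, hcn, div_pow, sq (Real.sqrt lam), hss,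
        one_pow, one_div, ← hlam]
      exact inv_mul_cancel₀ hl0.ne'
    have h2 : ∑ a, ‖eigU x a i‖ ^ 2 = 1 := by
      have h3 := congrFun (congrFun (eigU_mul' x) i) i
      rw [Matrix.mul_apply, one_apply_eq] at h3
      have h4 : ((∑ a, ‖eigU x a i‖ ^ 2 : ℝ) : ℂ) = 1 := by
        rw [← h3]
        push_cast
        refine Finset.sum_congr rfl fun a _ => ?_
        rw [conjTranspose_apply, ← Complex.conj_mul']
        rfl
      exact_mod_cast h4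
    rw [h1, h2, mul_one, mul_one]
    exact hψ2
  · rw [sa5_v_ip, ← hx, ← hy, norm_mul, norm_mul, hcn]
    have h1 := sa5_cross_lower x y i hl0 hi3
    have h2 : ‖(eigp x i : ℂ)‖ = lam := by
      rw [Complex.norm_real, Real.norm_eq_abs, abs_of_pos hl0]
    rw [h2]
    have h3 : lam ^ 2 / 2 ≤ 1 / Real.sqrt lam * (lam * (lam / 2)) := by
      have h4 : 1 ≤ 1 / Real.sqrt lam := by
        rw [le_div_iff₀ hs0, one_mul]
        exact Real.sqrt_le_one.mpr hi2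
      nlinarith [mul_nonneg hl0.le hl0.le]
    have h5 : 1 / Real.sqrt lam * (lam * (lam / 2)) ≤ 1 / Real.sqrt lam * (lam *
        ‖∑ b, star (((rotW x)ᴴ *ᵥ x) (i, b)) * ((rotW x)ᴴ *ᵥ y) (i, b)‖) := by
      refine mul_le_mul_of_nonneg_left (mul_le_mul_of_nonneg_left h1 hl0.le) (by positivity)
    refine le_trans ?_ (h3.trans h5)
    have h6 : Real.exp (-(2 * (entropyOf X Ω + u) + 2)) =
        Real.exp (-(entropyOf X Ω + u)) ^ 2 * Real.exp (-2) := by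
      rw [← Real.exp_nat_mul, ← Real.exp_add]
      congr 1
      push_cast
      ring
    have h7 : Real.exp (-2) ≤ 1 / 2 := by
      have h8 := Real.add_one_le_exp (2 : ℝ)
      have h9 : Real.exp (-2) * Real.exp 2 = 1 := by rw [← Real.exp_add]; norm_num
      nlinarith [Real.exp_pos (-2 : ℝ)]
    rw [h6, div_eq_mul_one_div]
    exact mul_le_mul (pow_le_pow_left₀ (Real.exp_pos _).le hi1 2) h7 (Real.exp_pos _).le
      (sq_nonneg _)
  · intro k hk
    refine sa5_v_rank X (I k) (O k) (hIX k hk) (hOX k hk) ψ _ _ ?_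
    have h1 : ∀ j, k < j → j ≤ n → LR (cut (I k ∪ O k)ᶜ q) (prL Q j *ᵥ Ω)
        (Real.exp (entropyOf (I k ∪ O k)ᶜ Ω + u)) := by
      intro j
      induction j with
      | zero => intro h; omega
      | succ j ih =>
        intro h h'
        rw [prL, ← mulVec_mulVec]
        rcases Nat.lt_or_ge k j with h2 | h2
        · refine na_i_LR_sub (I j ∪ O j)ᶜ (I k ∪ O k)ᶜ ?_ (T j) (ih h2 (by omega))
          exact Finset.compl_subset_compl.mpr
            (Finset.union_subset_union (hI k j h2.le) (hO k j h2.le))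
        · have h3 : j = k := by omega
          subst h3
          refine ⟨T j, (hT j hk).1, (hT j hk).2.1, ?_⟩
          show opOn (I j ∪ O j)ᶜ (T j) *ᵥ (opOn (I j ∪ O j)ᶜ (T j) *ᵥ _) =
            opOn (I j ∪ O j)ᶜ (T j) *ᵥ _
          rw [mulVec_mulVec, ← opOn_mul, (hT j hk).1.1]
    exact h1 n hk le_rfl

end regions

end Vale.Agent.P356.SA
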