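import Vale.Agent.P356.SA.Defs

/-!
Calculus of the mutual information of an entropy function.
-/

set_option linter.all false

namespace Vale.Agent.P356.SA

open Matrix Finset Vale.Agent.P356 Vale.Agent.P356.SV Vale.Agent.P356.Path Vale.Agent.P356.NA
open scoped BigOperators ComplexOrder Kronecker

section B8
variable {V : Type*} [Fintype V] [DecidableEq V] {S : Finset V → ℝ}

theorem S_sub (hS : EntLike S) {A B : Finset V} (h : Disjoint A B) : S (A ∪ B) ≤ S A + S B := by
  have h1 := hS.ssa A ∅ B (Finset.disjoint_empty_right _) h (Finset.disjoint_empty_left _)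
  rw [hS.empty, Finset.union_empty, Finset.empty_union] at h1
  linarith

/-- Araki-Lieb -/
theorem S_al (hS : EntLike S) {A B : Finset V} (h : Disjoint A B) : S A ≤ S (A ∪ B) + S B := by
  have h1 : S Aᶜ ≤ S (A ∪ B)ᶜ + S B := by
    have h2 : Aᶜ = (A ∪ B)ᶜ ∪ B := by
      ext x
      simp only [Finset.mem_compl, Finset.mem_union]
      constructor
      · intro hx
        by_cases hB : x ∈ B
        · exact Or.inr hB
        · exact Or.inl (by tauto)
      · rintro (hx | hx)
        · tauto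
        · exact fun hA => (Finset.disjoint_left.mp h hA) hx
    rw [h2]
    refine S_sub hS ?_
    rw [Finset.disjoint_left]
    intro x hx hB
    rw [Finset.mem_compl, Finset.mem_union] at hx
    exact hx (Or.inr hB)
  rw [hS.compl, hS.compl] at h1
  exact h1

theorem mi_nonneg (hS : EntLike S) {A B : Finset V} (h : Disjoint A B) : 0 ≤ mi S A B := by
  have := S_sub hS h
  unfold mi
  linarith

theorem mi_comm (A B : Finset V) : mi S A B = mi S B A := by
  unfold mi
  rw [Finset.union_comm]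
  ring

theorem mi_empty (hS : EntLike S) (A : Finset V) : mi S A ∅ = 0 := by
  unfold mi
  rw [Finset.union_empty, hS.empty]
  ring

theorem mi_le (hS : EntLike S) {A B : Finset V} (h : Disjoint A B) : mi S A B ≤ 2 * S A := by
  have h1 := S_al hS (A := B) (B := A) h.symm
  rw [Finset.union_comm] at h1
  unfold mi
  linarith

theorem mi_mono_left (hS : EntLike S) {A B A' : Finset V} (h : Disjoint A B) (hA : A' ⊆ A) :
    mi S A' B ≤ mi S A B := by
  have h1 := hS.ssa (A \ A') A' B (Finset.sdiff_disjoint)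
    (h.mono_left Finset.sdiff_subset) (h.mono_left hA)
  have e1 : A \ A' ∪ A' = A := Finset.sdiff_union_of_subset hA
  rw [e1] at h1
  unfold mi
  linarith

theorem mi_mono2 (hS : EntLike S) {A B A' B' : Finset V} (h : Disjoint A B) (hA : A' ⊆ A)
    (hB : B' ⊆ B) : mi S A' B' ≤ mi S A B := by
  have h1 := mi_mono_left hS (h.mono_right hB) hA
  have h2 := mi_mono_left hS h.symm hB
  rw [mi_comm B' A, mi_comm B A] at h2
  exact h1.trans h2

theorem mi_drop (hS : EntLike S) {A B K : Finset V} (h : Disjoint (A ∪ K) B) (hAK : Disjoint A K) :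
    mi S (A ∪ K) B ≤ mi S A B + 2 * S K := by
  have h1 := S_sub hS hAK
  have hd : Disjoint (A ∪ B) K := by
    rw [Finset.disjoint_union_left]
    exact ⟨hAK, ((Finset.disjoint_union_left.mp h).2).symm⟩
  have h2 := S_al hS hd
  have e : A ∪ B ∪ K = A ∪ K ∪ B := by
    rw [Finset.union_assoc, Finset.union_comm B K, ← Finset.union_assoc]
  rw [e] at h2
  unfold mi
  linarith

/-- conditional chain rule: splitting off a conditioned part -/
theorem S_cond (hS : EntLike S) {Q T A' : Finset V} (hQ : Disjoint Q A') (hT : T ⊆ A') :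
    S (Q ∪ A') - S A' ≤ S (Q ∪ T) - S T := by
  have h1 := hS.ssa Q T (A' \ T) (hQ.mono_right hT) (hQ.mono_right Finset.sdiff_subset)
    Finset.disjoint_sdiff
  rw [Finset.union_assoc, Finset.union_sdiff_of_subset hT] at h1
  linarith

/-- THIN: `Q = K + P + A₂ + A₁`, `A₂` is decoupled from the complement of `Q`, `A₁` from
`P ∪ D`, `D` outside `Q` -/
theorem thin (hS : EntLike S) {K P A₁ A₂ D : Finset V} {ε : ℝ}
    (h1 : Disjoint K P) (h2 : Disjoint K A₁) (h3 : Disjoint K A₂) (h4 : Disjoint P A₁)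
    (h5 : Disjoint P A₂) (h6 : Disjoint A₁ A₂) (h7 : Disjoint (K ∪ P ∪ A₁ ∪ A₂) D)
    (e1 : mi S A₂ (K ∪ P ∪ A₁ ∪ A₂)ᶜ ≤ ε) (e2 : mi S A₁ (P ∪ D) ≤ ε) :
    mi S (K ∪ P ∪ A₁ ∪ A₂) D ≤ mi S P D + 2 * ε + 4 * S K := by
  set Q := K ∪ P ∪ A₁ ∪ A₂ with hQ
  have hKD : Disjoint K D := h7.mono_left (by
    rw [hQ]; intro x hx; simp only [Finset.mem_union]; tauto)
  have hPD : Disjoint P D := h7.mono_left (by
    rw [hQ]; intro x hx; simp only [Finset.mem_union]; tauto)
  have hA1D : Disjoint A₁ D := h7.mono_left (by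
    rw [hQ]; intro x hx; simp only [Finset.mem_union]; tauto)
  have hA2D : Disjoint A₂ D := h7.mono_left (by
    rw [hQ]; intro x hx; simp only [Finset.mem_union]; tauto)
  -- step 0: drop K
  have hQK : Q = (P ∪ A₁ ∪ A₂) ∪ K := by
    rw [hQ]
    ext x
    simp only [Finset.mem_union]
    tauto
  have hdK : Disjoint (P ∪ A₁ ∪ A₂) K := by
    rw [Finset.disjoint_union_left, Finset.disjoint_union_left]
    exact ⟨⟨h1.symm, h2.symm⟩, h3.symm⟩
  have s0 : mi S Q D ≤ mi S (P ∪ A₁ ∪ A₂) D + 2 * S K := by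
    rw [hQK]
    refine mi_drop hS ?_ hdK
    rw [← hQK]
    exact h7
  -- step 1
  have s1 : S A₂ + S (P ∪ A₁ ∪ A₂) ≤ S A₁ + S P + 2 * S K + ε := by
    have t1 : S (P ∪ A₁ ∪ A₂) ≤ S Qᶜ + S K := by
      rw [hS.compl, hQK]
      exact S_al hS hdK
    have t2 : S (A₂ ∪ Qᶜ) ≤ S K + (S P + S A₁) := by
      have t3 : (A₂ ∪ Qᶜ)ᶜ = K ∪ (P ∪ A₁) := by
        rw [hQ]
        ext x
        simp only [Finset.mem_compl, Finset.mem_union, not_or, not_and, not_not]
        have a1 : x ∈ K → x ∉ A₂ := fun h => Finset.disjoint_left.mp h3 h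
        have a2 : x ∈ P → x ∉ A₂ := fun h => Finset.disjoint_left.mp h5 h
        have a3 : x ∈ A₁ → x ∉ A₂ := fun h => Finset.disjoint_left.mp h6 h
        tauto
      rw [← hS.compl (A₂ ∪ Qᶜ), t3]
      have t4 : Disjoint K (P ∪ A₁) := by
        rw [Finset.disjoint_union_right]
        exact ⟨h1, h2⟩
      have t5 := S_sub hS t4
      have t6 := S_sub hS h4
      linarith
    have t7 : S A₂ + S Qᶜ - S (A₂ ∪ Qᶜ) ≤ ε := e1
    linarith
  -- step 2
  have s2 : S A₁ + S (P ∪ D) ≤ S (P ∪ A₁ ∪ A₂ ∪ D) + S A₂ + ε := by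
    have t1 : S A₁ + S (P ∪ D) - S (A₁ ∪ (P ∪ D)) ≤ ε := e2
    have t2 : Disjoint (A₁ ∪ (P ∪ D)) A₂ := by
      rw [Finset.disjoint_union_left, Finset.disjoint_union_left]
      exact ⟨h6, h5, hA2D.symm⟩
    have t3 := S_al hS t2
    have t4 : A₁ ∪ (P ∪ D) ∪ A₂ = P ∪ A₁ ∪ A₂ ∪ D := by
      ext x
      simp only [Finset.mem_union]
      tauto
    rw [t4] at t3
    linarith
  have s3 : mi S (P ∪ A₁ ∪ A₂) D ≤ mi S P D + 2 * ε + 2 * S K := by
    unfold mi
    linarith
  linarith

end B8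

end Vale.Agent.P356.SA
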