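import Vale.Agent.P356.SA.Main2
import Vale.Agent.P356.SA.Dbl
import Vale.Agent.P356.SA.DblEnt
import Vale.Agent.P356.SA.ExK2
import Vale.Agent.P356.SA.Init2
import Vale.Agent.P356.SA.Ssa679
import Vale.Agent.P356.SA.Thin
import Vale.Agent.P356.SA.DecGeo
import Vale.Agent.P356.SA.DecPar

/-!
Block 7: decoupling of distant regions, from the near-area law and the lossless average
inequality for two copies of the system.
-/

set_option linter.all false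

namespace Vale.Agent.P356.SA

open Matrix Finset Vale.Agent.P356 Vale.Agent.P356.SV Vale.Agent.P356.Path Vale.Agent.P356.NA
open scoped BigOperators ComplexOrder Kronecker

section cutineq

theorem sa7_compl_disjSum {V W : Type*} [Fintype V] [DecidableEq V] [Fintype W] [DecidableEq W]
    (A : Finset V) (B : Finset W) : (A.disjSum B)ᶜ = Aᶜ.disjSum Bᶜ := by
  ext x
  rcases x with x | x <;> simp

theorem sa7_logb {n : ℕ} (hn : 1 ≤ n) :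
    Real.log (2 / (1 / (4 * (n : ℝ) ^ 2))) ≤ 3 + 2 * Real.log n := by
  rw [na_k_logb hn]
  have := na_k_log8
  linarith only [this]

theorem sa7_u3 {n : ℕ} (hn : 1 ≤ n) {x : ℝ} (h : x ≤ 1 / (400 * ((n : ℝ) + 1) ^ 2)) :
    x ≤ 1 / (4 * (n : ℝ) ^ 2) / 2 := by
  have hn1 : (1 : ℝ) ≤ n := by exact_mod_cast hn
  have hn0 : (0 : ℝ) < n := by linarith only [hn1]
  refine h.trans ?_
  rw [div_div]
  refine one_div_le_one_div_of_le (by positivity) ?_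
  nlinarith only [hn1, mul_nonneg hn0.le hn0.le]

theorem sa7_exp3 : (20 : ℝ) ≤ Real.exp 3 := by
  have h6 : Real.exp 3 = Real.exp 1 ^ 3 := by
    rw [← Real.exp_nat_mul]
    norm_num
  rw [h6]
  have h7 := Real.exp_one_gt_d9
  calc (20 : ℝ) ≤ 2.7182818283 ^ 3 := by norm_num
    _ ≤ Real.exp 1 ^ 3 := pow_le_pow_left₀ (by norm_num) h7.le 3

theorem sa7_steps {c s b : ℝ} (j : ℕ) (hj : b + 3 ≤ j * (c * s)) :
    Real.exp (-(c * s)) ^ j ≤ Real.exp (-b) / 20 := by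
  rw [← Real.exp_nat_mul]
  have h3 : (j : ℝ) * -(c * s) ≤ -b + -3 := by linarith only [hj]
  refine (Real.exp_le_exp.mpr h3).trans ?_
  rw [Real.exp_add, div_eq_mul_inv, Real.exp_neg 3]
  exact mul_le_mul_of_nonneg_left (inv_anti₀ (by norm_num) sa7_exp3) (Real.exp_pos _).le

variable {V : Type} [Fintype V] [DecidableEq V] {q : ℕ}

/-- the large-rank estimate for two copies -/
theorem sa7_large (A B : Finset V) {Ω : Conf V q → ℂ} (hΩ : nsq Ω = 1) {K u : ℝ} (hK : 0 ≤ K)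
    (hu : 0 < u) {n : ℕ} (hn : 1 ≤ n)
    (hu2 : 6 * Real.exp (-(u / (4 + 2 * Real.sqrt ((10 + 6 * Real.sqrt K) ^ 2)))) ≤
      1 / (400 * ((n : ℝ) + 1) ^ 2))
    (tA : TailLe (rdm Aᶜ Ω) K) (tB : TailLe (rdm Bᶜ Ω) K)
    (F : Op {x // x ∈ (A.disjSum B)ᶜ} q) (hF : IsPr F)
    (hw : 1 / (4 * (n : ℝ) ^ 2) ≤ nsq (opOn (A.disjSum B)ᶜ F *ᵥ dbl Ω Ω)) :
    entropyOf A Ω + entropyOf B Ω ≤ Real.log (F.trace.re) + (u + 3 + 2 * Real.log n) := by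
  have hΩ2 : nsq (dbl Ω Ω) = 1 := by rw [nsq_dbl, hΩ, mul_one]
  have hn1 : (1 : ℝ) ≤ n := by exact_mod_cast hn
  have hn0 : (0 : ℝ) < n := by linarith only [hn1]
  have htail : TailLe (rdm (A.disjSum B)ᶜ (dbl Ω Ω)) ((10 + 6 * Real.sqrt K) ^ 2) := by
    rw [sa7_compl_disjSum]
    exact tail_dbl Aᶜ Bᶜ hΩ hΩ hK tA tB
  have hrank := rank_large (A.disjSum B)ᶜ (dbl Ω Ω) hΩ2 ((10 + 6 * Real.sqrt K) ^ 2) u
    (1 / (4 * (n : ℝ) ^ 2)) (by positivity) htail hu.le (by positivity) (sa7_u3 hn hu2) F hF hw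
  have hent : entropyOf (A.disjSum B)ᶜ (dbl Ω Ω) = entropyOf A Ω + entropyOf B Ω := by
    rw [sa7_compl_disjSum, entropy_dbl _ _ hΩ hΩ, entropy_compl A Ω hΩ, entropy_compl B Ω hΩ]
  rw [hent] at hrank
  have := sa7_logb hn
  linarith only [hrank, this]

theorem sa7_arith {n avS avR Q b u lgn M Λ j lD g lD' g' Q1 : ℝ}
    (h1 : avS ≤ Q + j * lD' + n + (u + 3 + 2 * lgn) + Real.log (n * Q) + 1)
    (hQ : Q = (avR + u) + 2 + j * g' / (2 * Λ) + (b + 3 + j * lD') / Λ)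
    (hQ1 : Q1 = (M + u) + 2 + j * g / (2 * Λ) + (b + 3 + j * lD) / Λ)
    (hM : avR ≤ M) (hn : 0 < n) (hj : 0 ≤ j) (hlD : lD' ≤ lD) (hg : g' ≤ g) (hΛ : 0 < Λ)
    (hQ0 : 0 < Q) :
    avS - avR ≤ 2 * u + 6 + j * g / (2 * Λ) + (b + 3 + j * lD) / Λ + j * lD + n + 2 * lgn +
      Real.log (n * Q1) := by
  have h2 : j * g' / (2 * Λ) ≤ j * g / (2 * Λ) := by gcongr
  have h3 : (b + 3 + j * lD') / Λ ≤ (b + 3 + j * lD) / Λ := by gcongr
  have h4 : j * lD' ≤ j * lD := by gcongr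
  have h5 : Q ≤ Q1 := by rw [hQ, hQ1]; linarith only [h2, h3, hM]
  have h6 : Real.log (n * Q) ≤ Real.log (n * Q1) :=
    Real.log_le_log (mul_pos hn hQ0) (mul_le_mul_of_nonneg_left h5 hn.le)
  linarith only [h1, hQ, h2, h3, h4, h6]

theorem sa7_avr {n : ℕ} (hn : (0 : ℝ) < n) (f : ℕ → ℝ) (u : ℝ) :
    (∑ k ∈ range n, (f k + u)) / (n : ℝ) = (∑ k ∈ range n, f k) / n + u := by
  rw [Finset.sum_add_distrib, Finset.sum_const, Finset.card_range, nsmul_eq_mul, add_div,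
    mul_div_cancel_left₀ _ hn.ne']

theorem sa7_avM {n : ℕ} (hn : (0 : ℝ) < n) (f : ℕ → ℝ) (M : ℝ) (h : ∀ k < n, f k ≤ M) :
    (∑ k ∈ range n, f k) / (n : ℝ) ≤ M := by
  rw [div_le_iff₀ hn]
  refine (Finset.sum_le_sum fun k hk => h k (Finset.mem_range.mp hk)).trans (le_of_eq ?_)
  rw [Finset.sum_const, Finset.card_range, nsmul_eq_mul]
  ring

theorem sa7_av0 {n : ℕ} (hn : (0 : ℝ) < n) (f : ℕ → ℝ) (h : ∀ k, 0 ≤ f k) :
    0 ≤ (∑ k ∈ range n, f k) / (n : ℝ) :=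
  div_nonneg (Finset.sum_nonneg fun k _ => h k) hn.le

theorem sa7_Q0 {R u j g Λ b l : ℝ} (hR : 0 ≤ R) (hu : 0 < u) (hj : 0 ≤ j) (hg : 0 ≤ g)
    (hΛ : 0 < Λ) (hb : 0 ≤ b) (hl : 0 ≤ l) :
    0 < R + u + 2 + j * g / (2 * Λ) + (b + 3 + j * l) / Λ := by
  have h2 : 0 ≤ j * g / (2 * Λ) := by positivity
  have h3 : 0 ≤ (b + 3 + j * l) / Λ := by positivity
  linarith only [h2, h3, hR, hu]

theorem sa7_cardc (hq : 1 ≤ q) (A : Finset V) (u : ℝ) (hu : 0 < u) :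
    Real.log (Fintype.card (Conf {x // x ∈ A} q)) ≤ Real.log q * (Fintype.card V : ℝ) + u := by
  have hlogq : 0 ≤ Real.log q := Real.log_nonneg (by exact_mod_cast hq)
  rw [Fintype.card_fun, Fintype.card_fin, Nat.cast_pow, Real.log_pow, mul_comm]
  have h1 : (Fintype.card {x // x ∈ A} : ℝ) ≤ (Fintype.card V : ℝ) := by
    exact_mod_cast Fintype.card_subtype_le _
  have h2 := mul_le_mul_of_nonneg_left h1 hlogq
  linarith only [h2, hu]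

theorem sa7_entm (hq : 1 ≤ q) (A : Finset V) {Ω : Conf V q → ℂ} (hΩ : nsq Ω = 1) (u : ℝ)
    (hu : 0 < u) : 0 ≤ entropyOf A Ω + u ∧
      entropyOf A Ω + u ≤ Real.log q * (Fintype.card (V ⊕ V) : ℝ) + u := by
  have hlogq : 0 ≤ Real.log q := Real.log_nonneg (by exact_mod_cast hq)
  refine ⟨add_nonneg (entropy_nonneg _ Ω hΩ) hu.le, ?_⟩
  have h1 := entropy_le_card hq A Ω hΩ
  have h2 : ((A.card : ℕ) : ℝ) ≤ (Fintype.card (V ⊕ V) : ℝ) := by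
    have h3 : A.card ≤ Fintype.card (V ⊕ V) := by
      rw [Fintype.card_sum]
      exact (Finset.card_le_univ _).trans (Nat.le_add_right _ _)
    exact_mod_cast h3
  have h3 := mul_le_mul_of_nonneg_left h2 hlogq
  linarith only [h1, h3]

theorem sa7_cut (hq : 1 ≤ q) {Ω : Conf V q → ℂ} (hΩ : nsq Ω = 1) (I O : ℕ → Finset V)
    (hI : ∀ j k, j ≤ k → I j ⊆ I k) (hO : ∀ j k, j ≤ k → O j ⊆ O k)
    (n : ℕ) (hn : 1 ≤ n) (X : Finset V) (hIX : ∀ k < n, I k ⊆ X)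
    (hOX : ∀ k < n, Disjoint (O k) X)
    {c s Λ : ℝ} (hΛ : 1 ≤ Λ) (K u : ℝ) (hK : 0 ≤ K) (hu : 0 < u)
    (hu1 : 6 * Real.exp (-(u / (4 + 2 * Real.sqrt K))) ≤ 1 / (400 * ((n : ℝ) + 1) ^ 2))
    (hu2 : 6 * Real.exp (-(u / (4 + 2 * Real.sqrt ((10 + 6 * Real.sqrt K) ^ 2)))) ≤
      1 / (400 * ((n : ℝ) + 1) ^ 2))
    (tX : TailLe (rdm X Ω) K) (tW : ∀ k < n, TailLe (rdm (I k ∪ O k)ᶜ Ω) K)
    (tI : ∀ k < n, TailLe (rdm (I k)ᶜ Ω) K) (tO : ∀ k < n, TailLe (rdm (O k)ᶜ Ω) K)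
    {lD g : ℝ}
    (hKex : ∀ m : ℝ, 0 ≤ m → ∃ (K : Op (V ⊕ V) q) (D g' : ℝ), 1 ≤ D ∧ 0 ≤ g' ∧
        Real.log D ≤ lD ∧ g' ≤ g ∧
        Rep (α := fun k => Conf {x // x ∈ ((I k).disjSum (O k))ᶜ} q)
          (β := fun k => Conf {x // ¬ x ∈ ((I k).disjSum (O k))ᶜ} q)
          (fun k => cut ((I k).disjSum (O k))ᶜ q) (fun _ => Λ / (n : ℝ)) n m K D g' ∧
        K *ᵥ dbl Ω Ω = dbl Ω Ω ∧ Kᴴ *ᵥ dbl Ω Ω = dbl Ω Ω ∧
        ∀ ψ, star (dbl Ω Ω) ⬝ᵥ ψ = 0 → nsq (K *ᵥ ψ) ≤ Real.exp (-(c * s)) ^ 2 * nsq ψ)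
    {b M : ℝ} (hb : 2 * (entropyOf X Ω + u) + 2 ≤ b)
    (hM : ∀ k < n, entropyOf (I k ∪ O k) Ω ≤ M)
    (j : ℕ) (hj : b + 3 ≤ j * (c * s)) :
    (∑ k ∈ range n, (entropyOf (I k) Ω + entropyOf (O k) Ω)) / n -
      (∑ k ∈ range n, entropyOf (I k ∪ O k) Ω) / n ≤
      2 * u + 6 + j * g / (2 * Λ) + (b + 3 + j * lD) / Λ + j * lD + n + 2 * Real.log n +
        Real.log (n * ((M + u) + 2 + j * g / (2 * Λ) + (b + 3 + j * lD) / Λ)) := by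
  obtain ⟨v, hv, hov, hvr⟩ := init_vec2 Ω hΩ n I O X hI hO hIX hOX K u hu hK tX tW hu1
  have hn1 : (1 : ℝ) ≤ n := by exact_mod_cast hn
  have hn0 : (0 : ℝ) < n := by linarith only [hn1]
  have hΩ2 : nsq (dbl Ω Ω) = 1 := by rw [nsq_dbl, hΩ, mul_one]
  obtain ⟨m, hm⟩ : ∃ m : ℝ, m = Real.log q * (Fintype.card (V ⊕ V) : ℝ) + u := ⟨_, rfl⟩
  have hr : ∀ k < n, 0 ≤ entropyOf (I k ∪ O k)ᶜ Ω + u ∧ entropyOf (I k ∪ O k)ᶜ Ω + u ≤ m :=
    fun k _ => by rw [hm]; exact sa7_entm hq _ hΩ u hu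
  have hm0 : 0 ≤ m := (hr 0 hn).1.trans (hr 0 hn).2
  obtain ⟨K', D, g', hD, hg', hlD, hgg, hrep, hKΩ, hKΩ', hKs⟩ := hKex m hm0
  have hcard : ∀ k < n, Real.log (Fintype.card (Conf {x // x ∈ ((I k).disjSum (O k))ᶜ} q)) ≤ m :=
    fun k _ => by rw [hm]; exact sa7_cardc hq _ u hu
  have hb0 : 0 ≤ b := by
    have := entropy_nonneg X Ω hΩ
    linarith only [this, hu, hb]
  obtain ⟨Q, hQ⟩ : ∃ Q : ℝ, Q = (∑ k ∈ range n, (entropyOf (I k ∪ O k)ᶜ Ω + u)) / n + 2 +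
    j * g' / (2 * Λ) + (b + 3 + j * Real.log D) / Λ := ⟨_, rfl⟩
  have hmain := average_main
    (α := fun k => Conf {x // x ∈ ((I k).disjSum (O k))ᶜ} q)
    (β := fun k => Conf {x // ¬ x ∈ ((I k).disjSum (O k))ᶜ} q)
    (fun k => cut ((I k).disjSum (O k))ᶜ q) n hn
    (fun i k hik Y => na_k_nest _ _ (Finset.compl_subset_compl.mpr
      (Finset.disjSum_mono (hI i k hik) (hO i k hik))) Y)
    hcard hΩ2 hv hb0 ((Real.exp_le_exp.mpr (neg_le_neg hb)).trans hov) (fun k => entropyOf (I k ∪ O k)ᶜ Ω + u) hr hvr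
    hΛ hD hg' hrep hKΩ hKΩ' (Real.exp_pos _).le hKs j (sa7_steps j hj)
    (fun k => entropyOf (I k) Ω + entropyOf (O k) Ω) (H := u + 3 + 2 * Real.log n)
    (by
      have := Real.log_nonneg hn1
      linarith only [this, hu])
    (fun k hk F hF hw => sa7_large (I k) (O k) hΩ hK hu hn hu2 (tI k hk) (tO k hk) F hF hw) hQ
  have hΛ0 : 0 < Λ := by linarith only [hΛ]
  have hj0 : (0 : ℝ) ≤ j := Nat.cast_nonneg j
  have hlogD : 0 ≤ Real.log D := Real.log_nonneg hD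
  have hsum : ∑ k ∈ range n, (entropyOf (I k ∪ O k)ᶜ Ω + u) =
      ∑ k ∈ range n, (entropyOf (I k ∪ O k) Ω + u) :=
    Finset.sum_congr rfl fun k _ => by rw [entropy_compl _ Ω hΩ]
  rw [hsum, sa7_avr hn0] at hQ
  have hQ0 : 0 < Q := by
    rw [hQ]
    exact sa7_Q0 (sa7_av0 hn0 _ fun k => entropy_nonneg _ Ω hΩ) hu hj0 hg' hΛ0 hb0 hlogD
  exact sa7_arith hmain hQ rfl (sa7_avM hn0 _ M hM) hn0 hj0 hlD hgg hΛ0 hQ0

end cutineq

section dec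

theorem sa7_near (c δ : ℝ) (hc : 0 ≤ c) (hδ : 0 < δ) : ∃ C' : ℝ, 0 ≤ C' ∧ ∀ x : ℕ,
    (x : ℝ) * (1 + Real.log x) ^ c ≤ C' * (x : ℝ) ^ (1 + δ) := by
  have hc1 : 0 < c + 1 := by linarith only [hc]
  obtain ⟨ε, hε⟩ : ∃ ε : ℝ, ε = δ / (c + 1) := ⟨_, rfl⟩
  have hε0 : 0 < ε := by rw [hε]; positivity
  have hεc : ε * c ≤ δ := by
    rw [hε, div_mul_eq_mul_div, div_le_iff₀ hc1]
    nlinarith only [hδ, hc]
  refine ⟨(1 + 1 / ε) ^ c, by positivity, ?_⟩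
  intro n
  rcases Nat.eq_zero_or_pos n with hn | hn
  · rw [hn, Nat.cast_zero, zero_mul]
    positivity
  · have hn1 : (1 : ℝ) ≤ n := by exact_mod_cast hn
    have hn0 : (0 : ℝ) < n := by linarith only [hn1]
    have h1 : 1 + Real.log n ≤ (1 + 1 / ε) * (n : ℝ) ^ ε := by
      have h2 : Real.log n ≤ (n : ℝ) ^ ε / ε := Real.log_le_rpow_div hn0.le hε0
      have h3 := sa7_one_le hn1 hε0.le
      have h4 : (1 + 1 / ε) * (n : ℝ) ^ ε = (n : ℝ) ^ ε + (n : ℝ) ^ ε / ε := by ring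
      rw [h4]
      linarith only [h2, h3]
    have h0 : 0 ≤ 1 + Real.log n := by
      have := Real.log_nonneg hn1
      linarith only [this]
    have h2 : (1 + Real.log n) ^ c ≤ (1 + 1 / ε) ^ c * (n : ℝ) ^ δ := by
      refine (Real.rpow_le_rpow h0 h1 hc).trans ?_
      rw [Real.mul_rpow (by positivity) (by positivity), ← Real.rpow_mul hn0.le]
      exact mul_le_mul_of_nonneg_left (sa7_pow_le hn1 hεc) (by positivity)
    calc (n : ℝ) * (1 + Real.log n) ^ c ≤ (n : ℝ) * ((1 + 1 / ε) ^ c * (n : ℝ) ^ δ) :=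
          mul_le_mul_of_nonneg_left h2 hn0.le
      _ = (1 + 1 / ε) ^ c * ((n : ℝ) ^ (1 : ℝ) * (n : ℝ) ^ δ) := by
        rw [Real.rpow_one]
        ring
      _ = _ := by rw [← Real.rpow_add hn0]

/-- the window -/
theorem sa7_window {K u : ℝ} {n : ℕ}
    (hu : u = (24 + 12 * Real.sqrt K) * Real.log (2400 * ((n : ℝ) + 1) ^ 2)) :
    0 < u ∧ 6 * Real.exp (-(u / (4 + 2 * Real.sqrt K))) ≤ 1 / (400 * ((n : ℝ) + 1) ^ 2) ∧
      6 * Real.exp (-(u / (4 + 2 * Real.sqrt ((10 + 6 * Real.sqrt K) ^ 2)))) ≤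
        1 / (400 * ((n : ℝ) + 1) ^ 2) := by
  have hn0 : (0 : ℝ) ≤ n := Nat.cast_nonneg n
  have hsq : (1 : ℝ) ≤ ((n : ℝ) + 1) ^ 2 := one_le_pow₀ (by linarith only [hn0])
  have hlog : 0 < Real.log (2400 * ((n : ℝ) + 1) ^ 2) := Real.log_pos (by linarith only [hsq])
  have hs0 := Real.sqrt_nonneg K
  have hu0 : 0 < u := by
    rw [hu]
    positivity
  have hden : 0 < 24 + 12 * Real.sqrt K := by positivity
  have h1 : 6 * Real.exp (-(u / (24 + 12 * Real.sqrt K))) = 1 / (400 * ((n : ℝ) + 1) ^ 2) := by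
    have h2 : u / (24 + 12 * Real.sqrt K) = Real.log (2400 * ((n : ℝ) + 1) ^ 2) := by
      rw [hu]
      field_simp
    rw [h2, Real.exp_neg, Real.exp_log (by positivity)]
    field_simp
    norm_num
  refine ⟨hu0, ?_, ?_⟩
  · rw [← h1]
    refine mul_le_mul_of_nonneg_left (Real.exp_le_exp.mpr ?_) (by norm_num)
    refine neg_le_neg (div_le_div_of_nonneg_left hu0.le (by positivity) ?_)
    linarith only [hs0]
  · rw [← h1, Real.sqrt_sq (by positivity)]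
    have h3 : 4 + 2 * (10 + 6 * Real.sqrt K) = 24 + 12 * Real.sqrt K := by ring
    rw [h3]

/-- from the averages to the mutual information -/
theorem sa7_mi_avg {V : Type} [Fintype V] [DecidableEq V] {S : Finset V → ℝ} (hS : EntLike S)
    {n : ℕ} (hn : 1 ≤ n) {I O : ℕ → Finset V} {X Y : Finset V}
    (hd : ∀ k < n, Disjoint (I k) (O k)) (hX : ∀ k < n, X ⊆ I k) (hY : ∀ k < n, Y ⊆ O k) :
    mi S X Y ≤ (∑ k ∈ range n, (S (I k) + S (O k))) / n - (∑ k ∈ range n, S (I k ∪ O k)) / n := by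
  have hn0 : (0 : ℝ) < n := by exact_mod_cast hn
  rw [← sub_div, ← Finset.sum_sub_distrib, le_div_iff₀ hn0]
  have h1 : ∑ k ∈ range n, mi S X Y ≤ ∑ k ∈ range n, (S (I k) + S (O k) - S (I k ∪ O k)) := by
    refine Finset.sum_le_sum fun k hk => ?_
    have hk' := Finset.mem_range.mp hk
    exact mi_mono2 hS (hd k hk') (hX k hk') (hY k hk')
  rw [Finset.sum_const, Finset.card_range, nsmul_eq_mul] at h1
  linarith only [h1]

/-- The decoupling for one box, with given parameters. -/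
theorem sa7_one {L q R : ℕ} (hq : 1 ≤ q) {J Δ : ℝ} (hJ : 0 < J) (hΔ : 0 < Δ)
    {h : Finset (Site L) → Op (Site L) q} {Ω : Conf (Site L) q → ℂ}
    (hF : FFLG L q R J Δ h Ω) {Cn : ℝ} (hCn : 0 ≤ Cn)
    (hnear : ∀ B : Finset (Site L), entropyOf B Ω ≤ Cn * (bdry B : ℝ) ^ (106 / 105 : ℝ))
    (l n : ℕ) (hn : 1 ≤ n) {P Λ c₀ s lD g : ℝ} (hP0 : 0 < P) (hΛ : 1 ≤ Λ)
    (I O : ℕ → Finset (Site L)) (Z X Y : Finset (Site L))
    (hI : ∀ k x y, x ∈ I k → dist1 x y ≤ R → y ∈ I (k + 1))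
    (hO : ∀ k x y, x ∈ O k → dist1 x y ≤ R → y ∈ O (k + 1))
    (hIZ : ∀ k < n, I k ⊆ Z) (hOZ : ∀ k < n, Disjoint (O k) Z)
    (hd : ∀ k < n, Disjoint (I k) (O k)) (hXI : ∀ k < n, X ⊆ I k) (hYO : ∀ k < n, Y ⊆ O k)
    (hbZ : (bdry Z : ℝ) ≤ P) (hbI : ∀ k < n, (bdry (I k) : ℝ) ≤ P)
    (hbO : ∀ k < n, (bdry (O k) : ℝ) ≤ P)
    (hKex : ∀ m : ℝ, 0 ≤ m → ∃ (K : Op (Site L ⊕ Site L) q) (D g' : ℝ), 1 ≤ D ∧ 0 ≤ g' ∧
        Real.log D ≤ lD ∧ g' ≤ g ∧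
        Rep (α := fun k => Conf {x // x ∈ ((I k).disjSum (O k))ᶜ} q)
          (β := fun k => Conf {x // ¬ x ∈ ((I k).disjSum (O k))ᶜ} q)
          (fun k => cut ((I k).disjSum (O k))ᶜ q) (fun _ => Λ / (n : ℝ)) n m K D g' ∧
        K *ᵥ dbl Ω Ω = dbl Ω Ω ∧ Kᴴ *ᵥ dbl Ω Ω = dbl Ω Ω ∧
        ∀ ψ, star (dbl Ω Ω) ⬝ᵥ ψ = 0 → nsq (K *ᵥ ψ) ≤ Real.exp (-(c₀ * s)) ^ 2 * nsq ψ)
    {u M b : ℝ} (hu : u = (24 + 12 * Real.sqrt (spread_const q R * (J / Δ) * (2 * P))) *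
      Real.log (2400 * ((n : ℝ) + 1) ^ 2))
    (hM : M = Cn * (2 * P) ^ (106 / 105 : ℝ)) (hb : b = 2 * (M + u) + 2)
    (j : ℕ) (hj : b + 3 ≤ j * (c₀ * s)) :
    mi (fun A => entropyOf A Ω) X Y ≤
      2 * u + 6 + j * g / (2 * Λ) + (b + 3 + j * lD) / Λ + j * lD + n + 2 * Real.log n +
        Real.log (n * ((M + u) + 2 + j * g / (2 * Λ) + (b + 3 + j * lD) / Λ)) := by
  have hΩ : nsq Ω = 1 := hF.unit
  have hadm := na_k_adm hF
  have hgap := na_k_gapped hΔ hF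
  have hsc : 0 ≤ spread_const q R * (J / Δ) := by
    rw [spread_const]
    positivity
  have htail : ∀ A : Finset (Site L), (bdry A : ℝ) ≤ 2 * P →
      TailLe (rdm A Ω) (spread_const q R * (J / Δ) * (2 * P)) := by
    intro A hAb
    refine na_k_tail_mono ?_ (spread_law hJ hΔ hq hadm hgap A).2.1
    exact mul_le_mul_of_nonneg_left hAb hsc
  have hS2 : ∀ A : Finset (Site L), (bdry A : ℝ) ≤ 2 * P → entropyOf A Ω ≤ M := by
    intro A hA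
    refine (hnear A).trans ?_
    rw [hM]
    exact mul_le_mul_of_nonneg_left (Real.rpow_le_rpow (Nat.cast_nonneg _) hA (by norm_num)) hCn
  have hmono : ∀ (I : ℕ → Finset (Site L)),
      (∀ k x y, x ∈ I k → dist1 x y ≤ R → y ∈ I (k + 1)) → ∀ j k, j ≤ k → I j ⊆ I k := by
    intro I hI j k hjk
    exact monotone_nat_of_le_succ (fun k x hx => hI k x x hx (by rw [sa7_refl]; exact Nat.zero_le _))
      hjk
  have hIO : ∀ k < n, (bdry (I k ∪ O k) : ℝ) ≤ 2 * P := by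
    intro k hk
    have h1 := sa7_bdry_union (I k) (O k)
    have h2 : (bdry (I k ∪ O k) : ℝ) ≤ (bdry (I k) : ℝ) + (bdry (O k) : ℝ) := by
      exact_mod_cast h1
    have h3 := hbI k hk
    have h4 := hbO k hk
    linarith only [h2, h3, h4]
  have hcompl : ∀ A : Finset (Site L), ∀ B : ℝ, (bdry A : ℝ) ≤ B → (bdry Aᶜ : ℝ) ≤ B := by
    intro A B hA
    refine le_trans ?_ hA
    exact_mod_cast na_k_bdry_compl A
  obtain ⟨hu0, hu1, hu2⟩ := sa7_window hu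
  refine (sa7_mi_avg (entLike Ω hΩ) hn hd hXI hYO).trans ?_
  have hSZ := hS2 Z (by linarith only [hbZ, hP0])
  exact sa7_cut hq hΩ I O (hmono I hI) (hmono O hO) n hn Z hIZ hOZ hΛ
    (spread_const q R * (J / Δ) * (2 * P)) u (by positivity) hu0 hu1 hu2
    (htail Z (by linarith only [hbZ, hP0])) (fun k hk => htail _ (hcompl _ _ (hIO k hk)))
    (fun k hk => htail _ (hcompl _ _ (by
      have := hbI k hk
      linarith only [this, hP0])))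
    (fun k hk => htail _ (hcompl _ _ (by
      have := hbO k hk
      linarith only [this, hP0]))) hKex (by
      rw [hb]
      linarith only [hSZ]) (fun k hk => hS2 _ (hIO k hk)) j hj

end dec

section decouple

theorem sa7_P {x n : ℝ} (hx : 1 ≤ x) (hn : x ^ (19 / 20 : ℝ) ≤ n) :
    0 < 36 * x ^ 2 / n ∧ 36 * x ^ 2 / n ≤ 36 * x ^ (21 / 20 : ℝ) ∧
      36 * x ^ 2 ≤ (36 * x ^ 2 / n) * n := by
  have hx0 : 0 < x := by linarith only [hx]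
  have hn0 : 0 < n := lt_of_lt_of_le (Real.rpow_pos_of_pos hx0 _) hn
  refine ⟨by positivity, ?_, ?_⟩
  · rw [div_le_iff₀ hn0, mul_assoc]
    refine mul_le_mul_of_nonneg_left ?_ (by norm_num)
    have h1 : x ^ 2 = x ^ (21 / 20 : ℝ) * x ^ (19 / 20 : ℝ) := by
      rw [← Real.rpow_add hx0, ← Real.rpow_natCast x 2]
      norm_num
    rw [h1]
    exact mul_le_mul_of_nonneg_left hn (by positivity)
  · rw [div_mul_cancel₀ _ hn0.ne']

theorem sa7_dec (q R : ℕ) (hq : 1 ≤ q) (J Δ : ℝ) (hJ : 0 < J) (hΔ : 0 < Δ) {Cn : ℝ}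
    (hCn : 0 ≤ Cn)
    (hnear : ∀ (L : ℕ) (h : Finset (Site L) → Op (Site L) q)
      (Ω : Conf (Site L) q → ℂ), FFLG L q R J Δ h Ω → ∀ B : Finset (Site L),
      entropyOf B Ω ≤ Cn * (bdry B : ℝ) ^ (106 / 105 : ℝ)) :
    ∃ (l₁ : ℕ) (C : ℝ), 0 < C ∧ ∀ (L : ℕ) (h : Finset (Site L) → Op (Site L) q)
      (Ω : Conf (Site L) q → ℂ), FFLG L q R J Δ h Ω → ∀ l x0 x1 y0 y1 : ℕ, l₁ ≤ l →
      x1 ≤ x0 + l → y1 ≤ y0 + l → ∀ X Y : Finset (Site L), X ⊆ rect L x0 x1 y0 y1 →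
      (∀ x ∈ X, ∀ y ∈ Y, 25 * ((R : ℝ) + 1) * (l : ℝ) ^ (24 / 25 : ℝ) ≤ dist1 x y) →
      mi (fun A => entropyOf A Ω) X Y ≤ C * (l : ℝ) ^ (24 / 25 : ℝ) := by
  obtain ⟨c₀, C₁, l₀, hc₀, hC₁, hK⟩ := exists_K2 q R hq J Δ hJ hΔ
  have hsc : 0 ≤ spread_const q R * (J / Δ) := by
    rw [spread_const]
    positivity
  obtain ⟨Cu, hCu⟩ : ∃ Cu : ℝ, Cu = (24 + 12 * Real.sqrt (72 * (spread_const q R * (J / Δ)))) *
    (Real.log 21600 + 20) := ⟨_, rfl⟩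
  obtain ⟨CM, hCM⟩ : ∃ CM : ℝ, CM = Cn * 72 ^ (106 / 105 : ℝ) := ⟨_, rfl⟩
  obtain ⟨Cb, hCb⟩ : ∃ Cb : ℝ, Cb = 2 * (CM + Cu) + 2 := ⟨_, rfl⟩
  obtain ⟨Cj, hCj⟩ : ∃ Cj : ℝ, Cj = (Cb + 3) / c₀ + 4 := ⟨_, rfl⟩
  obtain ⟨Cl, hCl⟩ : ∃ Cl : ℝ, Cl = 51 + Real.log 4 := ⟨_, rfl⟩
  have hlg : 0 ≤ Real.log 21600 := Real.log_nonneg (by norm_num)
  have hlg4 : 0 ≤ Real.log 4 := Real.log_nonneg (by norm_num)
  have hCu0 : 0 ≤ Cu := by rw [hCu]; positivity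
  have hCM0 : 0 ≤ CM := by rw [hCM]; positivity
  have hCb0 : 0 ≤ Cb := by rw [hCb]; positivity
  have hCj0 : 0 ≤ Cj := by rw [hCj]; positivity
  have hCl0 : 0 ≤ Cl := by rw [hCl]; positivity
  obtain ⟨Ct, hCt⟩ : ∃ Ct : ℝ, Ct = (2 * Cu + 6 + 64 * C₁ * Cj * Cl + (Cb + 3 + c₀ * Cj) +
    c₀ * Cj + 2 + 4 +
        (Real.log (2 * (CM + Cu + 2 + 64 * C₁ * Cj * Cl + (Cb + 3 + c₀ * Cj))) + 4)) := ⟨_, rfl⟩
  have hCt0 : 0 < Ct := by
    have h1 : 0 ≤ Real.log (2 * (CM + Cu + 2 + 64 * C₁ * Cj * Cl + (Cb + 3 + c₀ * Cj))) := by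
      refine Real.log_nonneg ?_
      have h2 : 0 ≤ 64 * C₁ * Cj * Cl := by positivity
      have h3 : 0 ≤ c₀ * Cj := by positivity
      linarith only [h2, h3, hCM0, hCu0, hCb0]
    rw [hCt]
    positivity
  refine ⟨max l₀ ((25 * (R + 1)) ^ 20), Ct, hCt0, ?_⟩
  intro L h Ω hF l x0 x1 y0 y1 hl hx hy X Y hX hXY
  obtain ⟨hth1, hth2⟩ := sa7_thr (le_trans (le_max_right _ _) hl)
  have hl0 : l₀ ≤ 3 * l := (le_trans (le_max_left _ _) hl).trans (by omega)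
  have hx1 : (1 : ℝ) ≤ l := by linarith only [hth2]
  have hx0 : (0 : ℝ) < l := by linarith only [hx1]
  have hl1 : 1 ≤ l := by exact_mod_cast hx1
  obtain ⟨n, hn1, hn2, hn3⟩ := sa7_ceil (sa7_one_le hx1 (by norm_num : (0 : ℝ) ≤ 19 / 20))
  obtain ⟨K₀, hK1, hK2, hK3⟩ := sa7_ceil (sa7_one_le hx1 (by norm_num : (0 : ℝ) ≤ 1 / 10))
  obtain ⟨s, hs1, hs2, hs3, hs4, hs5⟩ := sa7_sq hl1
  obtain ⟨Λ, hΛ⟩ : ∃ Λ : ℝ, Λ = (l : ℝ) ^ (1 / 10 : ℝ) := ⟨_, rfl⟩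
  have hΛ1 : 1 ≤ Λ := by
    rw [hΛ]
    exact sa7_one_le hx1 (by norm_num)
  have hΛn : 4 * Λ ≤ n := by
    rw [hΛ]
    exact (sa7_four_le hth2).trans hn2
  obtain ⟨P, hP⟩ : ∃ P : ℝ, P = 36 * (l : ℝ) ^ 2 / n := ⟨_, rfl⟩
  obtain ⟨hP0, hP1, hP2⟩ := sa7_P hx1 hn2
  rw [← hP] at hP0 hP1 hP2
  have hn19 : (n : ℝ) ≤ 2 * (l : ℝ) := by
    have h1 := sa7_pow_le hx1 (by norm_num : (19 / 20 : ℝ) ≤ 1)
    rw [Real.rpow_one] at h1
    linarith only [hn3, h1]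
  have hnl : 12 * n * (R + 1) + (R + 1) ≤ l := by
    have h1 : ((12 * n * (R + 1) + (R + 1) : ℕ) : ℝ) ≤ l := by
      refine le_trans ?_ hth1
      push_cast
      have h2 := sa7_one_le hx1 (by norm_num : (0 : ℝ) ≤ 19 / 20)
      have h3 : (12 * (n : ℝ) + 1) ≤ 25 * (l : ℝ) ^ (19 / 20 : ℝ) := by linarith only [hn3, h2]
      have h4 : (0 : ℝ) ≤ (R : ℝ) + 1 := by positivity
      have h5 := mul_le_mul_of_nonneg_right h3 h4
      linarith only [h5]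
    exact_mod_cast h1
  have hXY' : ∀ x ∈ X, ∀ y ∈ Y, 12 * n * (R + 1) < dist1 x y := by
    intro x hx y hy
    have h1 := hXY x hx y hy
    have h2 : ((12 * n * (R + 1) : ℕ) : ℝ) < (dist1 x y : ℝ) := by
      refine lt_of_lt_of_le ?_ h1
      push_cast
      have h2 := sa7_one_le hx1 (by norm_num : (0 : ℝ) ≤ 24 / 25)
      have h19 : (l : ℝ) ^ (19 / 20 : ℝ) ≤ (l : ℝ) ^ (24 / 25 : ℝ) := sa7_pow_le hx1 (by norm_num)
      have h3 : (12 * (n : ℝ)) < 25 * (l : ℝ) ^ (24 / 25 : ℝ) := by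
        linarith only [hn3, h2, h19]
      have h4 : (0 : ℝ) < (R : ℝ) + 1 := by positivity
      have h5 := mul_lt_mul_of_pos_right h3 h4
      linarith only [h5]
    exact_mod_cast h2
  obtain ⟨I, O, Z, hI, hO, hIr, hOr, hIZ, hOZ, hd, hXI, hYO, hbZ, hbI, hbO⟩ :=
    sa7_cuts R n l x0 x1 y0 y1 hn1 hnl hx hy hP2 hP0 X Y hX hXY'
  obtain ⟨u, hu⟩ : ∃ u : ℝ, u = (24 + 12 * Real.sqrt (spread_const q R * (J / Δ) * (2 * P))) *
      Real.log (2400 * ((n : ℝ) + 1) ^ 2) := ⟨_, rfl⟩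
  obtain ⟨M, hM⟩ : ∃ M : ℝ, M = Cn * (2 * P) ^ (106 / 105 : ℝ) := ⟨_, rfl⟩
  obtain ⟨b, hb⟩ : ∃ b : ℝ, b = 2 * (M + u) + 2 := ⟨_, rfl⟩
  obtain ⟨lD, hlD⟩ : ∃ lD : ℝ, lD = c₀ * s / K₀ := ⟨_, rfl⟩
  obtain ⟨g, hg⟩ : ∃ g : ℝ, g = C₁ * K₀ * (1 + Real.log s) * (s : ℝ) ^ 4 * (Λ / n) ^ 2 :=
    ⟨_, rfl⟩
  have hu0 : 0 < u := (sa7_window hu).1
  have hM0 : 0 ≤ M := by rw [hM]; positivity
  have hb0 : 0 ≤ b := by rw [hb]; positivity
  have hs1r : (1 : ℝ) ≤ s := by exact_mod_cast hs1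
  have hs0 : (0 : ℝ) < s := by linarith only [hs1r]
  obtain ⟨j, hj1, hj2⟩ := sa7_p_j hb0 hc₀ hs0
  have hKex := fun m hm => hK L h Ω hF (3 * l) n s K₀ Λ hl0 hs2 hs3 hK1 hn1 hΛ1 hΛn
    (x0 - l) (x1 + l) (y0 - l) (y1 + l) (by omega) (by omega) I O hI hO hIr hOr m hm
  rw [← hlD, ← hg] at hKex
  refine (sa7_one hq hJ hΔ hF hCn (hnear L h Ω hF) l n hn1 hP0 hΛ1 I O Z X Y hI hO hIZ hOZ hd hXI
    hYO hbZ hbI hbO hKex hu hM hb j hj1).trans ?_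
  rw [hCt]
  refine sa7_p_total (s := s) (K₀ := K₀) (ls := 1 + Real.log s) hx1 hCu0 hCM0 hC₁ hc₀ hCl0 hu0.le
    hM0 ?_ ?_ hb hCb hCj (Nat.cast_nonneg j) hj2 hs0 hs4 (Nat.cast_nonneg _) hK2 hK3 ?_ ?_ hΛ
    (by exact_mod_cast hn1) hn2 hn3 hg hlD
  · rw [hu, hCu]
    exact sa7_p_u hx1 hsc hn19 hP0.le hP1
  · rw [hM, hCM]
    exact sa7_p_M hx1 hCn hP0.le hP1
  · have := Real.log_nonneg hs1r
    linarith only [this]
  · rw [hCl]
    exact sa7_p_logs hx1 hs1r hs4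

theorem decouple (q R : ℕ) (hq : 1 ≤ q) (J Δ : ℝ) (hJ : 0 < J) (hΔ : 0 < Δ)
    (hnear : ∃ C c : ℝ, 0 ≤ C ∧ 0 ≤ c ∧ ∀ (L : ℕ) (h : Finset (Site L) → Op (Site L) q)
      (Ω : Conf (Site L) q → ℂ), FFLG L q R J Δ h Ω → ∀ B : Finset (Site L),
      entropyOf B Ω ≤ C * (bdry B : ℝ) * (1 + Real.log (bdry B)) ^ c) :
    ∃ a b C : ℝ, 0 < a ∧ a < 1 ∧ 1 ≤ b ∧ a * b < 1 ∧ 0 < C ∧
      ∀ (L : ℕ) (h : Finset (Site L) → Op (Site L) q) (Ω : Conf (Site L) q → ℂ),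
      FFLG L q R J Δ h Ω → Dec (fun A => entropyOf A Ω) a b C := by
  obtain ⟨Ca, c, hCa, hc, hnear⟩ := hnear
  obtain ⟨C1, hC1, hn1⟩ := sa7_near c (1 / 105) hc (by norm_num)
  obtain ⟨C2, hC2, hn2⟩ := sa7_near c (1 / 25) hc (by norm_num)
  have e1 : (1 : ℝ) + 1 / 105 = 106 / 105 := by norm_num
  have e2 : (1 : ℝ) + 1 / 25 = 26 / 25 := by norm_num
  rw [e1] at hn1
  rw [e2] at hn2
  obtain ⟨l₁, Cd, hCd, hdec⟩ := sa7_dec q R hq J Δ hJ hΔ (Cn := Ca * C1) (by positivity)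
    (by
      intro L h Ω hF B
      refine (hnear L h Ω hF B).trans ?_
      rw [mul_assoc, mul_assoc]
      exact mul_le_mul_of_nonneg_left (hn1 _) hCa)
  have hlogq : 0 ≤ Real.log q := Real.log_nonneg (by exact_mod_cast hq)
  obtain ⟨C, hC⟩ : ∃ C : ℝ, C = Real.log q + Ca * C2 * 4 ^ (26 / 25 : ℝ) + Cd +
    25 * ((R : ℝ) + 1) + 2 * Real.log q * (l₁ : ℝ) ^ 2 + 1 := ⟨_, rfl⟩
  have p1 : 0 ≤ Ca * C2 * 4 ^ (26 / 25 : ℝ) := by positivity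
  have p2 : 0 ≤ 2 * Real.log q * (l₁ : ℝ) ^ 2 := by positivity
  have p3 : 0 ≤ 25 * ((R : ℝ) + 1) := by positivity
  refine ⟨24 / 25, 26 / 25, C, by norm_num, by norm_num, by norm_num, by norm_num, ?_, ?_⟩
  · rw [hC]
    linarith only [p1, p2, p3, hlogq, hCd]
  intro L h Ω hF
  have hΩ : nsq Ω = 1 := hF.unit
  have hE := entLike Ω hΩ
  have hcard : ∀ B : Finset (Site L), entropyOf B Ω ≤ Real.log q * (B.card : ℝ) :=
    fun B => by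
      have := entropy_le_card hq B Ω hΩ
      linarith only [this]
  refine ⟨?_, ?_, ?_⟩
  · intro B
    refine (hcard B).trans (mul_le_mul_of_nonneg_right ?_ (Nat.cast_nonneg _))
    rw [hC]
    linarith only [p1, p2, p3, hCd]
  · intro l x0 x1 y0 y1 hl hx hy
    have hl1 : (1 : ℝ) ≤ l := by exact_mod_cast hl
    have h1 : (bdry (rect L x0 x1 y0 y1) : ℝ) ≤ 4 * l := by
      have h2 := na_k_bdry_rect L x0 x1 y0 y1
      have h3 : bdry (rect L x0 x1 y0 y1) ≤ 4 * l := by omega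
      exact_mod_cast h3
    refine (hnear L h Ω hF _).trans ?_
    rw [mul_assoc]
    have h4 := Real.rpow_le_rpow (Nat.cast_nonneg _) h1 (by norm_num : (0 : ℝ) ≤ 26 / 25)
    rw [Real.mul_rpow (by norm_num) (by positivity)] at h4
    have h5 : Ca * ((bdry (rect L x0 x1 y0 y1) : ℝ) *
        (1 + Real.log (bdry (rect L x0 x1 y0 y1))) ^ c) ≤
        Ca * (C2 * (4 ^ (26 / 25 : ℝ) * (l : ℝ) ^ (26 / 25 : ℝ))) :=
      mul_le_mul_of_nonneg_left ((hn2 _).trans (mul_le_mul_of_nonneg_left h4 hC2)) hCa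
    refine h5.trans ?_
    have h6 : Ca * C2 * 4 ^ (26 / 25 : ℝ) * (l : ℝ) ^ (26 / 25 : ℝ) ≤
        C * (l : ℝ) ^ (26 / 25 : ℝ) := by
      refine mul_le_mul_of_nonneg_right ?_ (by positivity)
      rw [hC]
      linarith only [p2, p3, hCd, hlogq]
    refine le_trans (le_of_eq ?_) h6
    ring
  · intro l x0 x1 y0 y1 hl hx hy X Y hX hXY
    have hl1 : (1 : ℝ) ≤ l := by exact_mod_cast hl
    have hl0 : (0 : ℝ) < l := by linarith only [hl1]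
    have hw := sa7_one_le hl1 (by norm_num : (0 : ℝ) ≤ 24 / 25)
    have hC0 : 0 < C := by
      rw [hC]
      linarith only [p1, p2, p3, hlogq, hCd]
    rcases Nat.lt_or_ge l l₁ with hll | hll
    · have hdis : Disjoint X Y := by
        rw [Finset.disjoint_left]
        intro x hx hx'
        have h1 := hXY x hx x hx'
        rw [sa7_refl, Nat.cast_zero] at h1
        have h2 : 0 < C * (l : ℝ) ^ (24 / 25 : ℝ) := by positivity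
        linarith only [h1, h2]
      have h1 := mi_le hE hdis
      have h2 := hcard X
      have h3 : (X.card : ℝ) ≤ (l₁ : ℝ) ^ 2 := by
        have h4 : X.card ≤ l ^ 2 := (Finset.card_le_card hX).trans (na_k_card_rect L _ _ _ _ l hx hy)
        have h5 : l ^ 2 ≤ l₁ ^ 2 := Nat.pow_le_pow_left hll.le 2
        exact_mod_cast h4.trans h5
      have h4 : Real.log q * (X.card : ℝ) ≤ Real.log q * (l₁ : ℝ) ^ 2 :=
        mul_le_mul_of_nonneg_left h3 hlogq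
      have h5 : 2 * Real.log q * (l₁ : ℝ) ^ 2 ≤ C := by
        rw [hC]
        linarith only [p1, p3, hlogq, hCd]
      have h6 : C * 1 ≤ C * (l : ℝ) ^ (24 / 25 : ℝ) := mul_le_mul_of_nonneg_left hw hC0.le
      linarith only [h1, h2, h4, h5, h6]
    · refine (hdec L h Ω hF l x0 x1 y0 y1 hll hx hy X Y hX ?_).trans ?_
      · intro x hx y hy
        refine le_trans ?_ (hXY x hx y hy)
        refine mul_le_mul_of_nonneg_right ?_ (by positivity)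
        rw [hC]
        linarith only [p1, p2, hlogq, hCd]
      · refine mul_le_mul_of_nonneg_right ?_ (by positivity)
        rw [hC]
        linarith only [p1, p2, p3, hlogq]

end decouple

end Vale.Agent.P356.SA
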