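import Vale.Agent.P356.SA.Refine679

/-!
Block 10b: the strict area law for all regions, from the local hypotheses.
-/

set_option linter.all false

namespace Vale.Agent.P356.SA

open Matrix Finset Vale.Agent.P356 Vale.Agent.P356.SV Vale.Agent.P356.Path Vale.Agent.P356.NA
open scoped BigOperators ComplexOrder Kronecker

section count
variable {L s : ℕ}

/-- overlapping boxes share the boundary -/
theorem ct_sum (B : Finset (Site L)) (T : Finset (ℕ × ℕ)) (P : ℕ × ℕ → Finset (Site L)) (m : ℕ)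
    (h : ∀ p : Site L, (T.filter (fun z => p ∈ P z)).card ≤ m) :
    ∑ z ∈ T, (b9_bin B (P z)).card ≤ m * bdry B := by
  classical
  have h1 : ∀ z, (b9_bin B (P z)).card ≤ ∑ e ∈ b9_bd B, if e.1 ∈ P z then 1 else 0 := by
    intro z
    rw [← Finset.card_filter]
    apply Finset.card_le_card
    intro e he
    unfold b9_bin at he
    rw [Finset.mem_filter] at he
    rw [Finset.mem_filter]
    refine ⟨?_, he.2.2.2.2.1⟩
    unfold b9_bd
    rw [Finset.mem_filter]
    exact ⟨Finset.mem_univ _, he.2.1, he.2.2.1, he.2.2.2.1⟩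
  calc ∑ z ∈ T, (b9_bin B (P z)).card
      ≤ ∑ z ∈ T, ∑ e ∈ b9_bd B, (if e.1 ∈ P z then 1 else 0) := Finset.sum_le_sum fun z _ => h1 z
    _ = ∑ e ∈ b9_bd B, ∑ z ∈ T, (if e.1 ∈ P z then 1 else 0) := Finset.sum_comm
    _ ≤ ∑ e ∈ b9_bd B, m := by
        refine Finset.sum_le_sum fun e _ => ?_
        rw [← Finset.card_filter]
        exact h e.1
    _ = m * bdry B := by
        rw [Finset.sum_const, b9_bd_card, smul_eq_mul, mul_comm]

theorem ct_pairH_mem (hs : 1 ≤ s) (hsL : s ≤ L) {z : ℕ × ℕ} (hz : z ∈ gT L s)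
    (hz1 : z.1 + 1 < L / s) (p : Site L) :
    p ∈ rect L (gE L s z.1) (gE L s (z.1 + 2)) (gE L s z.2) (gE L s (z.2 + 1)) ↔
      gIx L s p = z ∨ gIx L s p = (z.1 + 1, z.2) := by
  have hz' := gT_mem.mp hz
  have h2 : (z.1 + 1, z.2) ∈ gT L s := gT_mem.mpr ⟨hz1, hz'.2⟩
  rw [← gBox_mem hs hsL hz, ← gBox_mem hs hsL h2, b8_mem]
  unfold gBox
  rw [b8_mem, b8_mem]
  have h3 := gE_side (L := L) hs hz'.1
  have h4 : gE L s (z.1 + 1) + s ≤ gE L s (z.1 + 2) ∧ gE L s (z.1 + 2) ≤
    gE L s (z.1 + 1) + 2 * s := gE_side hs hz1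
  simp only
  have e : z.1 + 1 + 1 = z.1 + 2 := rfl
  rw [e]
  omega

theorem ct_pairV_mem (hs : 1 ≤ s) (hsL : s ≤ L) {z : ℕ × ℕ} (hz : z ∈ gT L s)
    (hz1 : z.2 + 1 < L / s) (p : Site L) :
    p ∈ rect L (gE L s z.1) (gE L s (z.1 + 1)) (gE L s z.2) (gE L s (z.2 + 2)) ↔
      gIx L s p = z ∨ gIx L s p = (z.1, z.2 + 1) := by
  have hz' := gT_mem.mp hz
  have h2 : (z.1, z.2 + 1) ∈ gT L s := gT_mem.mpr ⟨hz'.1, hz1⟩
  rw [← gBox_mem hs hsL hz, ← gBox_mem hs hsL h2, b8_mem]
  unfold gBox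
  rw [b8_mem, b8_mem]
  have h3 := gE_side (L := L) hs hz'.2
  have h4 : gE L s (z.2 + 1) + s ≤ gE L s (z.2 + 2) ∧ gE L s (z.2 + 2) ≤
    gE L s (z.2 + 1) + 2 * s := gE_side hs hz1
  simp only
  have e : z.2 + 1 + 1 = z.2 + 2 := rfl
  rw [e]
  omega

theorem ct_boxcard (hs : 1 ≤ s) {z : ℕ × ℕ} (hz : z ∈ gT L s) : s * s ≤ (gBox L s z).card := by
  rw [gT_mem] at hz
  unfold gBox
  rw [na_m_card (gE_le _) (gE_le _)]
  have h1 := gE_side (L := L) hs hz.1
  have h2 := gE_side (L := L) hs hz.2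
  exact Nat.mul_le_mul (by omega) (by omega)

/-- the number of horizontal colour changes of the majority colouring -/
theorem ct_H (B : Finset (Site L)) (k : ℕ) (hk : 2 ^ (k + 1) ≤ L) :
    ((gT L (2 ^ (k + 1))).filter (fun z => z.1 + 1 < L / 2 ^ (k + 1) ∧
      na_m_mj B (gBox L (2 ^ (k + 1)) z) ≠ na_m_mj B (gBox L (2 ^ (k + 1)) (z.1 + 1, z.2)))).card *
        2 ^ k ≤ 2 * bdry B := by
  set S := 2 ^ (k + 1) with hS
  have hS1 : 1 ≤ S := Nat.one_le_two_pow
  set P : ℕ × ℕ → Finset (Site L) := fun z =>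
    rect L (gE L S z.1) (gE L S (z.1 + 2)) (gE L S z.2) (gE L S (z.2 + 1)) with hP
  set T := (gT L S).filter (fun z => z.1 + 1 < L / S) with hT
  set M := (gT L S).filter (fun z => z.1 + 1 < L / S ∧
      na_m_mj B (gBox L S z) ≠ na_m_mj B (gBox L S (z.1 + 1, z.2))) with hM
  have h1 := ct_sum B T P 2 (by
    intro p
    have hsub : T.filter (fun z => p ∈ P z) ⊆ {gIx L S p, ((gIx L S p).1 - 1, (gIx L S p).2)} := by
      intro z hz
      rw [Finset.mem_filter, hT, Finset.mem_filter] at hz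
      have h2 := (ct_pairH_mem hS1 hk hz.1.1 hz.1.2 p).mp hz.2
      rw [Finset.mem_insert, Finset.mem_singleton]
      rcases h2 with h2 | h2
      · left; exact h2.symm
      · right
        rw [h2]
        refine Prod.ext ?_ rfl
        simp only
        omega
    exact (Finset.card_le_card hsub).trans Finset.card_le_two)
  refine le_trans ?_ h1
  have hMT : M ⊆ T := by
    intro z hz
    rw [hM, Finset.mem_filter] at hz
    rw [hT, Finset.mem_filter]
    exact ⟨hz.1, hz.2.1⟩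
  calc M.card * 2 ^ k = ∑ _z ∈ M, 2 ^ k := by rw [Finset.sum_const, smul_eq_mul]
    _ ≤ ∑ z ∈ M, (b9_bin B (P z)).card := by
        refine Finset.sum_le_sum fun z hz => ?_
        rw [hM, Finset.mem_filter] at hz
        obtain ⟨hz0, hz1, hz2⟩ := hz
        have hz' := gT_mem.mp hz0
        have hzR : (z.1 + 1, z.2) ∈ gT L S := gT_mem.mpr ⟨hz1, hz'.2⟩
        have h3 := gE_side (L := L) hS1 hz'.1
        have h4 : gE L S (z.1 + 1) + S ≤ gE L S (z.1 + 2) ∧ gE L S (z.1 + 2) ≤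
          gE L S (z.1 + 1) + 2 * S := gE_side hS1 hz1
        have h5 := gE_side (L := L) hS1 hz'.2
        have hsub1 : gBox L S z ⊆ P z := by
          intro p hp
          rw [gBox_mem hS1 hk hz0] at hp
          exact (ct_pairH_mem hS1 hk hz0 hz1 p).mpr (Or.inl hp)
        have hsub2 : gBox L S (z.1 + 1, z.2) ⊆ P z := by
          intro p hp
          rw [gBox_mem hS1 hk hzR] at hp
          exact (ct_pairH_mem hS1 hk hz0 hz1 p).mpr (Or.inr hp)
        have hc : ∀ y ∈ gT L S, 4 ^ k ≤ (gBox L S y).card := by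
          intro y hy
          refine le_trans ?_ (ct_boxcard hS1 hy)
          have e : (4 : ℕ) ^ k = 2 ^ k * 2 ^ k := by rw [← mul_pow]; norm_num
          rw [e, hS]
          exact Nat.mul_le_mul (Nat.pow_le_pow_right (by norm_num) (by omega))
            (Nat.pow_le_pow_right (by norm_num) (by omega))
        by_cases h6 : na_m_mj B (P z) = na_m_mj B (gBox L S z)
        · refine na_m_mismatch (gE_le _) (gE_le _) (by omega) (by omega) hsub2 (hc _ hzR) ?_
          intro h7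
          exact hz2 (h6.symm.trans h7)
        · exact na_m_mismatch (gE_le _) (gE_le _) (by omega) (by omega) hsub1 (hc _ hz0) h6
    _ ≤ ∑ z ∈ T, (b9_bin B (P z)).card :=
        Finset.sum_le_sum_of_subset_of_nonneg hMT fun _ _ _ => Nat.zero_le _

/-- the number of vertical colour changes of the majority colouring -/
theorem ct_V (B : Finset (Site L)) (k : ℕ) (hk : 2 ^ (k + 1) ≤ L) :
    ((gT L (2 ^ (k + 1))).filter (fun z => z.2 + 1 < L / 2 ^ (k + 1) ∧
      na_m_mj B (gBox L (2 ^ (k + 1)) z) ≠ na_m_mj B (gBox L (2 ^ (k + 1)) (z.1, z.2 + 1)))).card *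
        2 ^ k ≤ 2 * bdry B := by
  set S := 2 ^ (k + 1) with hS
  have hS1 : 1 ≤ S := Nat.one_le_two_pow
  set P : ℕ × ℕ → Finset (Site L) := fun z =>
    rect L (gE L S z.1) (gE L S (z.1 + 1)) (gE L S z.2) (gE L S (z.2 + 2)) with hP
  set T := (gT L S).filter (fun z => z.2 + 1 < L / S) with hT
  set M := (gT L S).filter (fun z => z.2 + 1 < L / S ∧
      na_m_mj B (gBox L S z) ≠ na_m_mj B (gBox L S (z.1, z.2 + 1))) with hM
  have h1 := ct_sum B T P 2 (by
    intro p
    have hsub : T.filter (fun z => p ∈ P z) ⊆ {gIx L S p, ((gIx L S p).1, (gIx L S p).2 - 1)} := by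
      intro z hz
      rw [Finset.mem_filter, hT, Finset.mem_filter] at hz
      have h2 := (ct_pairV_mem hS1 hk hz.1.1 hz.1.2 p).mp hz.2
      rw [Finset.mem_insert, Finset.mem_singleton]
      rcases h2 with h2 | h2
      · left; exact h2.symm
      · right
        rw [h2]
        refine Prod.ext rfl ?_
        simp only
        omega
    exact (Finset.card_le_card hsub).trans Finset.card_le_two)
  refine le_trans ?_ h1
  have hMT : M ⊆ T := by
    intro z hz
    rw [hM, Finset.mem_filter] at hz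
    rw [hT, Finset.mem_filter]
    exact ⟨hz.1, hz.2.1⟩
  calc M.card * 2 ^ k = ∑ _z ∈ M, 2 ^ k := by rw [Finset.sum_const, smul_eq_mul]
    _ ≤ ∑ z ∈ M, (b9_bin B (P z)).card := by
        refine Finset.sum_le_sum fun z hz => ?_
        rw [hM, Finset.mem_filter] at hz
        obtain ⟨hz0, hz1, hz2⟩ := hz
        have hz' := gT_mem.mp hz0
        have hzR : (z.1, z.2 + 1) ∈ gT L S := gT_mem.mpr ⟨hz'.1, hz1⟩
        have h3 := gE_side (L := L) hS1 hz'.2
        have h4 : gE L S (z.2 + 1) + S ≤ gE L S (z.2 + 2) ∧ gE L S (z.2 + 2) ≤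
          gE L S (z.2 + 1) + 2 * S := gE_side hS1 hz1
        have h5 := gE_side (L := L) hS1 hz'.1
        have hsub1 : gBox L S z ⊆ P z := by
          intro p hp
          rw [gBox_mem hS1 hk hz0] at hp
          exact (ct_pairV_mem hS1 hk hz0 hz1 p).mpr (Or.inl hp)
        have hsub2 : gBox L S (z.1, z.2 + 1) ⊆ P z := by
          intro p hp
          rw [gBox_mem hS1 hk hzR] at hp
          exact (ct_pairV_mem hS1 hk hz0 hz1 p).mpr (Or.inr hp)
        have hc : ∀ y ∈ gT L S, 4 ^ k ≤ (gBox L S y).card := by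
          intro y hy
          refine le_trans ?_ (ct_boxcard hS1 hy)
          have e : (4 : ℕ) ^ k = 2 ^ k * 2 ^ k := by rw [← mul_pow]; norm_num
          rw [e, hS]
          exact Nat.mul_le_mul (Nat.pow_le_pow_right (by norm_num) (by omega))
            (Nat.pow_le_pow_right (by norm_num) (by omega))
        by_cases h6 : na_m_mj B (P z) = na_m_mj B (gBox L S z)
        · refine na_m_mismatch (gE_le _) (gE_le _) (by omega) (by omega) hsub2 (hc _ hzR) ?_
          intro h7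
          exact hz2 (h6.symm.trans h7)
        · exact na_m_mismatch (gE_le _) (gE_le _) (by omega) (by omega) hsub1 (hc _ hz0) h6
    _ ≤ ∑ z ∈ T, (b9_bin B (P z)).card :=
        Finset.sum_le_sum_of_subset_of_nonneg hMT fun _ _ _ => Nat.zero_le _

theorem gPar_mem (hs : 1 ≤ s) (hsL : 2 * s ≤ L) (z : ℕ × ℕ) : gPar L s z ∈ gT L (2 * s) := by
  have hk : 1 ≤ L / (2 * s) := by
    rw [Nat.le_div_iff_mul_le (by omega)]
    omega
  rw [gT_mem]
  unfold gPar
  simp only
  omega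

theorem gBox_par (hs : 1 ≤ s) (hsL : 2 * s ≤ L) {z : ℕ × ℕ} (hz : z ∈ gT L s) :
    gBox L s z ⊆ gBox L (2 * s) (gPar L s z) := by
  intro p hp
  rw [gBox_mem hs (by omega) hz] at hp
  rw [gBox_mem (by omega) hsL (gPar_mem hs hsL z), gIx_par hs hsL, hp]

/-- the number of boxes whose majority differs from that of the parent -/
theorem ct_M (B : Finset (Site L)) (k : ℕ) (hk : 2 * 2 ^ k ≤ L) :
    ((gT L (2 ^ k)).filter (fun z => na_m_mj B (gBox L (2 ^ k) z) ≠
      na_m_mj B (gBox L (2 * 2 ^ k) (gPar L (2 ^ k) z)))).card * 2 ^ k ≤ 9 * bdry B := by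
  set s := 2 ^ k with hs
  have hs1 : 1 ≤ s := Nat.one_le_two_pow
  set M := (gT L s).filter (fun z => na_m_mj B (gBox L s z) ≠
      na_m_mj B (gBox L (2 * s) (gPar L s z))) with hM
  have h1 := ct_sum B (gT L s) (fun z => gBox L (2 * s) (gPar L s z)) 9 (by
    intro p
    set I := gIx L (2 * s) p with hI
    have hsub : (gT L s).filter (fun z => p ∈ gBox L (2 * s) (gPar L s z)) ⊆
        (Finset.Icc (2 * I.1) (2 * I.1 + 2)) ×ˢ (Finset.Icc (2 * I.2) (2 * I.2 + 2)) := by
      intro z hz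
      rw [Finset.mem_filter, gBox_mem (by omega) hk (gPar_mem hs1 hk z), ← hI] at hz
      have hz0 := gT_mem.mp hz.1
      have h2 := hz.2
      unfold gPar at h2
      rw [Prod.ext_iff] at h2
      simp only at h2
      have h3 := rf_k L s
      rw [Finset.mem_product, Finset.mem_Icc, Finset.mem_Icc]
      omega
    refine (Finset.card_le_card hsub).trans ?_
    rw [Finset.card_product, Nat.card_Icc, Nat.card_Icc]
    have e1 : 2 * I.1 + 2 + 1 - 2 * I.1 = 3 := by omega
    have e2 : 2 * I.2 + 2 + 1 - 2 * I.2 = 3 := by omega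
    rw [e1, e2])
  refine le_trans ?_ h1
  calc M.card * s = ∑ _z ∈ M, s := by rw [Finset.sum_const, smul_eq_mul]
    _ ≤ ∑ z ∈ M, (b9_bin B (gBox L (2 * s) (gPar L s z))).card := by
        refine Finset.sum_le_sum fun z hz => ?_
        rw [hM, Finset.mem_filter] at hz
        have hp := gT_mem.mp (gPar_mem hs1 hk z)
        have h3 := gE_side (L := L) (s := 2 * s) (by omega) hp.1
        have h4 := gE_side (L := L) (s := 2 * s) (by omega) hp.2
        have e2 : 2 ^ (k + 1) = 2 * s := by rw [pow_succ, hs]; ring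
        refine na_m_mismatch (gE_le _) (gE_le _) (by rw [e2]; exact h3.1) (by rw [e2]; exact h4.1)
          (gBox_par hs1 hk hz.1) ?_ (fun h => hz.2 h.symm)
        refine le_trans (le_of_eq ?_) (ct_boxcard hs1 hz.1)
        rw [hs, ← mul_pow]
        norm_num
    _ ≤ ∑ z ∈ gT L s, (b9_bin B (gBox L (2 * s) (gPar L s z))).card :=
        Finset.sum_le_sum_of_subset_of_nonneg (Finset.filter_subset _ _) fun _ _ _ => Nat.zero_le _

/-- the finest grid -/
theorem ct_one_ix (p : Site L) : gIx L 1 p = (p.1.val, p.2.val) := by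
  unfold gIx b9_ix
  rw [Nat.div_one, Nat.div_one, Nat.div_one]
  have h1 := p.1.isLt
  have h2 := p.2.isLt
  refine Prod.ext ?_ ?_
  · simp only; omega
  · simp only; omega

theorem ct_one_box (p : Site L) : gBox L 1 (gIx L 1 p) = {p} := by
  have hL : 1 ≤ L := by have := p.1.isLt; omega
  ext p'
  rw [gBox_mem le_rfl hL (gIx_mem le_rfl hL p), Finset.mem_singleton, ct_one_ix, ct_one_ix,
    Prod.ext_iff, Prod.ext_iff]
  simp only
  rw [Fin.ext_iff, Fin.ext_iff]

theorem ct_one_reg (B : Finset (Site L)) :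
    gReg L 1 (fun z => na_m_mj B (gBox L 1 z)) = B := by
  ext p
  unfold gReg
  rw [Finset.mem_filter]
  beta_reduce
  rw [ct_one_box]
  unfold na_m_mj
  rw [decide_eq_true_iff, Finset.card_singleton]
  by_cases h : p ∈ B
  · rw [Finset.inter_singleton_of_mem h, Finset.card_singleton]
    simp [h]
  · rw [Finset.inter_singleton_of_notMem h, Finset.card_empty]
    simp [h]

theorem ct_pos {B P : Finset (Site L)} {x0 x1 y0 y1 : ℕ} (hx : x1 ≤ L) (hy : y1 ≤ L)
    (hP : P = rect L x0 x1 y0 y1) (hx1 : x0 < x1) (hy1 : y0 < y1) (h1 : (B ∩ P).Nonempty)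
    (h2 : (P \ B).Nonempty) : 1 ≤ (b9_bin B P).card := by
  rw [hP] at h1 h2 ⊢
  by_contra hcon
  have h0 : (b9_bin B (rect L x0 x1 y0 y1)).card = 0 := by omega
  have p1 := Finset.card_pos.mpr h1
  have p2 := Finset.card_pos.mpr h2
  rcases na_m_iso (B := B) (x0 := x0) (y0 := y0) hx hy with h | h | h | h
  · rw [h0] at h; omega
  · rw [h0] at h; omega
  · rw [h0] at h; omega
  · rw [h0] at h; omega

theorem ct_H0 (B : Finset (Site L)) (hL : 1 ≤ L) :
    ((gT L 1).filter (fun z => z.1 + 1 < L / 1 ∧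
      na_m_mj B (gBox L 1 z) ≠ na_m_mj B (gBox L 1 (z.1 + 1, z.2)))).card ≤ 2 * bdry B := by
  set P : ℕ × ℕ → Finset (Site L) := fun z =>
    rect L (gE L 1 z.1) (gE L 1 (z.1 + 2)) (gE L 1 z.2) (gE L 1 (z.2 + 1)) with hP
  set T := (gT L 1).filter (fun z => z.1 + 1 < L / 1) with hT
  set M := (gT L 1).filter (fun z => z.1 + 1 < L / 1 ∧
      na_m_mj B (gBox L 1 z) ≠ na_m_mj B (gBox L 1 (z.1 + 1, z.2))) with hM
  have h1 := ct_sum B T P 2 (by
    intro p
    have hsub : T.filter (fun z => p ∈ P z) ⊆ {gIx L 1 p, ((gIx L 1 p).1 - 1, (gIx L 1 p).2)} := by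
      intro z hz
      rw [Finset.mem_filter, hT, Finset.mem_filter] at hz
      have h2 := (ct_pairH_mem le_rfl hL hz.1.1 hz.1.2 p).mp hz.2
      rw [Finset.mem_insert, Finset.mem_singleton]
      rcases h2 with h2 | h2
      · left; exact h2.symm
      · right
        rw [h2]
        refine Prod.ext ?_ rfl
        simp only
        omega
    exact (Finset.card_le_card hsub).trans Finset.card_le_two)
  refine le_trans ?_ h1
  have hMT : M ⊆ T := by
    intro z hz
    rw [hM, Finset.mem_filter] at hz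
    rw [hT, Finset.mem_filter]
    exact ⟨hz.1, hz.2.1⟩
  calc M.card = ∑ _z ∈ M, 1 := by rw [Finset.sum_const, smul_eq_mul, mul_one]
    _ ≤ ∑ z ∈ M, (b9_bin B (P z)).card := by
        refine Finset.sum_le_sum fun z hz => ?_
        rw [hM, Finset.mem_filter] at hz
        obtain ⟨hz0, hz1, hz2⟩ := hz
        have hz' := gT_mem.mp hz0
        have hzR : (z.1 + 1, z.2) ∈ gT L 1 := gT_mem.mpr ⟨hz1, hz'.2⟩
        have h3 := gE_side (L := L) le_rfl hz'.1
        have h4 : gE L 1 (z.1 + 1) + 1 ≤ gE L 1 (z.1 + 2) ∧ gE L 1 (z.1 + 2) ≤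
          gE L 1 (z.1 + 1) + 2 * 1 := gE_side le_rfl hz1
        have h5 := gE_side (L := L) le_rfl hz'.2
        obtain ⟨p, hp⟩ : ∃ p, gBox L 1 z = {p} := by
          rw [Nat.div_one] at hz'
          refine ⟨(⟨z.1, hz'.1⟩, ⟨z.2, hz'.2⟩), ?_⟩
          have := ct_one_box (L := L) (⟨z.1, hz'.1⟩, ⟨z.2, hz'.2⟩)
          rw [ct_one_ix] at this
          exact this
        obtain ⟨p', hp'⟩ : ∃ p', gBox L 1 (z.1 + 1, z.2) = {p'} := by
          rw [Nat.div_one] at hz' hz1
          refine ⟨(⟨z.1 + 1, hz1⟩, ⟨z.2, hz'.2⟩), ?_⟩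
          have := ct_one_box (L := L) (⟨z.1 + 1, hz1⟩, ⟨z.2, hz'.2⟩)
          rw [ct_one_ix] at this
          exact this
        have hpP : p ∈ P z := (ct_pairH_mem le_rfl hL hz0 hz1 p).mpr (Or.inl (by
          rw [← gBox_mem le_rfl hL hz0, hp]; exact Finset.mem_singleton_self p))
        have hpP' : p' ∈ P z := (ct_pairH_mem le_rfl hL hz0 hz1 p').mpr (Or.inr (by
          rw [← gBox_mem le_rfl hL hzR, hp']; exact Finset.mem_singleton_self p'))
        have hmj : ∀ x : Site L, na_m_mj B {x} = decide (x ∈ B) := by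
          intro x
          unfold na_m_mj
          rw [Finset.card_singleton]
          by_cases h : x ∈ B
          · rw [Finset.inter_singleton_of_mem h, Finset.card_singleton]; simp [h]
          · rw [Finset.inter_singleton_of_notMem h, Finset.card_empty]; simp [h]
        rw [hp, hp', hmj, hmj] at hz2
        have hne : (B ∩ P z).Nonempty ∧ (P z \ B).Nonempty := by
          by_cases h : p ∈ B
          · by_cases h' : p' ∈ B
            · simp [h, h'] at hz2
            · exact ⟨⟨p, Finset.mem_inter.mpr ⟨h, hpP⟩⟩, ⟨p', Finset.mem_sdiff.mpr ⟨hpP', h'⟩⟩⟩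
          · by_cases h' : p' ∈ B
            · exact ⟨⟨p', Finset.mem_inter.mpr ⟨h', hpP'⟩⟩, ⟨p, Finset.mem_sdiff.mpr ⟨hpP, h⟩⟩⟩
            · simp [h, h'] at hz2
        exact ct_pos (gE_le _) (gE_le _) rfl (by omega) (by omega) hne.1 hne.2
    _ ≤ ∑ z ∈ T, (b9_bin B (P z)).card :=
        Finset.sum_le_sum_of_subset_of_nonneg hMT fun _ _ _ => Nat.zero_le _

theorem ct_V0 (B : Finset (Site L)) (hL : 1 ≤ L) :
    ((gT L 1).filter (fun z => z.2 + 1 < L / 1 ∧
      na_m_mj B (gBox L 1 z) ≠ na_m_mj B (gBox L 1 (z.1, z.2 + 1)))).card ≤ 2 * bdry B := by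
  set P : ℕ × ℕ → Finset (Site L) := fun z =>
    rect L (gE L 1 z.1) (gE L 1 (z.1 + 1)) (gE L 1 z.2) (gE L 1 (z.2 + 2)) with hP
  set T := (gT L 1).filter (fun z => z.2 + 1 < L / 1) with hT
  set M := (gT L 1).filter (fun z => z.2 + 1 < L / 1 ∧
      na_m_mj B (gBox L 1 z) ≠ na_m_mj B (gBox L 1 (z.1, z.2 + 1))) with hM
  have h1 := ct_sum B T P 2 (by
    intro p
    have hsub : T.filter (fun z => p ∈ P z) ⊆ {gIx L 1 p, ((gIx L 1 p).1, (gIx L 1 p).2 - 1)} := by
      intro z hz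
      rw [Finset.mem_filter, hT, Finset.mem_filter] at hz
      have h2 := (ct_pairV_mem le_rfl hL hz.1.1 hz.1.2 p).mp hz.2
      rw [Finset.mem_insert, Finset.mem_singleton]
      rcases h2 with h2 | h2
      · left; exact h2.symm
      · right
        rw [h2]
        refine Prod.ext rfl ?_
        simp only
        omega
    exact (Finset.card_le_card hsub).trans Finset.card_le_two)
  refine le_trans ?_ h1
  have hMT : M ⊆ T := by
    intro z hz
    rw [hM, Finset.mem_filter] at hz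
    rw [hT, Finset.mem_filter]
    exact ⟨hz.1, hz.2.1⟩
  calc M.card = ∑ _z ∈ M, 1 := by rw [Finset.sum_const, smul_eq_mul, mul_one]
    _ ≤ ∑ z ∈ M, (b9_bin B (P z)).card := by
        refine Finset.sum_le_sum fun z hz => ?_
        rw [hM, Finset.mem_filter] at hz
        obtain ⟨hz0, hz1, hz2⟩ := hz
        have hz' := gT_mem.mp hz0
        have hzR : (z.1, z.2 + 1) ∈ gT L 1 := gT_mem.mpr ⟨hz'.1, hz1⟩
        have h3 := gE_side (L := L) le_rfl hz'.2
        have h4 : gE L 1 (z.2 + 1) + 1 ≤ gE L 1 (z.2 + 2) ∧ gE L 1 (z.2 + 2) ≤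
          gE L 1 (z.2 + 1) + 2 * 1 := gE_side le_rfl hz1
        have h5 := gE_side (L := L) le_rfl hz'.1
        obtain ⟨p, hp⟩ : ∃ p, gBox L 1 z = {p} := by
          rw [Nat.div_one] at hz'
          refine ⟨(⟨z.1, hz'.1⟩, ⟨z.2, hz'.2⟩), ?_⟩
          have := ct_one_box (L := L) (⟨z.1, hz'.1⟩, ⟨z.2, hz'.2⟩)
          rw [ct_one_ix] at this
          exact this
        obtain ⟨p', hp'⟩ : ∃ p', gBox L 1 (z.1, z.2 + 1) = {p'} := by
          rw [Nat.div_one] at hz' hz1
          refine ⟨(⟨z.1, hz'.1⟩, ⟨z.2 + 1, hz1⟩), ?_⟩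
          have := ct_one_box (L := L) (⟨z.1, hz'.1⟩, ⟨z.2 + 1, hz1⟩)
          rw [ct_one_ix] at this
          exact this
        have hpP : p ∈ P z := (ct_pairV_mem le_rfl hL hz0 hz1 p).mpr (Or.inl (by
          rw [← gBox_mem le_rfl hL hz0, hp]; exact Finset.mem_singleton_self p))
        have hpP' : p' ∈ P z := (ct_pairV_mem le_rfl hL hz0 hz1 p').mpr (Or.inr (by
          rw [← gBox_mem le_rfl hL hzR, hp']; exact Finset.mem_singleton_self p'))
        have hmj : ∀ x : Site L, na_m_mj B {x} = decide (x ∈ B) := by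
          intro x
          unfold na_m_mj
          rw [Finset.card_singleton]
          by_cases h : x ∈ B
          · rw [Finset.inter_singleton_of_mem h, Finset.card_singleton]; simp [h]
          · rw [Finset.inter_singleton_of_notMem h, Finset.card_empty]; simp [h]
        rw [hp, hp', hmj, hmj] at hz2
        have hne : (B ∩ P z).Nonempty ∧ (P z \ B).Nonempty := by
          by_cases h : p ∈ B
          · by_cases h' : p' ∈ B
            · simp [h, h'] at hz2
            · exact ⟨⟨p, Finset.mem_inter.mpr ⟨h, hpP⟩⟩, ⟨p', Finset.mem_sdiff.mpr ⟨hpP', h'⟩⟩⟩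
          · by_cases h' : p' ∈ B
            · exact ⟨⟨p', Finset.mem_inter.mpr ⟨h', hpP'⟩⟩, ⟨p, Finset.mem_sdiff.mpr ⟨hpP, h⟩⟩⟩
            · simp [h, h'] at hz2
        exact ct_pos (gE_le _) (gE_le _) rfl (by omega) (by omega) hne.1 hne.2
    _ ≤ ∑ z ∈ T, (b9_bin B (P z)).card :=
        Finset.sum_le_sum_of_subset_of_nonneg hMT fun _ _ _ => Nat.zero_le _

end count

section main
variable {L : ℕ}

theorem gSum_nn {s : ℕ} (T : Finset (ℕ × ℕ)) (R : ℕ × ℕ → ℕ × ℕ) (w : ℕ × ℕ → ℝ)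
    (hw : ∀ z, 0 ≤ w z) (c : ℕ × ℕ → Bool) : 0 ≤ gSum T R w c := by
  unfold gSum
  refine Finset.sum_nonneg fun z _ => ?_
  split_ifs
  · exact hw z
  · exact le_rfl

theorem gF_nn {s : ℕ} {S : Finset (Site L) → ℝ} (hS : EntLike S) (hs : 1 ≤ s) (hsL : s ≤ L)
    (c : ℕ × ℕ → Bool) : 0 ≤ gF S s c := by
  unfold gF
  have h1 := gSum_nn (s := s) (gT L s) (fun z => (z.1 + 1, z.2)) (gH S s) (gH_nn hS hs hsL) c
  have h2 := gSum_nn (s := s) (gT L s) (fun z => (z.1, z.2 + 1)) (gV S s) (gV_nn hS hs hsL) c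
  linarith

theorem st_pow (a : ℝ) (k : ℕ) :
    (((2 ^ k : ℕ) : ℝ)) ^ a / ((2 ^ k : ℕ) : ℝ) = ((2 : ℝ) ^ (a - 1)) ^ k := by
  have h2 : (0 : ℝ) < 2 := by norm_num
  have hp : (0 : ℝ) < ((2 ^ k : ℕ) : ℝ) := by positivity
  push_cast
  rw [← Real.rpow_natCast 2 k, ← Real.rpow_mul h2.le, ← Real.rpow_sub h2,
    ← Real.rpow_natCast ((2 : ℝ) ^ (a - 1)) k, ← Real.rpow_mul h2.le]
  congr 1
  ring

/-- one level -/
theorem st_step {a C : ℝ} (hC : 0 ≤ C) {S : Finset (Site L) → ℝ} (hS : EntLike S)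
    (hL : Loc S a C) (B : Finset (Site L)) (k : ℕ) (hk : 2 ^ (k + 1) ≤ L) :
    S (gReg L (2 ^ k) (fun z => na_m_mj B (gBox L (2 ^ k) z))) -
        gF S (2 ^ k) (fun z => na_m_mj B (gBox L (2 ^ k) z)) ≤
      S (gReg L (2 ^ (k + 1)) (fun z => na_m_mj B (gBox L (2 ^ (k + 1)) z))) -
        gF S (2 ^ (k + 1)) (fun z => na_m_mj B (gBox L (2 ^ (k + 1)) z)) +
      13 * bdry B * (C * ((2 : ℝ) ^ (a - 1)) ^ k) := by
  have nH := ct_H B k hk
  have nV := ct_V B k hk
  rw [pow_succ'] at hk nH nV ⊢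
  have nM := ct_M B k hk
  set s := 2 ^ k with hs
  have hs1 : 1 ≤ s := Nat.one_le_two_pow
  have hsL : s ≤ L := by omega
  set c' : ℕ × ℕ → Bool := fun z => na_m_mj B (gBox L s z) with hc'
  set c : ℕ × ℕ → Bool := fun z => na_m_mj B (gBox L (2 * s) z) with hc
  have h1 := flip_all hC hS hL hs1 hsL (fun z => c (gPar L s z)) c'
  rw [gReg_par hs1 hk] at h1
  have h2 := rf_sumH hC hS hL hs1 hk c
  have h3 := rf_sumV hC hS hL hs1 hk c
  have h4 : gF S (2 * s) c ≤ gF S s (fun z => c (gPar L s z)) +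
      (((gT L (2 * s)).filter (fun z => z.1 + 1 < L / (2 * s) ∧ c z ≠ c (z.1 + 1, z.2))).card +
      ((gT L (2 * s)).filter (fun z => z.2 + 1 < L / (2 * s) ∧ c z ≠ c (z.1, z.2 + 1))).card) *
        (C * (s : ℝ) ^ a) := by
    unfold gF
    linarith
  obtain ⟨m1, hm1⟩ : ∃ m1 : ℕ, m1 = ((gT L (2 * s)).filter (fun z => z.1 + 1 < L / (2 * s) ∧
    c z ≠ c (z.1 + 1, z.2))).card := ⟨_, rfl⟩
  obtain ⟨m2, hm2⟩ : ∃ m2 : ℕ, m2 = ((gT L (2 * s)).filter (fun z => z.2 + 1 < L / (2 * s) ∧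
    c z ≠ c (z.1, z.2 + 1))).card := ⟨_, rfl⟩
  obtain ⟨m3, hm3⟩ : ∃ m3 : ℕ, m3 = ((gT L s).filter (fun z => c' z ≠ c (gPar L s z))).card :=
    ⟨_, rfl⟩
  have nH' : m1 * s ≤ 2 * bdry B := by rw [hm1]; exact nH
  have nV' : m2 * s ≤ 2 * bdry B := by rw [hm2]; exact nV
  have nM' : m3 * s ≤ 9 * bdry B := by rw [hm3]; exact nM
  rw [← hm1, ← hm2] at h4
  rw [← hm3] at h1
  have hsp : (0 : ℝ) < (s : ℝ) := by exact_mod_cast hs1
  have hsum : ((m1 : ℝ) + m2 + m3) * s ≤ 13 * bdry B := by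
    have : (m1 + m2 + m3) * s ≤ 13 * bdry B := by nlinarith
    exact_mod_cast this
  have hpow := st_pow a k
  rw [← hs] at hpow
  have hCs : 0 ≤ C * (s : ℝ) ^ a := mul_nonneg hC (Real.rpow_nonneg hsp.le _)
  have hfin : ((m1 : ℝ) + m2 + m3) * (C * (s : ℝ) ^ a) ≤
      13 * bdry B * (C * ((2 : ℝ) ^ (a - 1)) ^ k) := by
    rw [← hpow]
    have e1 : ((m1 : ℝ) + m2 + m3) * (C * (s : ℝ) ^ a) =
        (((m1 : ℝ) + m2 + m3) * s) * (C * ((s : ℝ) ^ a / s)) := by
      field_simp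
    rw [e1]
    refine mul_le_mul_of_nonneg_right hsum ?_
    have := Real.rpow_nonneg hsp.le a
    positivity
  linarith

theorem st_iter {a C : ℝ} (hC : 0 ≤ C) {S : Finset (Site L) → ℝ} (hS : EntLike S)
    (hL : Loc S a C) (B : Finset (Site L)) (j : ℕ) (hj : 2 ^ j ≤ L) :
    S (gReg L 1 (fun z => na_m_mj B (gBox L 1 z))) - gF S 1 (fun z => na_m_mj B (gBox L 1 z)) ≤
      S (gReg L (2 ^ j) (fun z => na_m_mj B (gBox L (2 ^ j) z))) -
        gF S (2 ^ j) (fun z => na_m_mj B (gBox L (2 ^ j) z)) +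
      13 * bdry B * (C * ∑ i ∈ range j, ((2 : ℝ) ^ (a - 1)) ^ i) := by
  induction j with
  | zero => simp
  | succ j ih =>
    have h1 := ih (le_trans (Nat.pow_le_pow_right (by norm_num) (by omega)) hj)
    have h2 := st_step hC hS hL B j hj
    rw [Finset.sum_range_succ]
    linarith

theorem st_base {a C : ℝ} (hC : 0 ≤ C) {S : Finset (Site L) → ℝ} (hS : EntLike S)
    (hL : Loc S a C) (B : Finset (Site L)) (hL1 : 1 ≤ L) :
    gF S 1 (fun z => na_m_mj B (gBox L 1 z)) ≤ 4 * C * bdry B := by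
  have nH := ct_H0 B hL1
  have nV := ct_V0 B hL1
  set c : ℕ × ℕ → Bool := fun z => na_m_mj B (gBox L 1 z) with hc
  have hmi : ∀ z z' : ℕ × ℕ, z ∈ gT L 1 → z' ∈ gT L 1 → mi S (gBox L 1 z) (gBox L 1 z') ≤
      2 * C := by
    intro z z' hz hz'
    unfold mi
    have h1 := hL.card (gBox L 1 z)
    have h2 := hL.card (gBox L 1 z')
    rw [gBox_card_one hL1 hz] at h1
    rw [gBox_card_one hL1 hz'] at h2
    have h3 := hS.nonneg (gBox L 1 z ∪ gBox L 1 z')
    push_cast at h1 h2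
    linarith
  have hH : gSum (gT L 1) (fun z => (z.1 + 1, z.2)) (gH S 1) c ≤
      ((gT L 1).filter (fun z => z.1 + 1 < L / 1 ∧ c z ≠ c (z.1 + 1, z.2))).card * (2 * C) := by
    rw [← nsmul_eq_mul, ← Finset.sum_const, Finset.sum_filter]
    unfold gSum
    refine Finset.sum_le_sum fun z hz => ?_
    beta_reduce
    have hz' := gT_mem.mp hz
    by_cases h1 : z.1 + 1 < L / 1
    · by_cases h2 : c z ≠ c (z.1 + 1, z.2)
      · rw [if_pos h2, if_pos ⟨h1, h2⟩]
        exact hmi _ _ hz (gT_mem.mpr ⟨h1, hz'.2⟩)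
      · rw [if_neg h2, if_neg (fun x => h2 x.2)]
    · have h3 : gH S 1 z = 0 := by
        unfold gH
        rw [gBox_out (z := (z.1 + 1, z.2)) (Or.inl (by simp only; omega)), mi_empty hS]
      rw [h3, ite_self, if_neg (fun x => h1 x.1)]
  have hV : gSum (gT L 1) (fun z => (z.1, z.2 + 1)) (gV S 1) c ≤
      ((gT L 1).filter (fun z => z.2 + 1 < L / 1 ∧ c z ≠ c (z.1, z.2 + 1))).card * (2 * C) := by
    rw [← nsmul_eq_mul, ← Finset.sum_const, Finset.sum_filter]
    unfold gSum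
    refine Finset.sum_le_sum fun z hz => ?_
    beta_reduce
    have hz' := gT_mem.mp hz
    by_cases h1 : z.2 + 1 < L / 1
    · by_cases h2 : c z ≠ c (z.1, z.2 + 1)
      · rw [if_pos h2, if_pos ⟨h1, h2⟩]
        exact hmi _ _ hz (gT_mem.mpr ⟨hz'.1, h1⟩)
      · rw [if_neg h2, if_neg (fun x => h2 x.2)]
    · have h3 : gV S 1 z = 0 := by
        unfold gV
        rw [gBox_out (z := (z.1, z.2 + 1)) (Or.inr (by simp only; omega)), mi_empty hS]
      rw [h3, ite_self, if_neg (fun x => h1 x.1)]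
  have nH' : (((gT L 1).filter (fun z => z.1 + 1 < L / 1 ∧ c z ≠ c (z.1 + 1, z.2))).card : ℝ) ≤
      2 * bdry B := by exact_mod_cast nH
  have nV' : (((gT L 1).filter (fun z => z.2 + 1 < L / 1 ∧ c z ≠ c (z.1, z.2 + 1))).card : ℝ) ≤
      2 * bdry B := by exact_mod_cast nV
  have hH' := hH.trans (mul_le_mul_of_nonneg_right nH' (by linarith))
  have hV' := hV.trans (mul_le_mul_of_nonneg_right nV' (by linarith))
  unfold gF
  linarith

end main

/-- BLOCK 10b: majority rounding at all scales -/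
theorem strict_all {a C : ℝ} (ha : 0 < a) (ha1 : a < 1) (hC : 0 < C) :
    ∃ C' : ℝ, 0 < C' ∧ ∀ (L : ℕ) (S : Finset (Site L) → ℝ), EntLike S → Loc S a C →
      ∀ B, S B ≤ C' * bdry B := by
  set ρ : ℝ := (2 : ℝ) ^ (a - 1) with hρ
  have hρ0 : 0 < ρ := Real.rpow_pos_of_pos (by norm_num) _
  have hρ1 : ρ < 1 := Real.rpow_lt_one_of_one_lt_of_neg (by norm_num) (by linarith)
  have h1ρ : 0 < 1 - ρ := by linarith
  refine ⟨13 * (C * (1 - ρ)⁻¹) + 4 * C, by positivity, ?_⟩
  intro L S hS hL B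
  rcases Nat.eq_zero_or_pos L with hL0 | hLpos
  · have hB : B = ∅ := by
      rw [Finset.eq_empty_iff_forall_notMem]
      intro p _
      have := p.1.isLt
      omega
    rw [hB, hS.empty]
    positivity
  · set J := Nat.log 2 L with hJ
    have hJ1 : 2 ^ J ≤ L := Nat.pow_log_le_self 2 (by omega)
    have hJ2 : L < 2 ^ (J + 1) := Nat.lt_pow_succ_log_self (by norm_num) L
    have h2J : 1 ≤ 2 ^ J := Nat.one_le_two_pow
    have hk : L / 2 ^ J = 1 := by
      apply Nat.div_eq_of_lt_le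
      · omega
      · rw [pow_succ] at hJ2
        omega
    have h1 := st_iter hC.le hS hL B J hJ1
    have h2 := st_base hC.le hS hL B hLpos
    rw [ct_one_reg] at h1
    have h3 : S (gReg L (2 ^ J) (fun z => na_m_mj B (gBox L (2 ^ J) z))) = 0 := by
      set c : ℕ × ℕ → Bool := fun z => na_m_mj B (gBox L (2 ^ J) z) with hc
      have hix : ∀ p : Site L, gIx L (2 ^ J) p = (0, 0) := by
        intro p
        have := gIx_mem h2J hJ1 p
        rw [gT_mem, hk] at this
        refine Prod.ext ?_ ?_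
        · simp only; omega
        · simp only; omega
      cases hcc : c (0, 0) with
      | true =>
        have e : gReg L (2 ^ J) c = ∅ᶜ := by
          ext p
          unfold gReg
          rw [Finset.mem_filter, hix, hcc]
          simp
        rw [e, hS.compl, hS.empty]
      | false =>
        have e : gReg L (2 ^ J) c = ∅ := by
          ext p
          unfold gReg
          rw [Finset.mem_filter, hix, hcc]
          simp
        rw [e, hS.empty]
    have h4 := gF_nn hS h2J hJ1 (fun z => na_m_mj B (gBox L (2 ^ J) z))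
    have h5 : ∑ i ∈ range J, ρ ^ i ≤ (1 - ρ)⁻¹ := by
      rw [← tsum_geometric_of_lt_one hρ0.le hρ1]
      exact (summable_geometric_of_lt_one hρ0.le hρ1).sum_le_tsum _
        (fun i _ => pow_nonneg hρ0.le i)
    have h6 : 13 * (bdry B : ℝ) * (C * ∑ i ∈ range J, ρ ^ i) ≤
        13 * (bdry B : ℝ) * (C * (1 - ρ)⁻¹) :=
      mul_le_mul_of_nonneg_left (mul_le_mul_of_nonneg_left h5 hC.le) (by positivity)
    rw [h3] at h1
    calc S B ≤ 4 * C * bdry B + 13 * (bdry B : ℝ) * (C * (1 - ρ)⁻¹) := by linarith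
      _ = _ := by ring

end Vale.Agent.P356.SA
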