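import Vale.Agent.P356.SA.Defs
import Vale.Agent.P356.NA.Reg

/-!
Nested grids of boxes, colourings and the local change of the boundary functional.
-/

set_option linter.all false

namespace Vale.Agent.P356.SA

open Matrix Finset Vale.Agent.P356 Vale.Agent.P356.SV Vale.Agent.P356.Path Vale.Agent.P356.NA
open scoped BigOperators ComplexOrder Kronecker

section grid

/-- endpoints of the grid of step `s` -/
def gE (L s i : ℕ) : ℕ := if i < L / s then i * s else L

/-- boxes of the grid -/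
def gBox (L s : ℕ) (z : ℕ × ℕ) : Finset (Site L) :=
  rect L (gE L s z.1) (gE L s (z.1 + 1)) (gE L s z.2) (gE L s (z.2 + 1))

/-- index of the box of a site -/
def gIx (L s : ℕ) (p : Site L) : ℕ × ℕ := (b9_ix s (L / s) p.1, b9_ix s (L / s) p.2)

/-- union of the boxes of colour `true` -/
def gReg (L s : ℕ) (c : ℕ × ℕ → Bool) : Finset (Site L) :=
  Finset.univ.filter (fun p => c (gIx L s p) = true)

/-- indices of the boxes -/
def gT (L s : ℕ) : Finset (ℕ × ℕ) := range (L / s) ×ˢ range (L / s)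

variable {L s : ℕ}

theorem gT_mem {z : ℕ × ℕ} : z ∈ gT L s ↔ z.1 < L / s ∧ z.2 < L / s := by
  unfold gT
  rw [Finset.mem_product, Finset.mem_range, Finset.mem_range]

theorem gE_lt {i : ℕ} (h : i < L / s) : gE L s i = i * s := if_pos h

theorem gE_ge {i : ℕ} (h : L / s ≤ i) : gE L s i = L := if_neg (not_lt.mpr h)

theorem gE_le (i : ℕ) : gE L s i ≤ L := by
  unfold gE
  split_ifs with h
  · exact (Nat.mul_le_mul_right _ h.le).trans (Nat.div_mul_le_self L s)
  · exact le_rfl

theorem gE_side (hs : 1 ≤ s) {i : ℕ} (h : i < L / s) :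
    gE L s i + s ≤ gE L s (i + 1) ∧ gE L s (i + 1) ≤ gE L s i + 2 * s := by
  rw [gE_lt h]
  have h1 : L < (L / s + 1) * s := by
    rw [mul_comm]; exact Nat.lt_mul_div_succ L (by omega)
  have h2 : L / s * s ≤ L := Nat.div_mul_le_self L s
  unfold gE
  split_ifs with h'
  · constructor
    · exact le_of_eq (by ring)
    · have : (i + 1) * s = i * s + s := by ring
      omega
  · have h3 : i + 1 = L / s := by omega
    rw [← h3] at h1 h2
    have e1 : (i + 1) * s = i * s + s := by ring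
    have e2 : (i + 1 + 1) * s = i * s + 2 * s := by ring
    rw [e1] at h2
    rw [e2] at h1
    constructor <;> omega

theorem gE_Side (hs : 1 ≤ s) {i : ℕ} (h : i < L / s) : Side s (gE L s i) (gE L s (i + 1)) := by
  have := gE_side hs h
  unfold Side
  omega

theorem gIx_mem (hs : 1 ≤ s) (hsL : s ≤ L) (p : Site L) : gIx L s p ∈ gT L s := by
  have hk : 1 ≤ L / s := (Nat.one_le_div_iff (by omega)).2 hsL
  rw [gT_mem]
  unfold gIx b9_ix
  constructor
  · exact lt_of_le_of_lt (min_le_right _ _) (by omega)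
  · exact lt_of_le_of_lt (min_le_right _ _) (by omega)

theorem gBox_mem (hs : 1 ≤ s) (hsL : s ≤ L) {z : ℕ × ℕ} (hz : z ∈ gT L s) (p : Site L) :
    p ∈ gBox L s z ↔ gIx L s p = z := by
  rw [gT_mem] at hz
  have key : ∀ (i : ℕ), i < L / s → ∀ t : Fin L, b9_ix s (L / s) t = i ↔
      gE L s i ≤ t.val ∧ t.val < gE L s (i + 1) := by
    intro i hi t
    rw [b9_ix_iff hs hsL hi t, gE_lt hi]
    unfold gE
    by_cases h : i + 1 = L / s
    · rw [if_pos h, if_neg (by omega)]
    · rw [if_neg h, if_pos (by omega)]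
  unfold gBox gIx
  rw [b8_mem, Prod.ext_iff]
  simp only
  rw [key z.1 hz.1, key z.2 hz.2]
  tauto

theorem gBox_out {z : ℕ × ℕ} (h : L / s ≤ z.1 ∨ L / s ≤ z.2) : gBox L s z = ∅ := by
  rw [Finset.eq_empty_iff_forall_notMem]
  intro p hp
  unfold gBox at hp
  rw [b8_mem] at hp
  rcases h with h | h
  · rw [gE_ge h] at hp
    have := p.1.isLt
    omega
  · rw [gE_ge h] at hp
    have := p.2.isLt
    omega

theorem gBox_disj (hs : 1 ≤ s) (hsL : s ≤ L) {z z' : ℕ × ℕ} (hz : z ∈ gT L s) (hne : z ≠ z') :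
    Disjoint (gBox L s z) (gBox L s z') := by
  rw [Finset.disjoint_left]
  intro p hp hp'
  by_cases hz' : z' ∈ gT L s
  · rw [gBox_mem hs hsL hz] at hp
    rw [gBox_mem hs hsL hz'] at hp'
    exact hne (hp.symm.trans hp')
  · rw [gT_mem, not_and_or, not_lt, not_lt] at hz'
    rw [gBox_out hz'] at hp'
    exact absurd hp' (Finset.notMem_empty p)

theorem gReg_compl (c : ℕ × ℕ → Bool) : (gReg L s c)ᶜ = gReg L s (fun z => !(c z)) := by
  ext p
  unfold gReg
  simp

theorem gBox_sub_gReg (hs : 1 ≤ s) (hsL : s ≤ L) {c : ℕ × ℕ → Bool} {z : ℕ × ℕ}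
    (hc : c z = true) : gBox L s z ⊆ gReg L s c := by
  intro p hp
  by_cases hz : z ∈ gT L s
  · rw [gBox_mem hs hsL hz] at hp
    unfold gReg
    rw [Finset.mem_filter]
    refine ⟨Finset.mem_univ _, ?_⟩
    rw [hp]
    exact hc
  · rw [gT_mem, not_and_or, not_lt, not_lt] at hz
    rw [gBox_out hz] at hp
    exact absurd hp (Finset.notMem_empty p)

theorem gBox_card_one (hL : 1 ≤ L) {z : ℕ × ℕ} (hz : z ∈ gT L 1) : (gBox L 1 z).card = 1 := by
  rw [gT_mem, Nat.div_one] at hz
  unfold gBox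
  have h1 := gE_side (L := L) (s := 1) le_rfl (i := z.1) (by rw [Nat.div_one]; exact hz.1)
  have h2 := gE_side (L := L) (s := 1) le_rfl (i := z.2) (by rw [Nat.div_one]; exact hz.2)
  rw [na_m_card (gE_le _) (gE_le _)]
  have e : ∀ i, i < L → gE L 1 (i + 1) - gE L 1 i = 1 := by
    intro i hi
    unfold gE
    rw [Nat.div_one, if_pos hi]
    split_ifs with h
    · omega
    · omega
  rw [e _ hz.1, e _ hz.2]

end grid

section flip
variable {L s : ℕ}

theorem mi_empty {V : Type*} [Fintype V] [DecidableEq V] {S : Finset V → ℝ} (hS : EntLike S)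
    (Q : Finset V) : mi S Q ∅ = 0 := by
  unfold mi
  rw [hS.empty, Finset.union_empty]
  ring

theorem mi_comm' {V : Type*} [DecidableEq V] {S : Finset V → ℝ}
    (Q Q' : Finset V) : mi S Q Q' = mi S Q' Q := by
  unfold mi
  rw [Finset.union_comm]
  ring

theorem mi_nn {V : Type*} [Fintype V] [DecidableEq V] {S : Finset V → ℝ} (hS : EntLike S)
    {Q Q' : Finset V} (h : Disjoint Q Q') : 0 ≤ mi S Q Q' := by
  have := hS.ssa Q ∅ Q' (Finset.disjoint_empty_right _) h (Finset.disjoint_empty_left _)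
  rw [hS.empty, Finset.union_empty, Finset.empty_union] at this
  unfold mi
  linarith

theorem S_cond' {V : Type*} [Fintype V] [DecidableEq V] {S : Finset V → ℝ} (hS : EntLike S)
    {Q T A : Finset V} (hQ : Disjoint A Q) (hT : T ⊆ A) :
    S (A ∪ Q) - S A ≤ S (Q ∪ T) - S T := by
  have h := hS.ssa (A \ T) T Q Finset.sdiff_disjoint
    (hQ.mono_left Finset.sdiff_subset) (hQ.mono_left hT)
  rw [Finset.sdiff_union_of_subset hT, Finset.union_comm T Q] at h
  linarith

/-- horizontal and vertical neighbour informations -/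
noncomputable def gH (S : Finset (Site L) → ℝ) (s : ℕ) (z : ℕ × ℕ) : ℝ :=
  mi S (gBox L s z) (gBox L s (z.1 + 1, z.2))
noncomputable def gV (S : Finset (Site L) → ℝ) (s : ℕ) (z : ℕ × ℕ) : ℝ :=
  mi S (gBox L s z) (gBox L s (z.1, z.2 + 1))

/-- sum over the pairs of different colour, shift `R` -/
noncomputable def gSum (T : Finset (ℕ × ℕ)) (R : ℕ × ℕ → ℕ × ℕ) (w : ℕ × ℕ → ℝ)
    (c : ℕ × ℕ → Bool) : ℝ := ∑ z ∈ T, if c z ≠ c (R z) then w z else 0

/-- the boundary functional -/
noncomputable def gF (S : Finset (Site L) → ℝ) (s : ℕ) (c : ℕ × ℕ → Bool) : ℝ :=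
  (gSum (gT L s) (fun z => (z.1 + 1, z.2)) (gH S s) c +
    gSum (gT L s) (fun z => (z.1, z.2 + 1)) (gV S s) c) / 2

theorem gSum_flip (T : Finset (ℕ × ℕ)) (R Lf : ℕ × ℕ → ℕ × ℕ) (w : ℕ × ℕ → ℝ) (z0 : ℕ × ℕ)
    (hz0 : z0 ∈ T) (hL : Lf z0 ∈ T) (P : Prop) [Decidable P]
    (hR : ∀ z, R z = z0 → z = Lf z0 ∧ P) (hP : P → R (Lf z0) = z0) (hnP : ¬ P → Lf z0 = z0)
    (hne : ∀ z, R z ≠ z) (c c' : ℕ × ℕ → Bool) (hc : ∀ z, z ≠ z0 → c' z = c z) :
    gSum T R w c' = gSum T R w c +
      ((if c' z0 ≠ c (R z0) then w z0 else 0) - (if c z0 ≠ c (R z0) then w z0 else 0)) +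
      (if P then ((if c (Lf z0) ≠ c' z0 then w (Lf z0) else 0) -
        (if c (Lf z0) ≠ c z0 then w (Lf z0) else 0)) else 0) := by
  set D1 := ((if c' z0 ≠ c (R z0) then w z0 else 0) - (if c z0 ≠ c (R z0) then w z0 else 0))
    with hD1
  set D2 := (if P then ((if c (Lf z0) ≠ c' z0 then w (Lf z0) else 0) -
        (if c (Lf z0) ≠ c z0 then w (Lf z0) else 0)) else 0) with hD2
  have hpt : ∀ z ∈ T, (if c' z ≠ c' (R z) then w z else 0) =
      (if c z ≠ c (R z) then w z else 0) + (if z = z0 then D1 else 0) +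
        (if z = Lf z0 then D2 else 0) := by
    intro z _
    by_cases h0 : z = z0
    · have h1 : c' (R z) = c (R z) := hc _ (by rw [h0]; exact hne z0)
      rw [if_pos h0, h1]
      have h2 : (if z = Lf z0 then D2 else 0) = 0 := by
        by_cases h3 : z = Lf z0
        · rw [if_pos h3, hD2]
          by_cases hp : P
          · exfalso
            have := hP hp
            rw [← h3, h0] at this
            exact hne z0 this
          · rw [if_neg hp]
        · rw [if_neg h3]
      rw [h2, h0, hD1]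
      ring
    · rw [if_neg h0, hc z h0]
      by_cases h3 : z = Lf z0
      · rw [if_pos h3]
        have hp : P := by
          by_contra hp
          exact h0 (h3.trans (hnP hp))
        have h4 : R z = z0 := by rw [h3]; exact hP hp
        rw [hD2, if_pos hp, h4, h3]
        ring
      · rw [if_neg h3]
        have h4 : R z ≠ z0 := fun h => h3 (hR z h).1
        rw [hc _ h4]
        ring
  unfold gSum
  rw [Finset.sum_congr rfl hpt, Finset.sum_add_distrib, Finset.sum_add_distrib,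
    Finset.sum_ite_eq' T z0, Finset.sum_ite_eq' T (Lf z0), if_pos hz0, if_pos hL]

theorem gSum_compl (T : Finset (ℕ × ℕ)) (R : ℕ × ℕ → ℕ × ℕ) (w : ℕ × ℕ → ℝ)
    (c : ℕ × ℕ → Bool) : gSum T R w (fun z => !(c z)) = gSum T R w c := by
  unfold gSum
  refine Finset.sum_congr rfl fun z _ => ?_
  have : ((!(c z)) ≠ !(c (R z))) ↔ (c z ≠ c (R z)) := by
    cases c z <;> cases c (R z) <;> simp
  by_cases h : c z ≠ c (R z)
  · rw [if_pos h, if_pos (this.mpr h)]
  · rw [if_neg h, if_neg (fun h' => h (this.mp h'))]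

theorem gF_compl (S : Finset (Site L) → ℝ) (c : ℕ × ℕ → Bool) :
    gF S s (fun z => !(c z)) = gF S s c := by
  unfold gF
  rw [gSum_compl, gSum_compl]

end flip

end Vale.Agent.P356.SA
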