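import Vale.Agent.P356.SA.FactsBase

/-!
Entropy of a box through its neighbours, and superadditivity over the neighbours.
-/

set_option linter.all false

namespace Vale.Agent.P356.SA

open Matrix Finset Vale.Agent.P356 Vale.Agent.P356.SV Vale.Agent.P356.Path Vale.Agent.P356.NA
open scoped BigOperators ComplexOrder Kronecker

/-! ### abstract facts -/
section abstr
variable {V : Type*} [Fintype V] [DecidableEq V] {S : Finset V → ℝ}

/-- superadditivity of the mutual information up to the mutual information of the partners: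
this is strong subadditivity -/
theorem us_super (hS : EntLike S) {Q A B : Finset V} (h1 : Disjoint Q A) (h2 : Disjoint Q B)
    (h3 : Disjoint A B) : mi S Q A + mi S Q B ≤ mi S Q (A ∪ B) + mi S A B := by
  have h := hS.ssa A Q B h1.symm h3 h2
  have e1 : A ∪ Q ∪ B = Q ∪ (A ∪ B) := by
    rw [Finset.union_comm A Q, Finset.union_assoc]
  rw [e1, Finset.union_comm A Q] at h
  unfold mi
  linarith

/-- removing a part of small entropy -/
theorem us_drop (hS : EntLike S) {T D K : Finset V} (hK : K ⊆ T) (h : Disjoint T D) :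
    mi S T D ≤ mi S (T \ K) D + 2 * S K := by
  have e : T \ K ∪ K = T := Finset.sdiff_union_of_subset hK
  have h1 := mi_drop hS (A := T \ K) (B := D) (K := K) (by rw [e]; exact h)
    Finset.sdiff_disjoint
  rwa [e] at h1

theorem us_univ (hS : EntLike S) : S Finset.univ = 0 := by
  rw [← hS.compl, Finset.compl_univ, hS.empty]

theorem us_self (hS : EntLike S) (Q : Finset V) : mi S Q Qᶜ = 2 * S Q := by
  unfold mi
  rw [Finset.union_compl, us_univ hS, hS.compl]
  ring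

theorem us_four {G1 G2 G3 G4 : Finset V} {ε : ℝ} (h1 : mi S G1 (G2 ∪ (G3 ∪ G4)) ≤ ε)
    (h2 : mi S G2 (G3 ∪ G4) ≤ ε) (h3 : mi S G3 G4 ≤ ε) :
    S G1 + S G2 + S G3 + S G4 ≤ S (G1 ∪ (G2 ∪ (G3 ∪ G4))) + 3 * ε := by
  unfold mi at h1 h2 h3
  linarith

theorem us_sub4 (hS : EntLike S) {A B C D : Finset V} (h1 : Disjoint A (B ∪ (C ∪ D)))
    (h2 : Disjoint B (C ∪ D)) (h3 : Disjoint C D) :
    S (A ∪ (B ∪ (C ∪ D))) ≤ S A + S B + S C + S D := by
  have a1 := S_sub hS h1
  have a2 := S_sub hS h2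
  have a3 := S_sub hS h3
  linarith

end abstr

/-! ### distances -/

theorem us_distA {L N x0 x1 y0 y1 : ℕ} {p q : Site L}
    (hp : p ∈ rect L (x0 + N) (x1 - N) (y0 + N) (y1 - N)) (hq : q ∉ rect L x0 x1 y0 y1) :
    N ≤ dist1 p q := by
  rw [sa9_mem] at hp hq
  unfold dist1
  omega

theorem us_distB {L N x0 x1 y0 y1 : ℕ} {p q : Site L}
    (hp : p ∈ rect L x0 x1 y0 y1) (hq : q ∉ rect L (x0 - N) (x1 + N) (y0 - N) (y1 + N)) :
    N ≤ dist1 p q := by
  rw [sa9_mem] at hp hq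
  unfold dist1
  omega

theorem us_symm {L : ℕ} (p q : Site L) : dist1 p q = dist1 q p := by
  unfold dist1
  omega

/-! ### superadditivity -/

theorem us_super4 {V : Type*} [Fintype V] [DecidableEq V] {S : Finset V → ℝ} (hS : EntLike S)
    {Q A B C D : Finset V} (hA : Disjoint Q A) (hB : Disjoint Q B) (hC : Disjoint Q C)
    (hD : Disjoint Q D) (h1 : Disjoint A (B ∪ (C ∪ D))) (h2 : Disjoint B (C ∪ D))
    (h3 : Disjoint C D) : mi S Q A + mi S Q B + mi S Q C + mi S Q D ≤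
      mi S Q (A ∪ B ∪ C ∪ D) + (mi S A (B ∪ (C ∪ D)) + mi S B (C ∪ D) + mi S C D) := by
  have a1 := us_super hS hC hD h3
  have a2 := us_super hS hB (Finset.disjoint_union_right.mpr ⟨hC, hD⟩) h2
  have a3 := us_super hS hA (Finset.disjoint_union_right.mpr
    ⟨hB, Finset.disjoint_union_right.mpr ⟨hC, hD⟩⟩) h1
  have e : A ∪ B ∪ C ∪ D = A ∪ (B ∪ (C ∪ D)) := by
    rw [Finset.union_assoc, Finset.union_assoc]
  rw [e]
  linarith

theorem us_disj {L : ℕ} {A B : Finset (Site L)} (h : ∀ p ∈ A, p ∈ B → False) : Disjoint A B :=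
  Finset.disjoint_left.mpr fun p hp hp' => h p hp hp'

section sup
variable {L s N xm x0 x1 xp ym y0 y1 yp : ℕ} {S : Finset (Site L) → ℝ} {a b C : ℝ}

theorem us_err1 (hS : EntLike S) (hD : Dec S a b C) (hs : 1 ≤ s) (hN : C * (10 * s : ℝ) ^ a ≤ N)
    (hN1 : 1 ≤ N) (hNs : 10 * N ≤ s) (hx : Side s x0 x1) (hy : Side s y0 y1)
    (hxm : x0 = 0 ∨ Side s xm x0) :
    mi S (rect L xm x0 y0 y1) (rect L x1 xp y0 y1 ∪ (rect L x0 x1 ym y0 ∪ rect L x0 x1 y1 yp)) ≤
      C * (10 * s : ℝ) ^ a + 4 * (C * ((10 * N : ℕ) : ℝ) ^ b) := by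
  unfold Side at *
  set K1 := rect L (x0 - N) x0 y0 (y0 + N) with hK1
  set K2 := rect L (x0 - N) x0 (y1 - N) y1 with hK2
  have k1 : S K1 ≤ C * ((10 * N : ℕ) : ℝ) ^ b := sa9_small hD hN1 (by omega) (by omega)
  have k2 : S K2 ≤ C * ((10 * N : ℕ) : ℝ) ^ b := sa9_small hD hN1 (by omega) (by omega)
  have k3 : S (K1 ∪ K2) ≤ S K1 + S K2 := S_sub hS (us_disj fun p hp hp' => by
    rw [hK1, sa9_mem] at hp
    rw [hK2, sa9_mem] at hp'
    omega)
  have h1 := us_drop hS (T := rect L xm x0 y0 y1)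
    (D := rect L x1 xp y0 y1 ∪ (rect L x0 x1 ym y0 ∪ rect L x0 x1 y1 yp)) (K := K1 ∪ K2)
    (by
      intro p hp
      rw [Finset.mem_union, hK1, hK2, sa9_mem, sa9_mem] at hp
      rw [sa9_mem]
      omega)
    (us_disj fun p hp hp' => by
      simp only [Finset.mem_union, sa9_mem] at hp hp'
      omega)
  have h2 := sa9_dec hD hs hN (x0 := xm) (x1 := x0) (y0 := y0) (y1 := y1) (by omega) (by omega)
    (X := rect L xm x0 y0 y1 \ (K1 ∪ K2))
    (Y := rect L x1 xp y0 y1 ∪ (rect L x0 x1 ym y0 ∪ rect L x0 x1 y1 yp))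
    Finset.sdiff_subset (by
      intro p hp q hq
      rw [hK1, hK2] at hp
      simp only [Finset.mem_sdiff, Finset.mem_union, sa9_mem, not_or] at hp hq
      unfold dist1
      omega)
  linarith

theorem us_err2 (hS : EntLike S) (hD : Dec S a b C) (hs : 1 ≤ s) (hN : C * (10 * s : ℝ) ^ a ≤ N)
    (hN1 : 1 ≤ N) (hNs : 10 * N ≤ s) (hx : Side s x0 x1) (hy : Side s y0 y1)
    (hxp : x1 = L ∨ Side s x1 xp) :
    mi S (rect L x1 xp y0 y1) (rect L x0 x1 ym y0 ∪ rect L x0 x1 y1 yp) ≤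
      C * (10 * s : ℝ) ^ a + 4 * (C * ((10 * N : ℕ) : ℝ) ^ b) := by
  unfold Side at *
  set K1 := rect L x1 (x1 + N) y0 (y0 + N) with hK1
  set K2 := rect L x1 (x1 + N) (y1 - N) y1 with hK2
  have k1 : S K1 ≤ C * ((10 * N : ℕ) : ℝ) ^ b := sa9_small hD hN1 (by omega) (by omega)
  have k2 : S K2 ≤ C * ((10 * N : ℕ) : ℝ) ^ b := sa9_small hD hN1 (by omega) (by omega)
  have k3 : S (K1 ∪ K2) ≤ S K1 + S K2 := S_sub hS (us_disj fun p hp hp' => by
    rw [hK1, sa9_mem] at hp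
    rw [hK2, sa9_mem] at hp'
    omega)
  have h1 := us_drop hS (T := rect L x1 xp y0 y1)
    (D := rect L x0 x1 ym y0 ∪ rect L x0 x1 y1 yp) (K := K1 ∪ K2)
    (by
      intro p hp
      rw [Finset.mem_union, hK1, hK2, sa9_mem, sa9_mem] at hp
      rw [sa9_mem]
      have := p.1.isLt
      omega)
    (us_disj fun p hp hp' => by
      simp only [Finset.mem_union, sa9_mem] at hp hp'
      omega)
  have h2 := sa9_dec hD hs hN (x0 := x1) (x1 := x1 + 10 * s) (y0 := y0) (y1 := y1) (by omega)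
    (by omega) (X := rect L x1 xp y0 y1 \ (K1 ∪ K2))
    (Y := rect L x0 x1 ym y0 ∪ rect L x0 x1 y1 yp)
    (by
      intro p hp
      rw [Finset.mem_sdiff, sa9_mem] at hp
      rw [sa9_mem]
      have := p.1.isLt
      omega) (by
      intro p hp q hq
      rw [hK1, hK2] at hp
      simp only [Finset.mem_sdiff, Finset.mem_union, sa9_mem, not_or] at hp hq
      unfold dist1
      omega)
  linarith

theorem us_err3 (hS : EntLike S) (hD : Dec S a b C) (hs : 1 ≤ s) (hN : C * (10 * s : ℝ) ^ a ≤ N)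
    (hN1 : 1 ≤ N) (hNs : 10 * N ≤ s) (hx : Side s x0 x1) (hy : Side s y0 y1)
    (hym : y0 = 0 ∨ Side s ym y0) :
    mi S (rect L x0 x1 ym y0) (rect L x0 x1 y1 yp) ≤ C * (10 * s : ℝ) ^ a := by
  unfold Side at *
  refine sa9_dec hD hs hN (x0 := x0) (x1 := x1) (y0 := ym) (y1 := y0) (by omega) (by omega)
    (Finset.Subset.refl _) ?_
  intro p hp q hq
  simp only [sa9_mem] at hp hq
  unfold dist1
  omega

end sup

/-- 9d: superadditivity over the four neighbours. `T i` is empty or the `i`-th neighbour. -/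
theorem box_super {a b C : ℝ} (ha : 0 < a) (ha1 : a < 1) (hb : 1 ≤ b) (hab : a * b < 1)
    (hC : 0 < C) : ∃ C' : ℝ, 0 < C' ∧ ∀ (L : ℕ) (S : Finset (Site L) → ℝ), EntLike S →
      Dec S a b C → ∀ s xm x0 x1 xp ym y0 y1 yp : ℕ, 1 ≤ s → Side s x0 x1 → Side s y0 y1 →
      x1 ≤ L → y1 ≤ L → (x0 = 0 ∨ Side s xm x0) → (y0 = 0 ∨ Side s ym y0) →
      (x1 = L ∨ Side s x1 xp) → (y1 = L ∨ Side s y1 yp) → ∀ TL TR TD TU : Finset (Site L),
      (TL = ∅ ∨ TL = rect L xm x0 y0 y1) → (TR = ∅ ∨ TR = rect L x1 xp y0 y1) →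
      (TD = ∅ ∨ TD = rect L x0 x1 ym y0) → (TU = ∅ ∨ TU = rect L x0 x1 y1 yp) →
      mi S (rect L x0 x1 y0 y1) TL + mi S (rect L x0 x1 y0 y1) TR +
        mi S (rect L x0 x1 y0 y1) TD + mi S (rect L x0 x1 y0 y1) TU ≤
      mi S (rect L x0 x1 y0 y1) (TL ∪ TR ∪ TD ∪ TU) + C' * (s : ℝ) ^ (a * b) := by
  obtain ⟨c1, s1, hc1, hs1, hnum⟩ := sa9_nums (a := a) (b := b) (C := C) ha ha1 hb hC
  refine ⟨288 * C * s1 + 11 * c1, by positivity, ?_⟩
  intro L S hS hD s xm x0 x1 xp ym y0 y1 yp hs hx hy hx1 hy1 hxm hym hxp hyp TL TR TD TU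
    hTL hTR hTD hTU
  obtain ⟨hNr, hNl, hNb, hsm⟩ := hnum s ⌈C * (10 * s : ℝ) ^ a⌉₊ hs (Nat.le_ceil _)
    (Nat.ceil_lt_add_one (by positivity)).le
  have hNc : C * (10 * s : ℝ) ^ a ≤ (⌈C * (10 * s : ℝ) ^ a⌉₊ : ℕ) := Nat.le_ceil _
  generalize hNdef : ⌈C * (10 * s : ℝ) ^ a⌉₊ = N at *
  set Q := rect L x0 x1 y0 y1 with hQ
  have hs1' : (1 : ℝ) ≤ s := by exact_mod_cast hs
  have hsab : (1 : ℝ) ≤ (s : ℝ) ^ (a * b) := Real.one_le_rpow hs1' (by positivity)
  have sTL : TL ⊆ rect L xm x0 y0 y1 := by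
    rcases hTL with h | h <;> rw [h]
    exact Finset.empty_subset _
  have sTR : TR ⊆ rect L x1 xp y0 y1 := by
    rcases hTR with h | h <;> rw [h]
    exact Finset.empty_subset _
  have sTD : TD ⊆ rect L x0 x1 ym y0 := by
    rcases hTD with h | h <;> rw [h]
    exact Finset.empty_subset _
  have sTU : TU ⊆ rect L x0 x1 y1 yp := by
    rcases hTU with h | h <;> rw [h]
    exact Finset.empty_subset _
  have dL : Disjoint Q TL := (us_disj fun p hp hp' => by
    rw [hQ, sa9_mem] at hp; have := sTL hp'; rw [sa9_mem] at this; omega)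
  have dR : Disjoint Q TR := (us_disj fun p hp hp' => by
    rw [hQ, sa9_mem] at hp; have := sTR hp'; rw [sa9_mem] at this; omega)
  have dD : Disjoint Q TD := (us_disj fun p hp hp' => by
    rw [hQ, sa9_mem] at hp; have := sTD hp'; rw [sa9_mem] at this; omega)
  have dU : Disjoint Q TU := (us_disj fun p hp hp' => by
    rw [hQ, sa9_mem] at hp; have := sTU hp'; rw [sa9_mem] at this; omega)
  have dall : Disjoint Q (TL ∪ TR ∪ TD ∪ TU) := by
    rw [Finset.disjoint_union_right, Finset.disjoint_union_right, Finset.disjoint_union_right]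
    exact ⟨⟨⟨dL, dR⟩, dD⟩, dU⟩
  have hpos := mi_nonneg hS dall
  by_cases hsN : s < 10 * N
  · have hss := hsm hsN
    have hcard : S Q ≤ C * (36 * s1) := by
      refine (hD.card Q).trans (mul_le_mul_of_nonneg_left ?_ hC.le)
      have h1 : Q.card ≤ (x1 - x0) * (y1 - y0) := sa9_card
      have h2 : (x1 - x0) * (y1 - y0) ≤ (6 * s) * (6 * s) := by
        unfold Side at hx hy
        exact Nat.mul_le_mul (by omega) (by omega)
      have h3 : (Q.card : ℝ) ≤ ((6 * s) * (6 * s) : ℕ) := by exact_mod_cast h1.trans h2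
      push_cast at h3
      nlinarith
    have m1 := mi_le hS dL
    have m2 := mi_le hS dR
    have m3 := mi_le hS dD
    have m4 := mi_le hS dU
    have h5 : (288 * C * s1 + 11 * c1) * 1 ≤ (288 * C * s1 + 11 * c1) * (s : ℝ) ^ (a * b) :=
      mul_le_mul_of_nonneg_left hsab (by positivity)
    linarith
  · push Not at hsN
    have hN0 : 1 ≤ N := hNr
    have q1 : Disjoint TL (TR ∪ (TD ∪ TU)) := (us_disj fun p hp hp' => by
      have h1 := sTL hp
      rw [sa9_mem] at h1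
      rw [Finset.mem_union, Finset.mem_union] at hp'
      unfold Side at *
      rcases hp' with h | h | h
      · have h2 := sTR h
        rw [sa9_mem] at h2
        omega
      · have h2 := sTD h
        rw [sa9_mem] at h2
        omega
      · have h2 := sTU h
        rw [sa9_mem] at h2
        omega)
    have q2 : Disjoint TR (TD ∪ TU) := (us_disj fun p hp hp' => by
      have h1 := sTR hp
      rw [sa9_mem] at h1
      rw [Finset.mem_union] at hp'
      unfold Side at *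
      rcases hp' with h | h
      · have h2 := sTD h
        rw [sa9_mem] at h2
        omega
      · have h2 := sTU h
        rw [sa9_mem] at h2
        omega)
    have q3 : Disjoint TD TU := (us_disj fun p hp hp' => by
      have h1 := sTD hp
      rw [sa9_mem] at h1
      unfold Side at *
      have h2 := sTU hp'
      rw [sa9_mem] at h2
      omega)
    have main := us_super4 hS dL dR dD dU q1 q2 q3
    have e1 : mi S TL (TR ∪ (TD ∪ TU)) ≤ C * (10 * s : ℝ) ^ a + 4 * (C * ((10 * N : ℕ) : ℝ) ^ b) :=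
      (mi_mono2 hS (us_disj fun p hp hp' => by
        simp only [Finset.mem_union, sa9_mem] at hp hp'
        unfold Side at *
        omega) sTL (Finset.union_subset_union sTR (Finset.union_subset_union sTD sTU))).trans
        (us_err1 hS hD hs hNc hN0 hsN hx hy hxm)
    have e2 : mi S TR (TD ∪ TU) ≤ C * (10 * s : ℝ) ^ a + 4 * (C * ((10 * N : ℕ) : ℝ) ^ b) :=
      (mi_mono2 hS (us_disj fun p hp hp' => by
        simp only [Finset.mem_union, sa9_mem] at hp hp'
        unfold Side at *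
        omega) sTR (Finset.union_subset_union sTD sTU)).trans
        (us_err2 hS hD hs hNc hN0 hsN hx hy hxp)
    have e3 : mi S TD TU ≤ C * (10 * s : ℝ) ^ a :=
      (mi_mono2 hS (us_disj fun p hp hp' => by
        simp only [Finset.mem_union, sa9_mem] at hp hp'
        unfold Side at *
        omega) sTD sTU).trans (us_err3 hS hD hs hNc hN0 hsN hx hy hym)
    have h6 : 0 ≤ 288 * C * s1 * (s : ℝ) ^ (a * b) := by positivity
    have h7 : (288 * C * s1 + 11 * c1) * (s : ℝ) ^ (a * b) =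
      288 * C * s1 * (s : ℝ) ^ (a * b) + 11 * (c1 * (s : ℝ) ^ (a * b)) := by ring
    rw [h7]
    linarith

/-! ### upper bound -/

section upp
variable {L s N xm x0 x1 xp ym y0 y1 yp : ℕ} {S : Finset (Site L) → ℝ} {a b C : ℝ}

/-- inner corner squares -/
def uK (L N x0 x1 y0 y1 : ℕ) : Finset (Site L) :=
  rect L x0 (x0 + 3 * N) y0 (y0 + 3 * N) ∪ (rect L x0 (x0 + 3 * N) (y1 - 3 * N) y1 ∪
    (rect L (x1 - 3 * N) x1 y0 (y0 + 3 * N) ∪ rect L (x1 - 3 * N) x1 (y1 - 3 * N) y1))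

/-- full corner squares -/
def uB (L N x0 x1 y0 y1 : ℕ) : Finset (Site L) :=
  rect L (x0 - 3 * N) (x0 + 3 * N) (y0 - 3 * N) (y0 + 3 * N) ∪
    (rect L (x0 - 3 * N) (x0 + 3 * N) (y1 - 3 * N) (y1 + 3 * N) ∪
    (rect L (x1 - 3 * N) (x1 + 3 * N) (y0 - 3 * N) (y0 + 3 * N) ∪
      rect L (x1 - 3 * N) (x1 + 3 * N) (y1 - 3 * N) (y1 + 3 * N)))

/-- inner strips -/
def uP (L N x0 x1 y0 y1 : ℕ) : Finset (Site L) :=
  rect L x0 (x0 + N) (y0 + 3 * N) (y1 - 3 * N) ∪ (rect L (x1 - N) x1 (y0 + 3 * N) (y1 - 3 * N) ∪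
    (rect L (x0 + 3 * N) (x1 - 3 * N) y0 (y0 + N) ∪ rect L (x0 + 3 * N) (x1 - 3 * N) (y1 - N) y1))

/-- outer strips -/
def uP' (L N x0 x1 y0 y1 : ℕ) : Finset (Site L) :=
  rect L (x0 - N) x0 (y0 + 3 * N) (y1 - 3 * N) ∪ (rect L x1 (x1 + N) (y0 + 3 * N) (y1 - 3 * N) ∪
    (rect L (x0 + 3 * N) (x1 - 3 * N) (y0 - N) y0 ∪ rect L (x0 + 3 * N) (x1 - 3 * N) y1 (y1 + N)))

/-- double strips -/
def uG (L N x0 x1 y0 y1 : ℕ) : Finset (Site L) :=
  rect L (x0 - N) (x0 + N) (y0 + 3 * N) (y1 - 3 * N) ∪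
    (rect L (x1 - N) (x1 + N) (y0 + 3 * N) (y1 - 3 * N) ∪
    (rect L (x0 + 3 * N) (x1 - 3 * N) (y0 - N) (y0 + N) ∪
      rect L (x0 + 3 * N) (x1 - 3 * N) (y1 - N) (y1 + N)))

theorem uK_le (hS : EntLike S) (hD : Dec S a b C) (hN1 : 1 ≤ N) (hx : x0 + 10 * N ≤ x1)
    (hy : y0 + 10 * N ≤ y1) : S (uK L N x0 x1 y0 y1) ≤ 4 * (C * ((10 * N : ℕ) : ℝ) ^ b) := by
  have h := us_sub4 hS (A := rect L x0 (x0 + 3 * N) y0 (y0 + 3 * N))
    (B := rect L x0 (x0 + 3 * N) (y1 - 3 * N) y1) (C := rect L (x1 - 3 * N) x1 y0 (y0 + 3 * N))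
    (D := rect L (x1 - 3 * N) x1 (y1 - 3 * N) y1)
    (us_disj fun p hp hp' => by simp only [Finset.mem_union, sa9_mem] at hp hp'; omega)
    (us_disj fun p hp hp' => by simp only [Finset.mem_union, sa9_mem] at hp hp'; omega)
    (us_disj fun p hp hp' => by simp only [Finset.mem_union, sa9_mem] at hp hp'; omega)
  have k1 : S (rect L x0 (x0 + 3 * N) y0 (y0 + 3 * N)) ≤ C * ((10 * N : ℕ) : ℝ) ^ b :=
    sa9_small hD hN1 (by omega) (by omega)
  have k2 : S (rect L x0 (x0 + 3 * N) (y1 - 3 * N) y1) ≤ C * ((10 * N : ℕ) : ℝ) ^ b :=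
    sa9_small hD hN1 (by omega) (by omega)
  have k3 : S (rect L (x1 - 3 * N) x1 y0 (y0 + 3 * N)) ≤ C * ((10 * N : ℕ) : ℝ) ^ b :=
    sa9_small hD hN1 (by omega) (by omega)
  have k4 : S (rect L (x1 - 3 * N) x1 (y1 - 3 * N) y1) ≤ C * ((10 * N : ℕ) : ℝ) ^ b :=
    sa9_small hD hN1 (by omega) (by omega)
  unfold uK
  linarith

theorem uB_le (hS : EntLike S) (hD : Dec S a b C) (hN1 : 1 ≤ N) (hx : x0 + 10 * N ≤ x1)
    (hy : y0 + 10 * N ≤ y1) : S (uB L N x0 x1 y0 y1) ≤ 4 * (C * ((10 * N : ℕ) : ℝ) ^ b) := by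
  have h := us_sub4 hS (A := rect L (x0 - 3 * N) (x0 + 3 * N) (y0 - 3 * N) (y0 + 3 * N))
    (B := rect L (x0 - 3 * N) (x0 + 3 * N) (y1 - 3 * N) (y1 + 3 * N))
    (C := rect L (x1 - 3 * N) (x1 + 3 * N) (y0 - 3 * N) (y0 + 3 * N))
    (D := rect L (x1 - 3 * N) (x1 + 3 * N) (y1 - 3 * N) (y1 + 3 * N))
    (us_disj fun p hp hp' => by simp only [Finset.mem_union, sa9_mem] at hp hp'; omega)
    (us_disj fun p hp hp' => by simp only [Finset.mem_union, sa9_mem] at hp hp'; omega)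
    (us_disj fun p hp hp' => by simp only [Finset.mem_union, sa9_mem] at hp hp'; omega)
  have k1 : S (rect L (x0 - 3 * N) (x0 + 3 * N) (y0 - 3 * N) (y0 + 3 * N)) ≤
      C * ((10 * N : ℕ) : ℝ) ^ b := sa9_small hD hN1 (by omega) (by omega)
  have k2 : S (rect L (x0 - 3 * N) (x0 + 3 * N) (y1 - 3 * N) (y1 + 3 * N)) ≤
      C * ((10 * N : ℕ) : ℝ) ^ b := sa9_small hD hN1 (by omega) (by omega)
  have k3 : S (rect L (x1 - 3 * N) (x1 + 3 * N) (y0 - 3 * N) (y0 + 3 * N)) ≤
      C * ((10 * N : ℕ) : ℝ) ^ b := sa9_small hD hN1 (by omega) (by omega)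
  have k4 : S (rect L (x1 - 3 * N) (x1 + 3 * N) (y1 - 3 * N) (y1 + 3 * N)) ≤
      C * ((10 * N : ℕ) : ℝ) ^ b := sa9_small hD hN1 (by omega) (by omega)
  unfold uB
  linarith

theorem uK_sub (hx : x0 + 10 * N ≤ x1) (hy : y0 + 10 * N ≤ y1) :
    uK L N x0 x1 y0 y1 ⊆ rect L x0 x1 y0 y1 := by
  intro p hp
  unfold uK at hp
  simp only [Finset.mem_union, sa9_mem] at hp ⊢
  omega

theorem uB_inter (hx : x0 + 10 * N ≤ x1) (hy : y0 + 10 * N ≤ y1) :
    uB L N x0 x1 y0 y1 \ rect L x0 x1 y0 y1 ∪ uK L N x0 x1 y0 y1 = uB L N x0 x1 y0 y1 := by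
  ext p
  unfold uB uK
  simp only [Finset.mem_union, Finset.mem_sdiff, sa9_mem]
  constructor
  · rintro (h | h)
    · exact h.1
    · omega
  · intro h
    by_cases hq : x0 ≤ p.1.val ∧ p.1.val < x1 ∧ y0 ≤ p.2.val ∧ p.2.val < y1
    · right
      omega
    · left
      exact ⟨h, hq⟩

theorem uP_sub (hx : x0 + 10 * N ≤ x1) (hy : y0 + 10 * N ≤ y1) :
    uP L N x0 x1 y0 y1 ⊆ rect L x0 x1 y0 y1 := by
  intro p hp
  unfold uP at hp
  simp only [Finset.mem_union, sa9_mem] at hp ⊢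
  omega

/-- decomposition of the inside -/
theorem u_in (hx : x0 + 10 * N ≤ x1) (hy : y0 + 10 * N ≤ y1) (p : Site L)
    (hp : p ∈ rect L x0 x1 y0 y1) (hK : p ∉ uK L N x0 x1 y0 y1)
    (hR : p ∉ rect L (x0 + N) (x1 - N) (y0 + N) (y1 - N)) : p ∈ uP L N x0 x1 y0 y1 := by
  unfold uK at hK
  unfold uP
  simp only [Finset.mem_union, sa9_mem, not_or] at hp hK hR ⊢
  omega

/-- decomposition of the outside -/
theorem u_out (hx : x0 + 10 * N ≤ x1) (hy : y0 + 10 * N ≤ y1) (p : Site L)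
    (hp : p ∉ rect L x0 x1 y0 y1) (hK : p ∉ uB L N x0 x1 y0 y1)
    (hR : p ∈ rect L (x0 - N) (x1 + N) (y0 - N) (y1 + N)) : p ∈ uP' L N x0 x1 y0 y1 := by
  unfold uB at hK
  unfold uP'
  simp only [Finset.mem_union, sa9_mem, not_or] at hp hK hR ⊢
  omega

theorem uP_eq (hx : x0 + 10 * N ≤ x1) (hy : y0 + 10 * N ≤ y1) :
    uP' L N x0 x1 y0 y1 ∪ uP L N x0 x1 y0 y1 = uG L N x0 x1 y0 y1 := by
  ext p
  unfold uP uP' uG
  simp only [Finset.mem_union, sa9_mem]
  constructor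
  · rintro ((h | h | h | h) | (h | h | h | h))
    · left; omega
    · right; left; omega
    · right; right; left; omega
    · right; right; right; omega
    · left; omega
    · right; left; omega
    · right; right; left; omega
    · right; right; right; omega
  · rintro (h | h | h | h)
    · by_cases hu : p.1.val < x0
      · left; left; omega
      · right; left; omega
    · by_cases hu : p.1.val < x1
      · right; right; left; omega
      · left; right; left; omega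
    · by_cases hu : p.2.val < y0
      · left; right; right; left; omega
      · right; right; right; left; omega
    · by_cases hu : p.2.val < y1
      · right; right; right; right; omega
      · left; right; right; right; omega

theorem u_thin_in (hS : EntLike S) (hD : Dec S a b C) (hs : 1 ≤ s)
    (hN : C * (10 * s : ℝ) ^ a ≤ N) (hN1 : 1 ≤ N) (hNs : 10 * N ≤ s) (hx : Side s x0 x1)
    (hy : Side s y0 y1) :
    mi S (rect L x0 x1 y0 y1) (rect L x0 x1 y0 y1)ᶜ ≤
      mi S (uP L N x0 x1 y0 y1) (rect L x0 x1 y0 y1)ᶜ + 2 * (C * (10 * s : ℝ) ^ a) +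
        4 * S (uK L N x0 x1 y0 y1) := by
  unfold Side at *
  have hx' : x0 + 10 * N ≤ x1 := by omega
  have hy' : y0 + 10 * N ≤ y1 := by omega
  set K := uK L N x0 x1 y0 y1 with hK
  set P := uP L N x0 x1 y0 y1 with hP
  set Q := rect L x0 x1 y0 y1 with hQ
  set R1 := rect L (x0 + N) (x1 - N) (y0 + N) (y1 - N) with hR1
  set R2 := rect L (x0 + N + N) (x1 - N - N) (y0 + N + N) (y1 - N - N) with hR2
  have hKQ : K ⊆ Q := uK_sub hx' hy'
  have hPQ : P ⊆ Q := uP_sub hx' hy'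
  have hRQ : R1 ⊆ Q := by
    intro p hp
    rw [hR1, sa9_mem] at hp
    rw [hQ, sa9_mem]
    omega
  have hRR : R2 ⊆ R1 := by
    intro p hp
    rw [hR2, sa9_mem] at hp
    rw [hR1, sa9_mem]
    omega
  have hPK : Disjoint K P := us_disj fun p hp hp' => by
    rw [hK] at hp
    rw [hP] at hp'
    unfold uK at hp
    unfold uP at hp'
    simp only [Finset.mem_union, sa9_mem] at hp hp'
    omega
  have hPR : Disjoint P R1 := us_disj fun p hp hp' => by
    rw [hP] at hp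
    rw [hR1, sa9_mem] at hp'
    unfold uP at hp
    simp only [Finset.mem_union, sa9_mem] at hp
    omega
  have hU : K ∪ P ∪ (R2 \ K) ∪ ((R1 \ R2) \ K) = Q := by
    ext p
    simp only [Finset.mem_union, Finset.mem_sdiff]
    constructor
    · rintro (((h | h) | h) | h)
      · exact hKQ h
      · exact hPQ h
      · exact hRQ (hRR h.1)
      · exact hRQ h.1.1
    · intro h
      by_cases h1 : p ∈ K
      · exact Or.inl (Or.inl (Or.inl h1))
      by_cases h2 : p ∈ R1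
      · by_cases h3 : p ∈ R2
        · exact Or.inl (Or.inr ⟨h3, h1⟩)
        · exact Or.inr ⟨⟨h2, h3⟩, h1⟩
      · exact Or.inl (Or.inl (Or.inr (u_in hx' hy' p h h1 h2)))
  have h := thin hS (K := K) (P := P) (A₁ := R2 \ K) (A₂ := (R1 \ R2) \ K) (D := Qᶜ)
    (ε := C * (10 * s : ℝ) ^ a) hPK (Finset.disjoint_sdiff) (Finset.disjoint_sdiff)
    (hPR.mono_right (Finset.sdiff_subset.trans hRR))
    (hPR.mono_right (Finset.sdiff_subset.trans Finset.sdiff_subset))
    (us_disj fun p hp hp' => by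
      rw [Finset.mem_sdiff] at hp
      rw [Finset.mem_sdiff, Finset.mem_sdiff] at hp'
      exact hp'.1.2 hp.1)
    (by rw [hU]; exact disjoint_compl_right)
    (by
      rw [hU]
      refine sa9_dec hD hs hN (x0 := x0) (x1 := x1) (y0 := y0) (y1 := y1) (by omega) (by omega)
        ((Finset.sdiff_subset.trans Finset.sdiff_subset).trans hRQ) ?_
      intro p hp q hq
      rw [Finset.mem_sdiff, Finset.mem_sdiff] at hp
      rw [Finset.mem_compl] at hq
      exact us_distA hp.1.1 hq)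
    (by
      refine sa9_dec hD hs hN (x0 := x0) (x1 := x1) (y0 := y0) (y1 := y1) (by omega) (by omega)
        ((Finset.sdiff_subset.trans hRR).trans hRQ) ?_
      intro p hp q hq
      rw [Finset.mem_sdiff] at hp
      refine us_distA hp.1 ?_
      rw [Finset.mem_union, Finset.mem_compl] at hq
      rcases hq with hq | hq
      · exact fun h => Finset.disjoint_left.mp hPR hq h
      · exact fun h => hq (hRQ h))
  rw [hU] at h
  exact h

theorem u_thin_out (hS : EntLike S) (hD : Dec S a b C) (hs : 1 ≤ s)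
    (hN : C * (10 * s : ℝ) ^ a ≤ N) (hN1 : 1 ≤ N) (hNs : 10 * N ≤ s) (hx : Side s x0 x1)
    (hy : Side s y0 y1) :
    mi S (rect L x0 x1 y0 y1)ᶜ (uP L N x0 x1 y0 y1) ≤
      mi S (uP' L N x0 x1 y0 y1) (uP L N x0 x1 y0 y1) + 2 * (C * (10 * s : ℝ) ^ a) +
        4 * S (uB L N x0 x1 y0 y1 \ rect L x0 x1 y0 y1) := by
  unfold Side at *
  have hx' : x0 + 10 * N ≤ x1 := by omega
  have hy' : y0 + 10 * N ≤ y1 := by omega
  set P := uP L N x0 x1 y0 y1 with hP
  set P' := uP' L N x0 x1 y0 y1 with hP'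
  set Q := rect L x0 x1 y0 y1 with hQ
  set B := uB L N x0 x1 y0 y1 with hB
  set R1 := rect L (x0 - N) (x1 + N) (y0 - N) (y1 + N) with hR1
  set R2 := rect L (x0 - N - N) (x1 + N + N) (y0 - N - N) (y1 + N + N) with hR2
  have hQR : Q ⊆ R1 := by
    intro p hp
    rw [hQ, sa9_mem] at hp
    rw [hR1, sa9_mem]
    omega
  have hRR : R1 ⊆ R2 := by
    intro p hp
    rw [hR1, sa9_mem] at hp
    rw [hR2, sa9_mem]
    omega
  have hPQ : P ⊆ Q := uP_sub hx' hy'
  have hPQ' : Disjoint P' Q := us_disj fun p hp hp' => by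
    rw [hP'] at hp
    rw [hQ, sa9_mem] at hp'
    unfold uP' at hp
    simp only [Finset.mem_union, sa9_mem] at hp
    omega
  have hPB : Disjoint B P' := us_disj fun p hp hp' => by
    rw [hB] at hp
    rw [hP'] at hp'
    unfold uB at hp
    unfold uP' at hp'
    simp only [Finset.mem_union, sa9_mem] at hp hp'
    omega
  have hPR : P' ⊆ R1 := by
    intro p hp
    rw [hP'] at hp
    rw [hR1, sa9_mem]
    unfold uP' at hp
    simp only [Finset.mem_union, sa9_mem] at hp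
    omega
  have hU : (B \ Q) ∪ P' ∪ (R2ᶜ \ B) ∪ ((R2 \ R1) \ B) = Qᶜ := by
    ext p
    simp only [Finset.mem_union, Finset.mem_sdiff, Finset.mem_compl]
    constructor
    · rintro (((h | h) | h) | h)
      · exact h.2
      · exact fun h1 => Finset.disjoint_left.mp hPQ' h h1
      · exact fun h1 => h.1 (hRR (hQR h1))
      · exact fun h1 => h.1.2 (hQR h1)
    · intro h
      by_cases h1 : p ∈ B
      · exact Or.inl (Or.inl (Or.inl ⟨h1, h⟩))
      by_cases h2 : p ∈ R1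
      · exact Or.inl (Or.inl (Or.inr (u_out hx' hy' p h h1 h2)))
      · by_cases h3 : p ∈ R2
        · exact Or.inr ⟨⟨h3, h2⟩, h1⟩
        · exact Or.inl (Or.inr ⟨h3, h1⟩)
  have h := thin hS (K := B \ Q) (P := P') (A₁ := R2ᶜ \ B) (A₂ := (R2 \ R1) \ B) (D := P)
    (ε := C * (10 * s : ℝ) ^ a) (hPB.mono_left Finset.sdiff_subset)
    (us_disj fun p hp hp' => by
      rw [Finset.mem_sdiff] at hp hp'
      exact hp'.2 hp.1)
    (us_disj fun p hp hp' => by
      rw [Finset.mem_sdiff] at hp hp'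
      exact hp'.2 hp.1)
    (us_disj fun p hp hp' => by
      rw [Finset.mem_sdiff, Finset.mem_compl] at hp'
      exact hp'.1 (hRR (hPR hp)))
    (us_disj fun p hp hp' => by
      rw [Finset.mem_sdiff, Finset.mem_sdiff] at hp'
      exact hp'.1.2 (hPR hp))
    (us_disj fun p hp hp' => by
      rw [Finset.mem_sdiff, Finset.mem_compl] at hp
      rw [Finset.mem_sdiff, Finset.mem_sdiff] at hp'
      exact hp.1 hp'.1.1)
    (by
      rw [hU]
      exact (disjoint_compl_left (a := Q)).mono_right hPQ)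
    (by
      rw [hU, compl_compl]
      refine sa9_dec hD hs hN (x0 := x0 - N - N) (x1 := x1 + N + N) (y0 := y0 - N - N)
        (y1 := y1 + N + N) (by omega) (by omega)
        (Finset.sdiff_subset.trans Finset.sdiff_subset) ?_
      intro p hp q hq
      rw [Finset.mem_sdiff, Finset.mem_sdiff] at hp
      rw [us_symm]
      exact us_distB hq hp.1.2)
    (by
      rw [mi_comm]
      refine sa9_dec hD hs hN (x0 := x0 - N) (x1 := x1 + N) (y0 := y0 - N)
        (y1 := y1 + N) (by omega) (by omega)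
        (Finset.union_subset hPR (hPQ.trans hQR)) ?_
      intro p hp q hq
      rw [Finset.mem_sdiff, Finset.mem_compl] at hq
      have hp1 : p ∈ R1 := (Finset.union_subset hPR (hPQ.trans hQR)) hp
      exact us_distB hp1 hq.1)
  rw [hU] at h
  exact h

end upp

/-- 9c: entropy of a box through its four outer neighbours (empty at the border of the lattice) -/
theorem box_upper {a b C : ℝ} (ha : 0 < a) (ha1 : a < 1) (hb : 1 ≤ b) (hab : a * b < 1)
    (hC : 0 < C) : ∃ C' : ℝ, 0 < C' ∧ ∀ (L : ℕ) (S : Finset (Site L) → ℝ), EntLike S →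
      Dec S a b C → ∀ s xm x0 x1 xp ym y0 y1 yp : ℕ, 1 ≤ s → Side s x0 x1 → Side s y0 y1 →
      x1 ≤ L → y1 ≤ L → (x0 = 0 ∨ Side s xm x0) → (y0 = 0 ∨ Side s ym y0) →
      (x1 = L ∨ Side s x1 xp) → (y1 = L ∨ Side s y1 yp) →
      S (rect L x0 x1 y0 y1) ≤
        (mi S (rect L x0 x1 y0 y1) (rect L xm x0 y0 y1) +
          mi S (rect L x0 x1 y0 y1) (rect L x1 xp y0 y1) +
          mi S (rect L x0 x1 y0 y1) (rect L x0 x1 ym y0) +
          mi S (rect L x0 x1 y0 y1) (rect L x0 x1 y1 yp)) / 2 + C' * (s : ℝ) ^ (a * b) := by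
  obtain ⟨c1, s1, hc1, hs1, hnum⟩ := sa9_nums (a := a) (b := b) (C := C) ha ha1 hb hC
  refine ⟨36 * C * s1 + 28 * c1, by positivity, ?_⟩
  intro L S hS hD s xm x0 x1 xp ym y0 y1 yp hs hx hy hx1 hy1 hxm hym hxp hyp
  obtain ⟨hNr, hNl, hNb, hsm⟩ := hnum s ⌈C * (10 * s : ℝ) ^ a⌉₊ hs (Nat.le_ceil _)
    (Nat.ceil_lt_add_one (by positivity)).le
  have hNc : C * (10 * s : ℝ) ^ a ≤ (⌈C * (10 * s : ℝ) ^ a⌉₊ : ℕ) := Nat.le_ceil _
  generalize hNdef : ⌈C * (10 * s : ℝ) ^ a⌉₊ = N at *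
  have hs1' : (1 : ℝ) ≤ s := by exact_mod_cast hs
  have hsab : (1 : ℝ) ≤ (s : ℝ) ^ (a * b) := Real.one_le_rpow hs1' (by positivity)
  have dL : Disjoint (rect L x0 x1 y0 y1) (rect L xm x0 y0 y1) := (us_disj fun p hp hp' => by
    rw [sa9_mem] at hp hp'; omega)
  have dR : Disjoint (rect L x0 x1 y0 y1) (rect L x1 xp y0 y1) := (us_disj fun p hp hp' => by
    rw [sa9_mem] at hp hp'; omega)
  have dD : Disjoint (rect L x0 x1 y0 y1) (rect L x0 x1 ym y0) := (us_disj fun p hp hp' => by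
    rw [sa9_mem] at hp hp'; omega)
  have dU : Disjoint (rect L x0 x1 y0 y1) (rect L x0 x1 y1 yp) := (us_disj fun p hp hp' => by
    rw [sa9_mem] at hp hp'; omega)
  by_cases hsN : s < 10 * N
  · have hss := hsm hsN
    have hcard : S (rect L x0 x1 y0 y1) ≤ C * (36 * s1) := by
      refine (hD.card _).trans (mul_le_mul_of_nonneg_left ?_ hC.le)
      have h1 : (rect L x0 x1 y0 y1).card ≤ (x1 - x0) * (y1 - y0) := sa9_card
      have h2 : (x1 - x0) * (y1 - y0) ≤ (6 * s) * (6 * s) := by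
        unfold Side at hx hy
        exact Nat.mul_le_mul (by omega) (by omega)
      have h3 : ((rect L x0 x1 y0 y1).card : ℝ) ≤ ((6 * s) * (6 * s) : ℕ) := by
        exact_mod_cast h1.trans h2
      push_cast at h3
      nlinarith
    have m1 := mi_nonneg hS dL
    have m2 := mi_nonneg hS dR
    have m3 := mi_nonneg hS dD
    have m4 := mi_nonneg hS dU
    have h5 : (36 * C * s1 + 28 * c1) * 1 ≤ (36 * C * s1 + 28 * c1) * (s : ℝ) ^ (a * b) :=
      mul_le_mul_of_nonneg_left hsab (by positivity)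
    linarith
  · push Not at hsN
    have hN0 : 1 ≤ N := hNr
    have hx' : x0 + 10 * N ≤ x1 := by unfold Side at hx; omega
    have hy' : y0 + 10 * N ≤ y1 := by unfold Side at hy; omega
    have t1 := u_thin_in (L := L) hS hD hs hNc hN0 hsN hx hy
    have t2 := u_thin_out (L := L) hS hD hs hNc hN0 hsN hx hy
    rw [us_self hS, mi_comm (uP L N x0 x1 y0 y1)] at t1
    have k1 := uK_le (L := L) hS hD hN0 hx' hy'
    have k2 := uB_le (L := L) hS hD hN0 hx' hy'
    have k3 : S (uB L N x0 x1 y0 y1 \ rect L x0 x1 y0 y1) ≤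
        S (uB L N x0 x1 y0 y1) + S (uK L N x0 x1 y0 y1) := by
      have h := S_al hS (A := uB L N x0 x1 y0 y1 \ rect L x0 x1 y0 y1)
        (B := uK L N x0 x1 y0 y1)
        (Finset.sdiff_disjoint.mono_right (uK_sub hx' hy'))
      rwa [uB_inter hx' hy'] at h
    -- the strips
    have g : S (rect L (x0 - N) (x0 + N) (y0 + 3 * N) (y1 - 3 * N)) +
        S (rect L (x1 - N) (x1 + N) (y0 + 3 * N) (y1 - 3 * N)) +
        S (rect L (x0 + 3 * N) (x1 - 3 * N) (y0 - N) (y0 + N)) +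
        S (rect L (x0 + 3 * N) (x1 - 3 * N) (y1 - N) (y1 + N)) ≤
        S (uG L N x0 x1 y0 y1) + 3 * (C * (10 * s : ℝ) ^ a) := by
      unfold Side at hx hy
      refine us_four ?_ ?_ ?_
      · refine sa9_dec hD hs hNc (x0 := x0 - N) (x1 := x0 + N) (y0 := y0 + 3 * N)
          (y1 := y1 - 3 * N) (by omega) (by omega) (Finset.Subset.refl _) ?_
        intro p hp q hq
        simp only [Finset.mem_union, sa9_mem] at hp hq
        unfold dist1
        omega
      · refine sa9_dec hD hs hNc (x0 := x1 - N) (x1 := x1 + N) (y0 := y0 + 3 * N)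
          (y1 := y1 - 3 * N) (by omega) (by omega) (Finset.Subset.refl _) ?_
        intro p hp q hq
        simp only [Finset.mem_union, sa9_mem] at hp hq
        unfold dist1
        omega
      · refine sa9_dec hD hs hNc (x0 := x0 + 3 * N) (x1 := x1 - 3 * N) (y0 := y0 - N)
          (y1 := y0 + N) (by omega) (by omega) (Finset.Subset.refl _) ?_
        intro p hp q hq
        simp only [Finset.mem_union, sa9_mem] at hp hq
        unfold dist1
        omega
    have p1 : S (uP L N x0 x1 y0 y1) ≤ S (rect L x0 (x0 + N) (y0 + 3 * N) (y1 - 3 * N)) +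
        S (rect L (x1 - N) x1 (y0 + 3 * N) (y1 - 3 * N)) +
        S (rect L (x0 + 3 * N) (x1 - 3 * N) y0 (y0 + N)) +
        S (rect L (x0 + 3 * N) (x1 - 3 * N) (y1 - N) y1) := by
      unfold uP
      refine us_sub4 hS ?_ ?_ ?_ <;>
      exact us_disj fun p hp hp' => by
        simp only [Finset.mem_union, sa9_mem] at hp hp'
        omega
    have p2 : S (uP' L N x0 x1 y0 y1) ≤ S (rect L (x0 - N) x0 (y0 + 3 * N) (y1 - 3 * N)) +
        S (rect L x1 (x1 + N) (y0 + 3 * N) (y1 - 3 * N)) +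
        S (rect L (x0 + 3 * N) (x1 - 3 * N) (y0 - N) y0) +
        S (rect L (x0 + 3 * N) (x1 - 3 * N) y1 (y1 + N)) := by
      unfold uP'
      refine us_sub4 hS ?_ ?_ ?_ <;>
      exact us_disj fun p hp hp' => by
        simp only [Finset.mem_union, sa9_mem] at hp hp'
        omega
    have hPP := uP_eq (L := L) hx' hy'
    -- the four sides
    have mL : mi S (rect L x0 (x0 + N) (y0 + 3 * N) (y1 - 3 * N))
        (rect L (x0 - N) x0 (y0 + 3 * N) (y1 - 3 * N)) ≤
        mi S (rect L x0 x1 y0 y1) (rect L xm x0 y0 y1) :=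
      mi_mono2 hS dL (by intro p hp; rw [sa9_mem] at hp ⊢; omega)
        (by intro p hp; rw [sa9_mem] at hp ⊢; unfold Side at *; omega)
    have eL : rect L x0 (x0 + N) (y0 + 3 * N) (y1 - 3 * N) ∪
        rect L (x0 - N) x0 (y0 + 3 * N) (y1 - 3 * N) =
        rect L (x0 - N) (x0 + N) (y0 + 3 * N) (y1 - 3 * N) := by
      ext p
      simp only [Finset.mem_union, sa9_mem]
      omega
    have mR : mi S (rect L (x1 - N) x1 (y0 + 3 * N) (y1 - 3 * N))
        (rect L x1 (x1 + N) (y0 + 3 * N) (y1 - 3 * N)) ≤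
        mi S (rect L x0 x1 y0 y1) (rect L x1 xp y0 y1) :=
      mi_mono2 hS dR (by intro p hp; rw [sa9_mem] at hp ⊢; omega)
        (by intro p hp; rw [sa9_mem] at hp ⊢; unfold Side at *; have := p.1.isLt; omega)
    have eR : rect L (x1 - N) x1 (y0 + 3 * N) (y1 - 3 * N) ∪
        rect L x1 (x1 + N) (y0 + 3 * N) (y1 - 3 * N) =
        rect L (x1 - N) (x1 + N) (y0 + 3 * N) (y1 - 3 * N) := by
      ext p
      simp only [Finset.mem_union, sa9_mem]
      omega
    have mD : mi S (rect L (x0 + 3 * N) (x1 - 3 * N) y0 (y0 + N))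
        (rect L (x0 + 3 * N) (x1 - 3 * N) (y0 - N) y0) ≤
        mi S (rect L x0 x1 y0 y1) (rect L x0 x1 ym y0) :=
      mi_mono2 hS dD (by intro p hp; rw [sa9_mem] at hp ⊢; omega)
        (by intro p hp; rw [sa9_mem] at hp ⊢; unfold Side at *; omega)
    have eD : rect L (x0 + 3 * N) (x1 - 3 * N) y0 (y0 + N) ∪
        rect L (x0 + 3 * N) (x1 - 3 * N) (y0 - N) y0 =
        rect L (x0 + 3 * N) (x1 - 3 * N) (y0 - N) (y0 + N) := by
      ext p
      simp only [Finset.mem_union, sa9_mem]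
      omega
    have mU : mi S (rect L (x0 + 3 * N) (x1 - 3 * N) (y1 - N) y1)
        (rect L (x0 + 3 * N) (x1 - 3 * N) y1 (y1 + N)) ≤
        mi S (rect L x0 x1 y0 y1) (rect L x0 x1 y1 yp) :=
      mi_mono2 hS dU (by intro p hp; rw [sa9_mem] at hp ⊢; omega)
        (by intro p hp; rw [sa9_mem] at hp ⊢; unfold Side at *; have := p.2.isLt; omega)
    have eU : rect L (x0 + 3 * N) (x1 - 3 * N) (y1 - N) y1 ∪
        rect L (x0 + 3 * N) (x1 - 3 * N) y1 (y1 + N) =
        rect L (x0 + 3 * N) (x1 - 3 * N) (y1 - N) (y1 + N) := by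
      ext p
      simp only [Finset.mem_union, sa9_mem]
      omega
    have mPP : mi S (uP' L N x0 x1 y0 y1) (uP L N x0 x1 y0 y1) =
        S (uP' L N x0 x1 y0 y1) + S (uP L N x0 x1 y0 y1) - S (uG L N x0 x1 y0 y1) := by
      unfold mi
      rw [hPP]
    have nL : mi S (rect L x0 (x0 + N) (y0 + 3 * N) (y1 - 3 * N))
        (rect L (x0 - N) x0 (y0 + 3 * N) (y1 - 3 * N)) =
        S (rect L x0 (x0 + N) (y0 + 3 * N) (y1 - 3 * N)) +
          S (rect L (x0 - N) x0 (y0 + 3 * N) (y1 - 3 * N)) -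
          S (rect L (x0 - N) (x0 + N) (y0 + 3 * N) (y1 - 3 * N)) := by
      unfold mi
      rw [eL]
    have nR : mi S (rect L (x1 - N) x1 (y0 + 3 * N) (y1 - 3 * N))
        (rect L x1 (x1 + N) (y0 + 3 * N) (y1 - 3 * N)) =
        S (rect L (x1 - N) x1 (y0 + 3 * N) (y1 - 3 * N)) +
          S (rect L x1 (x1 + N) (y0 + 3 * N) (y1 - 3 * N)) -
          S (rect L (x1 - N) (x1 + N) (y0 + 3 * N) (y1 - 3 * N)) := by
      unfold mi
      rw [eR]
    have nD : mi S (rect L (x0 + 3 * N) (x1 - 3 * N) y0 (y0 + N))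
        (rect L (x0 + 3 * N) (x1 - 3 * N) (y0 - N) y0) =
        S (rect L (x0 + 3 * N) (x1 - 3 * N) y0 (y0 + N)) +
          S (rect L (x0 + 3 * N) (x1 - 3 * N) (y0 - N) y0) -
          S (rect L (x0 + 3 * N) (x1 - 3 * N) (y0 - N) (y0 + N)) := by
      unfold mi
      rw [eD]
    have nU : mi S (rect L (x0 + 3 * N) (x1 - 3 * N) (y1 - N) y1)
        (rect L (x0 + 3 * N) (x1 - 3 * N) y1 (y1 + N)) =
        S (rect L (x0 + 3 * N) (x1 - 3 * N) (y1 - N) y1) +
          S (rect L (x0 + 3 * N) (x1 - 3 * N) y1 (y1 + N)) -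
          S (rect L (x0 + 3 * N) (x1 - 3 * N) (y1 - N) (y1 + N)) := by
      unfold mi
      rw [eU]
    have h6 : 0 ≤ 36 * C * s1 * (s : ℝ) ^ (a * b) := by positivity
    have h8 : 0 ≤ c1 * (s : ℝ) ^ (a * b) := by positivity
    have h7 : (36 * C * s1 + 28 * c1) * (s : ℝ) ^ (a * b) =
      36 * C * s1 * (s : ℝ) ^ (a * b) + 28 * (c1 * (s : ℝ) ^ (a * b)) := by ring
    rw [h7]
    linarith

end Vale.Agent.P356.SA
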