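import Vale.Agent.P356.NA.ExK
import Vale.Agent.P356.SA.Defs

set_option linter.all false

/-!
Truncated products of local relaxations, carried by a homomorphism into a larger system.
-/

namespace Vale.Agent.P356.SA

open Matrix Finset Vale.Agent.P356 Vale.Agent.P356.SV Vale.Agent.P356.Path Vale.Agent.P356.NA
open scoped BigOperators ComplexOrder Kronecker

/-- the properties of a copy map which are used -/
structure CopyMap {N₀ N : Type*} [Fintype N₀] [DecidableEq N₀] [Fintype N] [DecidableEq N]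
    (φ : Matrix N₀ N₀ ℂ → Matrix N N ℂ) : Prop where
  one : φ 1 = 1
  mul : ∀ A B, φ (A * B) = φ A * φ B
  add : ∀ A B, φ (A + B) = φ A + φ B
  smul : ∀ (c : ℂ) A, φ (c • A) = c • φ A
  ct : ∀ A, (φ A)ᴴ = φ Aᴴ
  norm : ∀ A (J : ℝ), OpNormLe A J → OpNormLe (φ A) J

namespace CopyMap
variable {N₀ N : Type*} [Fintype N₀] [DecidableEq N₀] [Fintype N] [DecidableEq N]
    {φ : Matrix N₀ N₀ ℂ → Matrix N N ℂ}

theorem sub (h : CopyMap φ) (A B : Matrix N₀ N₀ ℂ) : φ (A - B) = φ A - φ B := by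
  have h1 : A - B = A + (-1 : ℂ) • B := by rw [neg_one_smul, sub_eq_add_neg]
  rw [h1, h.add, h.smul, neg_one_smul, ← sub_eq_add_neg]

theorem pow (h : CopyMap φ) (A : Matrix N₀ N₀ ℂ) (a : ℕ) : φ (A ^ a) = φ A ^ a := by
  induction a with
  | zero => rw [pow_zero, pow_zero, h.one]
  | succ a ih => rw [pow_succ, pow_succ, h.mul, ih]

theorem prR (h : CopyMap φ) (X : ℕ → Matrix N₀ N₀ ℂ) (M : ℕ) :
    φ (SV.prR X M) = SV.prR (fun i => φ (X i)) M := by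
  induction M with
  | zero => rw [SV.prR, SV.prR, h.one]
  | succ M ih => rw [SV.prR, SV.prR, h.mul, ih]

end CopyMap

section gen
variable {N : Type} [Fintype N] [DecidableEq N] {α β : ℕ → Type}
  [∀ k, Fintype (α k)] [∀ k, DecidableEq (α k)] [∀ k, Fintype (β k)] [∀ k, DecidableEq (β k)]

theorem ek_gen {N₀ : Type*} [Fintype N₀] [DecidableEq N₀] {φ : Matrix N₀ N₀ ℂ → Matrix N N ℂ}
    (hφ : CopyMap φ) (e : ∀ k, N ≃ α k × β k) (θ : ℕ → ℝ) (n : ℕ) {mm : ℝ} (M : ℕ) (hM : 1 ≤ M)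
    (H : ℕ → Matrix N₀ N₀ ℂ) {Δ h0 : ℝ} (hΔ : 0 < Δ) (hh0 : 0 ≤ h0)
    (hherm : ∀ i, (H i).IsHermitian) (hpos : ∀ i ψ, 0 ≤ en (H i) ψ)
    (hnorm : ∀ i, OpNormLe (H i) h0)
    (hgap : ∀ i < M, ∀ ψ, Δ * en (H i) ψ ≤ nsq (H i *ᵥ ψ)) {x₀ : ℝ} (hx₀ : 0 ≤ x₀)
    (hgro : ∀ i < M, ∃ C : ℝ, 0 ≤ C ∧ ∀ δ : ℝ, 0 ≤ δ →
      Gro e θ n mm (1 - (δ : ℂ) • φ (H i)) (δ * x₀ + C * δ ^ 2))
    {τ T : ℝ} (hτ : 0 < τ) (hτT : τ ≤ T) (f : ℕ) {c : ℝ} (hc : 0 < c) :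
    ∃ K : Matrix N N ℂ,
      Rep e θ n mm K ((2 * (M : ℝ) + 1) ^ f) ((M * (τ + 1) + f * (T + 1)) * x₀ + c) ∧
      OpNormLe (K - φ (SV.prR (fun i => kpr (H i)) M))
        ((M * Real.exp (-(Δ * τ))) ^ (f + 1) + M * Real.exp (-(Δ * T))) ∧
      ∀ Ω, (∀ i < M, φ (H i) *ᵥ Ω = 0) → K *ᵥ Ω = Ω ∧ Kᴴ *ᵥ Ω = Ω := by
  have hex : ∀ i, ∃ C : ℝ, 0 ≤ C ∧ (i < M → ∀ δ : ℝ, 0 ≤ δ →
      Gro e θ n mm (1 - (δ : ℂ) • φ (H i)) (δ * x₀ + C * δ ^ 2)) := by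
    intro i
    by_cases hi : i < M
    · obtain ⟨C, h1, h2⟩ := hgro i hi
      exact ⟨C, h1, fun _ => h2⟩
    · exact ⟨0, le_rfl, fun h => absurd h hi⟩
  choose Cg hCg0 hCg using hex
  set Cs : ℝ := ∑ i ∈ range M, Cg i with hCs
  have hCs0 : 0 ≤ Cs := Finset.sum_nonneg fun i _ => hCg0 i
  have hCsi : ∀ i < M, Cg i ≤ Cs := fun i hi =>
    Finset.single_le_sum (fun i _ => hCg0 i) (Finset.mem_range.mpr hi)
  have hTp : 0 < T := by linarith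
  set Q : ℝ := ((M : ℝ) * (τ + 1) + f * (T + 1)) * Cs with hQ
  have hQ0 : 0 ≤ Q := by positivity
  obtain ⟨δ, a0, aT, hδp, hδ2, hδ3, ha0T, ha0l, haTl, ha0u, haTu⟩ :=
    j_delta (h0 := h0) (Q := Q) (c := c) (τ := τ) (T := T) hh0 hQ0 hc hτ hτT
  obtain ⟨x, hxdef⟩ : ∃ x : ℝ, x = x₀ + Cs * δ := ⟨_, rfl⟩
  have hx0 : 0 ≤ x := by rw [hxdef]; positivity
  have hE : ∀ (i : ℕ), i < M → ∀ (a : ℕ) (t : ℝ), 0 ≤ t → δ * a ≤ t →
      Gro e θ n mm (φ ((1 - (δ : ℂ) • H i) ^ a)) (t * x) := by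
    intro i hi a t ht hat
    rw [hφ.pow, hφ.sub, hφ.one, hφ.smul]
    refine j_gro_mono (j_gro_pow (hCg i hi δ hδp.le) a) ?_
    have h4 : Cg i * δ ^ 2 ≤ δ * (Cs * δ) := by
      have := mul_le_mul_of_nonneg_right (hCsi i hi) (show (0 : ℝ) ≤ δ ^ 2 by positivity)
      linarith [this, show Cs * δ ^ 2 = δ * (Cs * δ) by ring]
    calc (a : ℝ) * (δ * x₀ + Cg i * δ ^ 2) ≤ (a : ℝ) * (δ * x) := by
          refine mul_le_mul_of_nonneg_left ?_ (Nat.cast_nonneg a)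
          rw [hxdef, mul_add]
          exact add_le_add le_rfl h4
      _ = (δ * a) * x := by ring
      _ ≤ t * x := mul_le_mul_of_nonneg_right hat hx0
  set E : ℕ → ℕ → Matrix N₀ N₀ ℂ := fun a i => (1 - (δ : ℂ) • H i) ^ a with hEdef
  have hEH : ∀ a i, (φ (E a i))ᴴ = φ (E a i) := by
    intro a i
    rw [hφ.ct]
    congr 1
    simp only [hEdef]
    rw [conjTranspose_pow, conjTranspose_sub, conjTranspose_one, conjTranspose_smul, (hherm i).eq,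
      RCLike.star_def, Complex.conj_ofReal]
  have hEΩ : ∀ Ω, (∀ i < M, φ (H i) *ᵥ Ω = 0) → ∀ a, ∀ i < M, φ (E a i) *ᵥ Ω = Ω := by
    intro Ω hΩ a i hi
    simp only [hEdef]
    rw [hφ.pow, hφ.sub, hφ.one, hφ.smul]
    induction a with
    | zero => rw [pow_zero, one_mulVec]
    | succ a ih =>
      rw [pow_succ, ← mulVec_mulVec, sub_mulVec, one_mulVec, smul_mulVec, hΩ i hi, smul_zero,
        sub_zero, ih]
  obtain ⟨η, hη⟩ : ∃ η : ℝ, η = Real.exp (-(Δ * τ)) := ⟨_, rfl⟩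
  have hη0 : 0 < η := by rw [hη]; exact Real.exp_pos _
  obtain ⟨K, hK1, hK2, hK3, hK4⟩ := trunc e θ n mm M (fun i => φ (E a0 i))
    (fun i => φ (E aT i) - φ (E a0 i)) (η := η) hη0.le
    (by
      intro i hi
      refine ⟨hφ.norm _ _ (pow_contr (hherm i) (hpos i) (hnorm i) hh0 hδp.le hδ2 a0), ?_, ?_⟩
      · have h1 := pow_diff (hherm i) (hpos i) hΔ (hgap i hi) hh0 (hnorm i) hδp.le hδ2 a0 aT ha0T
        rw [← hφ.sub]
        refine hφ.norm _ _ (j_op_mono (Real.exp_pos _).le ?_ h1)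
        rw [hη]
        apply Real.exp_le_exp.mpr
        have h3 := mul_le_mul_of_nonneg_left ha0l hΔ.le
        linarith [h3, show Δ * (δ * (a0 : ℝ)) = δ * Δ * a0 by ring]
      · have : φ (E a0 i) + (φ (E aT i) - φ (E a0 i)) = φ (E aT i) := by abel
        rw [this]
        exact hφ.norm _ _ (pow_contr (hherm i) (hpos i) (hnorm i) hh0 hδp.le hδ2 aT))
    (fun _ => (τ + 1) * x) ((T + 1) * x) (fun i _ => by positivity) (by positivity)
    (fun i hi => j_rep_one (hE i hi a0 (τ + 1) (by positivity) ha0u))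
    (fun i hi => j_rep_sub (hE i hi aT (T + 1) (by positivity) haTu)
      (j_gro_mono (hE i hi a0 (τ + 1) (by positivity) ha0u)
        (mul_le_mul_of_nonneg_right (by linarith) hx0))) f
  refine ⟨K, hK1.mono le_rfl ?_, ?_, fun Ω hΩ => ⟨?_, ?_⟩⟩
  · rw [Finset.sum_const, Finset.card_range, nsmul_eq_mul]
    have e1 : (M : ℝ) * ((τ + 1) * x) + f * ((T + 1) * x) =
        (M * (τ + 1) + f * (T + 1)) * x₀ + Q * δ := by
      rw [hxdef, hQ]; ring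
    rw [e1]
    linarith
  · have hX1 : ∀ i < M, OpNormLe (E aT i) 1 := fun i _ =>
      pow_contr (hherm i) (hpos i) (hnorm i) hh0 hδp.le hδ2 aT
    have hX2 : ∀ i < M, OpNormLe (kpr (H i)) 1 := fun i _ => j_op_isPr (kpr_isPr (hherm i))
    have hX3 : ∀ i < M, OpNormLe (E aT i - kpr (H i)) (Real.exp (-(Δ * T))) := by
      intro i hi
      have h1 := pow_kpr (hherm i) (hpos i) hΔ (hgap i hi) hh0 (hnorm i) hδp.le hδ2 aT
      refine j_op_mono (Real.exp_pos _).le ?_ h1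
      apply Real.exp_le_exp.mpr
      have h3 := mul_le_mul_of_nonneg_left haTl hΔ.le
      linarith [h3, show Δ * (δ * (aT : ℝ)) = δ * Δ * aT by ring]
    have hd1 := hφ.norm _ _ (j_prR_diff (Real.exp_pos (-(Δ * T))).le hX1 hX2 hX3)
    rw [hφ.sub, hφ.prR] at hd1
    have hsum : (fun i => φ (E a0 i) + (φ (E aT i) - φ (E a0 i))) = fun i => φ (E aT i) := by
      funext i
      abel
    rw [hsum] at hK2
    have e1 : K - φ (SV.prR (fun i => kpr (H i)) M) =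
        (K - SV.prR (fun i => φ (E aT i)) M) +
          (SV.prR (fun i => φ (E aT i)) M - φ (SV.prR (fun i => kpr (H i)) M)) := by abel
    rw [e1]
    rw [hη] at hK2
    exact j_op_add (by positivity) (by positivity) (j_op_sub_comm hK2) hd1
  · exact hK3 Ω fun i hi => ⟨hEΩ Ω hΩ a0 i hi, by
      rw [sub_mulVec, hEΩ Ω hΩ aT i hi, hEΩ Ω hΩ a0 i hi, sub_self]⟩
  · exact hK4 Ω fun i hi => ⟨by rw [hEH]; exact hEΩ Ω hΩ a0 i hi, by
      rw [conjTranspose_sub, hEH, hEH, sub_mulVec, hEΩ Ω hΩ aT i hi, hEΩ Ω hΩ a0 i hi, sub_self]⟩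

end gen

end Vale.Agent.P356.SA
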