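import Vale.Agent.P356.SA.FactsBase

/-!
Neighbouring boxes: the mutual information sits in thin strips at the common side, and splits
along the common side.
-/

set_option linter.all false

namespace Vale.Agent.P356.SA

open Matrix Finset Vale.Agent.P356 Vale.Agent.P356.SV Vale.Agent.P356.Path Vale.Agent.P356.NA
open scoped BigOperators ComplexOrder Kronecker

/-- box to the left of the common side -/
theorem sa9_left {L : ℕ} {S : Finset (Site L) → ℝ} {a b C : ℝ} (hS : EntLike S)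
    (hD : Dec S a b C) {s N : ℕ} (hs : 1 ≤ s) (hN1 : 1 ≤ N) (hN : C * (10 * s : ℝ) ^ a ≤ N)
    (hsN : 10 * N ≤ s) {x0 x1 y0 y1 : ℕ} (hx : x0 + s ≤ x1) (hx' : x1 ≤ x0 + 6 * s)
    (hy : y0 + s ≤ y1) (hy' : y1 ≤ y0 + 6 * s) {D : Finset (Site L)}
    (hDx : ∀ p ∈ D, x1 ≤ p.1.val) :
    mi S (rect L x0 x1 y0 y1) D ≤
      mi S (rect L (x1 - N) x1 (y0 + 3 * N) (y1 - 3 * N)) D + 2 * (C * (10 * s : ℝ) ^ a) +
        8 * (C * ((10 * N : ℕ) : ℝ) ^ b) := by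
  set K1 := rect L (x1 - 3 * N) x1 y0 (y0 + 3 * N) with hK1
  set K2 := rect L (x1 - 3 * N) x1 (y1 - 3 * N) y1 with hK2
  set P := rect L (x1 - N) x1 (y0 + 3 * N) (y1 - 3 * N) with hP
  set A₂ := rect L (x1 - 2 * N) (x1 - N) (y0 + 3 * N) (y1 - 3 * N) with hA₂
  set Q := rect L x0 x1 y0 y1 with hQ
  set A₁ := Q \ (K1 ∪ K2 ∪ P ∪ A₂) with hA₁
  have mA₁ : ∀ p ∈ A₁, p ∈ Q ∧ p.1.val < x1 - 2 * N := by
    intro p hp
    rw [hA₁, Finset.mem_sdiff] at hp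
    refine ⟨hp.1, ?_⟩
    have h1 := hp.1
    have h2 := hp.2
    rw [hQ, sa9_mem] at h1
    simp only [Finset.mem_union, not_or] at h2
    obtain ⟨⟨⟨h2, h3⟩, h4⟩, h5⟩ := h2
    rw [hK1, sa9_mem] at h2
    rw [hK2, sa9_mem] at h3
    rw [hP, sa9_mem] at h4
    rw [hA₂, sa9_mem] at h5
    omega
  have hQu : (K1 ∪ K2) ∪ P ∪ A₁ ∪ A₂ = Q := by
    ext p
    constructor
    · intro hp
      simp only [Finset.mem_union] at hp
      rcases hp with (((hp | hp) | hp) | hp) | hp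
      · rw [hK1, sa9_mem] at hp
        rw [hQ, sa9_mem]
        omega
      · rw [hK2, sa9_mem] at hp
        rw [hQ, sa9_mem]
        omega
      · rw [hP, sa9_mem] at hp
        rw [hQ, sa9_mem]
        omega
      · exact (mA₁ p hp).1
      · rw [hA₂, sa9_mem] at hp
        rw [hQ, sa9_mem]
        omega
    · intro hp
      by_cases h : p ∈ K1 ∪ K2 ∪ P ∪ A₂
      · simp only [Finset.mem_union] at h ⊢
        tauto
      · have : p ∈ A₁ := by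
          rw [hA₁, Finset.mem_sdiff]
          exact ⟨hp, h⟩
        simp only [Finset.mem_union]
        tauto
  have hdj : ∀ X : Finset (Site L), X ⊆ K1 ∪ K2 ∪ P ∪ A₂ → Disjoint X A₁ := by
    intro X hX
    rw [hA₁]
    exact Finset.disjoint_sdiff.mono_left hX
  have h1 : Disjoint (K1 ∪ K2) P := by
    rw [Finset.disjoint_left]
    intro p hp hp'
    rw [Finset.mem_union, hK1, hK2, sa9_mem, sa9_mem] at hp
    rw [hP, sa9_mem] at hp'
    omega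
  have h2 : Disjoint (K1 ∪ K2) A₁ := hdj _ (by
    intro p hp
    simp only [Finset.mem_union] at hp ⊢
    tauto)
  have h3 : Disjoint (K1 ∪ K2) A₂ := by
    rw [Finset.disjoint_left]
    intro p hp hp'
    rw [Finset.mem_union, hK1, hK2, sa9_mem, sa9_mem] at hp
    rw [hA₂, sa9_mem] at hp'
    omega
  have h4 : Disjoint P A₁ := hdj _ (by
    intro p hp
    simp only [Finset.mem_union]
    tauto)
  have h5 : Disjoint P A₂ := by
    rw [Finset.disjoint_left]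
    intro p hp hp'
    rw [hP, sa9_mem] at hp
    rw [hA₂, sa9_mem] at hp'
    omega
  have h6 : Disjoint A₁ A₂ := (hdj _ (by
    intro p hp
    simp only [Finset.mem_union]
    tauto)).symm
  have h7 : Disjoint ((K1 ∪ K2) ∪ P ∪ A₁ ∪ A₂) D := by
    rw [hQu, Finset.disjoint_left]
    intro p hp hp'
    rw [hQ, sa9_mem] at hp
    have := hDx p hp'
    omega
  have e1 : mi S A₂ ((K1 ∪ K2) ∪ P ∪ A₁ ∪ A₂)ᶜ ≤ C * (10 * s : ℝ) ^ a := by
    rw [hQu]
    refine sa9_dec hD (x0 := x0) (x1 := x1) (y0 := y0) (y1 := y1) hs hN (by omega) (by omega) ?_ ?_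
    · intro p hp
      rw [hA₂, sa9_mem] at hp
      rw [sa9_mem]
      omega
    · intro p hp p' hp'
      rw [hA₂, sa9_mem] at hp
      rw [Finset.mem_compl, hQ, sa9_mem] at hp'
      unfold dist1
      omega
  have e2 : mi S A₁ (P ∪ D) ≤ C * (10 * s : ℝ) ^ a := by
    refine sa9_dec hD (x0 := x0) (x1 := x1) (y0 := y0) (y1 := y1) hs hN (by omega) (by omega) ?_ ?_
    · intro p hp
      exact (mA₁ p hp).1
    · intro p hp p' hp'
      have h8 := (mA₁ p hp).2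
      rw [Finset.mem_union, hP, sa9_mem] at hp'
      have h9 : x1 - N ≤ p'.1.val := by
        rcases hp' with h | h
        · exact h.1
        · have := hDx p' h
          omega
      unfold dist1
      omega
  have h8 := thin hS h1 h2 h3 h4 h5 h6 h7 e1 e2
  rw [hQu] at h8
  have hKd : Disjoint K1 K2 := by
    rw [Finset.disjoint_left]
    intro p hp hp'
    rw [hK1, sa9_mem] at hp
    rw [hK2, sa9_mem] at hp'
    omega
  have h9 := S_sub hS hKd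
  have h10 : S K1 ≤ C * ((10 * N : ℕ) : ℝ) ^ b := sa9_small hD hN1 (by omega) (by omega)
  have h11 : S K2 ≤ C * ((10 * N : ℕ) : ℝ) ^ b := sa9_small hD hN1 (by omega) (by omega)
  linarith

/-- box to the right of the common side -/
theorem sa9_right {L : ℕ} {S : Finset (Site L) → ℝ} {a b C : ℝ} (hS : EntLike S)
    (hD : Dec S a b C) {s N : ℕ} (hs : 1 ≤ s) (hN1 : 1 ≤ N) (hN : C * (10 * s : ℝ) ^ a ≤ N)
    (hsN : 10 * N ≤ s) {x1 x2 y0 y1 : ℕ} (hx : x1 + s ≤ x2) (hx' : x2 ≤ x1 + 6 * s)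
    (hy : y0 + s ≤ y1) (hy' : y1 ≤ y0 + 6 * s) {D : Finset (Site L)}
    (hDx : ∀ p ∈ D, p.1.val < x1) :
    mi S (rect L x1 x2 y0 y1) D ≤
      mi S (rect L x1 (x1 + N) (y0 + 3 * N) (y1 - 3 * N)) D + 2 * (C * (10 * s : ℝ) ^ a) +
        8 * (C * ((10 * N : ℕ) : ℝ) ^ b) := by
  set K1 := rect L x1 (x1 + 3 * N) y0 (y0 + 3 * N) with hK1
  set K2 := rect L x1 (x1 + 3 * N) (y1 - 3 * N) y1 with hK2
  set P := rect L x1 (x1 + N) (y0 + 3 * N) (y1 - 3 * N) with hP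
  set A₂ := rect L (x1 + N) (x1 + 2 * N) (y0 + 3 * N) (y1 - 3 * N) with hA₂
  set Q := rect L x1 x2 y0 y1 with hQ
  set A₁ := Q \ (K1 ∪ K2 ∪ P ∪ A₂) with hA₁
  have mA₁ : ∀ p ∈ A₁, p ∈ Q ∧ x1 + 2 * N ≤ p.1.val := by
    intro p hp
    rw [hA₁, Finset.mem_sdiff] at hp
    refine ⟨hp.1, ?_⟩
    have h1 := hp.1
    have h2 := hp.2
    rw [hQ, sa9_mem] at h1
    simp only [Finset.mem_union, not_or] at h2
    obtain ⟨⟨⟨h2, h3⟩, h4⟩, h5⟩ := h2
    rw [hK1, sa9_mem] at h2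
    rw [hK2, sa9_mem] at h3
    rw [hP, sa9_mem] at h4
    rw [hA₂, sa9_mem] at h5
    omega
  have hQu : (K1 ∪ K2) ∪ P ∪ A₁ ∪ A₂ = Q := by
    ext p
    constructor
    · intro hp
      simp only [Finset.mem_union] at hp
      rcases hp with (((hp | hp) | hp) | hp) | hp
      · rw [hK1, sa9_mem] at hp
        rw [hQ, sa9_mem]
        omega
      · rw [hK2, sa9_mem] at hp
        rw [hQ, sa9_mem]
        omega
      · rw [hP, sa9_mem] at hp
        rw [hQ, sa9_mem]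
        omega
      · exact (mA₁ p hp).1
      · rw [hA₂, sa9_mem] at hp
        rw [hQ, sa9_mem]
        omega
    · intro hp
      by_cases h : p ∈ K1 ∪ K2 ∪ P ∪ A₂
      · simp only [Finset.mem_union] at h ⊢
        tauto
      · have : p ∈ A₁ := by
          rw [hA₁, Finset.mem_sdiff]
          exact ⟨hp, h⟩
        simp only [Finset.mem_union]
        tauto
  have hdj : ∀ X : Finset (Site L), X ⊆ K1 ∪ K2 ∪ P ∪ A₂ → Disjoint X A₁ := by
    intro X hX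
    rw [hA₁]
    exact Finset.disjoint_sdiff.mono_left hX
  have h1 : Disjoint (K1 ∪ K2) P := by
    rw [Finset.disjoint_left]
    intro p hp hp'
    rw [Finset.mem_union, hK1, hK2, sa9_mem, sa9_mem] at hp
    rw [hP, sa9_mem] at hp'
    omega
  have h2 : Disjoint (K1 ∪ K2) A₁ := hdj _ (by
    intro p hp
    simp only [Finset.mem_union] at hp ⊢
    tauto)
  have h3 : Disjoint (K1 ∪ K2) A₂ := by
    rw [Finset.disjoint_left]
    intro p hp hp'
    rw [Finset.mem_union, hK1, hK2, sa9_mem, sa9_mem] at hp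
    rw [hA₂, sa9_mem] at hp'
    omega
  have h4 : Disjoint P A₁ := hdj _ (by
    intro p hp
    simp only [Finset.mem_union]
    tauto)
  have h5 : Disjoint P A₂ := by
    rw [Finset.disjoint_left]
    intro p hp hp'
    rw [hP, sa9_mem] at hp
    rw [hA₂, sa9_mem] at hp'
    omega
  have h6 : Disjoint A₁ A₂ := (hdj _ (by
    intro p hp
    simp only [Finset.mem_union]
    tauto)).symm
  have h7 : Disjoint ((K1 ∪ K2) ∪ P ∪ A₁ ∪ A₂) D := by
    rw [hQu, Finset.disjoint_left]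
    intro p hp hp'
    rw [hQ, sa9_mem] at hp
    have := hDx p hp'
    omega
  have e1 : mi S A₂ ((K1 ∪ K2) ∪ P ∪ A₁ ∪ A₂)ᶜ ≤ C * (10 * s : ℝ) ^ a := by
    rw [hQu]
    refine sa9_dec hD (x0 := x1) (x1 := x2) (y0 := y0) (y1 := y1) hs hN (by omega) (by omega) ?_ ?_
    · intro p hp
      rw [hA₂, sa9_mem] at hp
      rw [sa9_mem]
      omega
    · intro p hp p' hp'
      rw [hA₂, sa9_mem] at hp
      rw [Finset.mem_compl, hQ, sa9_mem] at hp'
      unfold dist1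
      omega
  have e2 : mi S A₁ (P ∪ D) ≤ C * (10 * s : ℝ) ^ a := by
    refine sa9_dec hD (x0 := x1) (x1 := x2) (y0 := y0) (y1 := y1) hs hN (by omega) (by omega) ?_ ?_
    · intro p hp
      exact (mA₁ p hp).1
    · intro p hp p' hp'
      have h8 := (mA₁ p hp).2
      rw [Finset.mem_union, hP, sa9_mem] at hp'
      have h9 : p'.1.val < x1 + N := by
        rcases hp' with h | h
        · exact h.2.1
        · have := hDx p' h
          omega
      unfold dist1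
      omega
  have h8 := thin hS h1 h2 h3 h4 h5 h6 h7 e1 e2
  rw [hQu] at h8
  have hKd : Disjoint K1 K2 := by
    rw [Finset.disjoint_left]
    intro p hp hp'
    rw [hK1, sa9_mem] at hp
    rw [hK2, sa9_mem] at hp'
    omega
  have h9 := S_sub hS hKd
  have h10 : S K1 ≤ C * ((10 * N : ℕ) : ℝ) ^ b := sa9_small hD hN1 (by omega) (by omega)
  have h11 : S K2 ≤ C * ((10 * N : ℕ) : ℝ) ^ b := sa9_small hD hN1 (by omega) (by omega)
  linarith

/-- both sides -/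
theorem sa9_both {L : ℕ} {S : Finset (Site L) → ℝ} {a b C : ℝ} (hS : EntLike S)
    (hD : Dec S a b C) {s N : ℕ} (hs : 1 ≤ s) (hN1 : 1 ≤ N) (hN : C * (10 * s : ℝ) ^ a ≤ N)
    (hsN : 10 * N ≤ s) {x0 x1 x2 y0 y1 : ℕ} (hx : x0 + s ≤ x1) (hx' : x1 ≤ x0 + 6 * s)
    (hz : x1 + s ≤ x2) (hz' : x2 ≤ x1 + 6 * s) (hy : y0 + s ≤ y1) (hy' : y1 ≤ y0 + 6 * s) :
    mi S (rect L x0 x1 y0 y1) (rect L x1 x2 y0 y1) ≤
      mi S (rect L (x1 - N) x1 (y0 + 3 * N) (y1 - 3 * N))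
        (rect L x1 (x1 + N) (y0 + 3 * N) (y1 - 3 * N)) + 4 * (C * (10 * s : ℝ) ^ a) +
        16 * (C * ((10 * N : ℕ) : ℝ) ^ b) := by
  have h1 := sa9_left hS hD hs hN1 hN hsN hx hx' hy hy' (D := rect L x1 x2 y0 y1) (by
    intro p hp
    rw [sa9_mem] at hp
    exact hp.1)
  have h2 := sa9_right hS hD hs hN1 hN hsN hz hz' hy hy'
    (D := rect L (x1 - N) x1 (y0 + 3 * N) (y1 - 3 * N)) (by
    intro p hp
    rw [sa9_mem] at hp
    exact hp.2.1)
  rw [mi_comm (rect L x1 x2 y0 y1), mi_comm (rect L x1 (x1 + N) _ _)] at h2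
  linarith

/-- trivial bound for small boxes -/
theorem sa9_triv {L : ℕ} {S : Finset (Site L) → ℝ} {a b C s1 : ℝ} (hC : 0 < C)
    (hS : EntLike S) (hD : Dec S a b C) {s : ℕ} (hs1 : (s : ℝ) ^ 2 ≤ s1) {x0 x1 y0 y1 : ℕ}
    (hx' : x1 ≤ x0 + 6 * s) (hy' : y1 ≤ y0 + 6 * s) {D : Finset (Site L)}
    (hDx : Disjoint (rect L x0 x1 y0 y1) D) :
    mi S (rect L x0 x1 y0 y1) D ≤ 72 * C * s1 := by
  have h1 := mi_le hS hDx
  have h2 := hD.card (rect L x0 x1 y0 y1)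
  have h3 : (rect L x0 x1 y0 y1).card ≤ (6 * s) * (6 * s) := by
    refine sa9_card.trans (Nat.mul_le_mul (by omega) (by omega))
  have h4 : ((rect L x0 x1 y0 y1).card : ℝ) ≤ (6 * s) * (6 * s) := by exact_mod_cast h3
  have h5 := mul_le_mul_of_nonneg_left h4 hC.le
  have h6 : C * ((6 * s : ℝ) * (6 * s)) ≤ 36 * C * s1 := by nlinarith
  linarith

theorem sa9_lr {L x0 x1 x2 y0 y1 y2 y3 : ℕ} :
    Disjoint (rect L x0 x1 y0 y1) (rect L x1 x2 y2 y3) := by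
  rw [Finset.disjoint_left]
  intro p hp hp'
  rw [sa9_mem] at hp hp'
  omega

/-- 9a -/
theorem nbr_thin {a b C : ℝ} (ha : 0 < a) (ha1 : a < 1) (hb : 1 ≤ b) (hab : a * b < 1)
    (hC : 0 < C) : ∃ C' : ℝ, 0 < C' ∧ ∀ (L : ℕ) (S : Finset (Site L) → ℝ), EntLike S →
      Dec S a b C → ∀ s x0 x1 x2 y0 y1 N : ℕ, 1 ≤ s → Side s x0 x1 → Side s x1 x2 → Side s y0 y1 →
      x2 ≤ L → y1 ≤ L → C * (10 * s : ℝ) ^ a ≤ N → (N : ℝ) ≤ C * (10 * s : ℝ) ^ a + 1 →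
      mi S (rect L x0 x1 y0 y1) (rect L x1 x2 y0 y1) ≤
        mi S (rect L (x1 - N) x1 (y0 + 3 * N) (y1 - 3 * N))
          (rect L x1 (x1 + N) (y0 + 3 * N) (y1 - 3 * N)) + C' * (s : ℝ) ^ (a * b) := by
  obtain ⟨c1, s1, hc1, hs1, hnum⟩ := sa9_nums ha ha1 hb hC
  refine ⟨20 * c1 + 72 * C * s1, by positivity, ?_⟩
  intro L S hS hD s x0 x1 x2 y0 y1 N hs hx hz hy _ _ hN hN'
  obtain ⟨n1, n2, n3, n4⟩ := hnum s N hs hN hN'
  have hsr : (1 : ℝ) ≤ s := by exact_mod_cast hs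
  have hab0 : 0 < a * b := mul_pos ha (by linarith)
  have h1s : (1 : ℝ) ≤ (s : ℝ) ^ (a * b) := Real.one_le_rpow hsr hab0.le
  rw [add_mul]
  by_cases hsN : s < 10 * N
  · have h1 := sa9_triv hC hS hD (n4 hsN) (x0 := x0) (x1 := x1) (y0 := y0) (y1 := y1)
      hx.2 hy.2 (D := rect L x1 x2 y0 y1) sa9_lr
    have h2 : 0 ≤ mi S (rect L (x1 - N) x1 (y0 + 3 * N) (y1 - 3 * N))
        (rect L x1 (x1 + N) (y0 + 3 * N) (y1 - 3 * N)) := mi_nonneg hS sa9_lr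
    have h3 : 72 * C * s1 ≤ 72 * C * s1 * (s : ℝ) ^ (a * b) :=
      le_mul_of_one_le_right (by positivity) h1s
    have h4 : 0 ≤ 20 * c1 * (s : ℝ) ^ (a * b) := by positivity
    linarith
  · have h1 := sa9_both hS hD hs n1 hN (by omega) hx.1 hx.2 hz.1 hz.2 hy.1 hy.2
    have h4 : 0 ≤ 72 * C * s1 * (s : ℝ) ^ (a * b) := by positivity
    have h5 : 20 * c1 * (s : ℝ) ^ (a * b) = 4 * (c1 * (s : ℝ) ^ (a * b)) +
      16 * (c1 * (s : ℝ) ^ (a * b)) := by ring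
    linarith

/-- 9b -/
theorem nbr_thin' {a b C : ℝ} (ha : 0 < a) (ha1 : a < 1) (hb : 1 ≤ b) (hab : a * b < 1)
    (hC : 0 < C) : ∃ C' : ℝ, 0 < C' ∧ ∀ (L : ℕ) (S : Finset (Site L) → ℝ), EntLike S →
      Dec S a b C → ∀ s x0 x1 y0 y1 y2 N : ℕ, 1 ≤ s → Side s x0 x1 → Side s y0 y1 → Side s y1 y2 →
      x1 ≤ L → y2 ≤ L → C * (10 * s : ℝ) ^ a ≤ N → (N : ℝ) ≤ C * (10 * s : ℝ) ^ a + 1 →
      mi S (rect L x0 x1 y0 y1) (rect L x0 x1 y1 y2) ≤
        mi S (rect L (x0 + 3 * N) (x1 - 3 * N) (y1 - N) y1)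
          (rect L (x0 + 3 * N) (x1 - 3 * N) y1 (y1 + N)) + C' * (s : ℝ) ^ (a * b) := by
  obtain ⟨C', hC', h⟩ := nbr_thin ha ha1 hb hab hC
  refine ⟨C', hC', ?_⟩
  intro L S hS hD s x0 x1 y0 y1 y2 N hs hx hy hz h1 h2 hN hN'
  have h3 := h L (fun A => S (tr A)) (tr_ent hS) (tr_dec hD) s y0 y1 y2 x0 x1 N hs hy hz hx h2 h1
    hN hN'
  simp only [tr_mi, tr_rect] at h3
  exact h3

/-- 9e, vertical common side -/
theorem sa9_split {a b C : ℝ} (ha : 0 < a) (ha1 : a < 1) (hb : 1 ≤ b) (hab : a * b < 1)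
    (hC : 0 < C) : ∃ C' : ℝ, 0 < C' ∧ ∀ (L : ℕ) (S : Finset (Site L) → ℝ), EntLike S →
      Dec S a b C → ∀ s x0 u0 x1 u2 x2 y0 y y1 : ℕ, 1 ≤ s → x0 ≤ u0 → u2 ≤ x2 →
      u0 + s ≤ x1 → x1 + s ≤ u2 → y0 + s ≤ y → y + s ≤ y1 → x1 ≤ x0 + 6 * s → x2 ≤ x1 + 6 * s →
      y1 ≤ y0 + 6 * s →
      mi S (rect L x0 x1 y0 y1) (rect L x1 x2 y0 y1) ≤
        mi S (rect L u0 x1 y0 y) (rect L x1 u2 y0 y) +
          mi S (rect L u0 x1 y y1) (rect L x1 u2 y y1) + C' * (s : ℝ) ^ (a * b) := by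
  obtain ⟨c1, s1, hc1, hs1, hnum⟩ := sa9_nums ha ha1 hb hC
  refine ⟨25 * c1 + 72 * C * s1, by positivity, ?_⟩
  intro L S hS hD s x0 u0 x1 u2 x2 y0 y y1 hs hu0 hu2 g1 g2 g3 g4 g5 g6 g7
  set N := ⌈C * (10 * s : ℝ) ^ a⌉₊ with hNdef
  have hN : C * (10 * s : ℝ) ^ a ≤ N := Nat.le_ceil _
  have hN' : (N : ℝ) ≤ C * (10 * s : ℝ) ^ a + 1 :=
    (Nat.ceil_lt_add_one (by positivity)).le
  obtain ⟨n1, n2, n3, n4⟩ := hnum s N hs hN hN'
  have hsr : (1 : ℝ) ≤ s := by exact_mod_cast hs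
  have hab0 : 0 < a * b := mul_pos ha (by linarith)
  have h1s : (1 : ℝ) ≤ (s : ℝ) ^ (a * b) := Real.one_le_rpow hsr hab0.le
  rw [add_mul]
  by_cases hsN : s < 10 * N
  · have h1 := sa9_triv hC hS hD (n4 hsN) (x0 := x0) (x1 := x1) (y0 := y0) (y1 := y1)
      g5 g7 (D := rect L x1 x2 y0 y1) sa9_lr
    have h2 : 0 ≤ mi S (rect L u0 x1 y0 y) (rect L x1 u2 y0 y) := mi_nonneg hS sa9_lr
    have h2' : 0 ≤ mi S (rect L u0 x1 y y1) (rect L x1 u2 y y1) := mi_nonneg hS sa9_lr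
    have h3 : 72 * C * s1 ≤ 72 * C * s1 * (s : ℝ) ^ (a * b) :=
      le_mul_of_one_le_right (by positivity) h1s
    have h4 : 0 ≤ 25 * c1 * (s : ℝ) ^ (a * b) := by positivity
    linarith
  · have h1 := sa9_both hS hD hs n1 hN (by omega) (x0 := x0) (x1 := x1) (x2 := x2) (y0 := y0)
      (y1 := y1) (by omega) g5 (by omega) g6 (by omega) g7
    set P := rect L (x1 - N) x1 (y0 + 3 * N) (y1 - 3 * N) with hP
    set P' := rect L x1 (x1 + N) (y0 + 3 * N) (y1 - 3 * N) with hP'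
    set P₁ := rect L (x1 - N) x1 (y0 + 3 * N) (y - 3 * N) with hP₁
    set P₁' := rect L x1 (x1 + N) (y0 + 3 * N) (y - 3 * N) with hP₁'
    set P₂ := rect L (x1 - N) x1 (y + 3 * N) (y1 - 3 * N) with hP₂
    set P₂' := rect L x1 (x1 + N) (y + 3 * N) (y1 - 3 * N) with hP₂'
    set M := rect L (x1 - N) x1 (y - 3 * N) (y + 3 * N) with hM
    set M' := rect L x1 (x1 + N) (y - 3 * N) (y + 3 * N) with hM'
    have eP : P = (P₁ ∪ P₂) ∪ M := by
      ext p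
      rw [Finset.mem_union, Finset.mem_union, hP, hP₁, hP₂, hM, sa9_mem, sa9_mem, sa9_mem, sa9_mem]
      omega
    have eP' : P' = (P₁' ∪ P₂') ∪ M' := by
      ext p
      rw [Finset.mem_union, Finset.mem_union, hP', hP₁', hP₂', hM', sa9_mem, sa9_mem, sa9_mem,
        sa9_mem]
      omega
    have dM : Disjoint (P₁ ∪ P₂) M := by
      rw [Finset.disjoint_left]
      intro p hp hp'
      rw [Finset.mem_union, hP₁, hP₂, sa9_mem, sa9_mem] at hp
      rw [hM, sa9_mem] at hp'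
      omega
    have dM' : Disjoint (P₁' ∪ P₂') M' := by
      rw [Finset.disjoint_left]
      intro p hp hp'
      rw [Finset.mem_union, hP₁', hP₂', sa9_mem, sa9_mem] at hp
      rw [hM', sa9_mem] at hp'
      omega
    have t1 : mi S P P' ≤ mi S (P₁ ∪ P₂) P' + 2 * S M := by
      rw [eP]
      refine mi_drop hS ?_ dM
      rw [← eP]
      exact sa9_lr
    have t2 : mi S P' (P₁ ∪ P₂) ≤ mi S (P₁' ∪ P₂') (P₁ ∪ P₂) + 2 * S M' := by
      rw [eP']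
      refine mi_drop hS ?_ dM'
      rw [← eP', Finset.disjoint_union_right]
      exact ⟨sa9_lr.symm, sa9_lr.symm⟩
    rw [mi_comm P', mi_comm (P₁' ∪ P₂')] at t2
    have t3 : S M ≤ C * ((10 * N : ℕ) : ℝ) ^ b := sa9_small hD n1 (by omega) (by omega)
    have t4 : S M' ≤ C * ((10 * N : ℕ) : ℝ) ^ b := sa9_small hD n1 (by omega) (by omega)
    have t5 : mi S (P₁ ∪ P₁') (P₂ ∪ P₂') ≤ C * (10 * s : ℝ) ^ a := by
      refine sa9_dec hD (x0 := x1 - N) (x1 := x1 + N) (y0 := y0) (y1 := y1) hs hN (by omega)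
        (by omega) ?_ ?_
      · intro p hp
        rw [Finset.mem_union, hP₁, hP₁', sa9_mem, sa9_mem] at hp
        rw [sa9_mem]
        omega
      · intro p hp p' hp'
        rw [Finset.mem_union, hP₁, hP₁', sa9_mem, sa9_mem] at hp
        rw [Finset.mem_union, hP₂, hP₂', sa9_mem, sa9_mem] at hp'
        unfold dist1
        omega
    have d12 : Disjoint P₁ P₂ := by
      rw [Finset.disjoint_left]
      intro p hp hp'
      rw [hP₁, sa9_mem] at hp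
      rw [hP₂, sa9_mem] at hp'
      omega
    have d12' : Disjoint P₁' P₂' := by
      rw [Finset.disjoint_left]
      intro p hp hp'
      rw [hP₁', sa9_mem] at hp
      rw [hP₂', sa9_mem] at hp'
      omega
    have t6 := S_sub hS d12
    have t7 := S_sub hS d12'
    have t8 : mi S (P₁ ∪ P₂) (P₁' ∪ P₂') ≤ mi S P₁ P₁' + mi S P₂ P₂' + C * (10 * s : ℝ) ^ a := by
      unfold mi at t5 ⊢
      have e : P₁ ∪ P₁' ∪ (P₂ ∪ P₂') = P₁ ∪ P₂ ∪ (P₁' ∪ P₂') := by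
        ext p
        simp only [Finset.mem_union]
        tauto
      rw [e] at t5
      linarith
    have t9 : mi S P₁ P₁' ≤ mi S (rect L u0 x1 y0 y) (rect L x1 u2 y0 y) := by
      refine mi_mono2 hS sa9_lr ?_ ?_
      · intro p hp
        rw [hP₁, sa9_mem] at hp
        rw [sa9_mem]
        omega
      · intro p hp
        rw [hP₁', sa9_mem] at hp
        rw [sa9_mem]
        omega
    have t10 : mi S P₂ P₂' ≤ mi S (rect L u0 x1 y y1) (rect L x1 u2 y y1) := by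
      refine mi_mono2 hS sa9_lr ?_ ?_
      · intro p hp
        rw [hP₂, sa9_mem] at hp
        rw [sa9_mem]
        omega
      · intro p hp
        rw [hP₂', sa9_mem] at hp
        rw [sa9_mem]
        omega
    have h4 : 0 ≤ 72 * C * s1 * (s : ℝ) ^ (a * b) := by positivity
    have h5 : 25 * c1 * (s : ℝ) ^ (a * b) = 5 * (c1 * (s : ℝ) ^ (a * b)) +
      20 * (c1 * (s : ℝ) ^ (a * b)) := by ring
    linarith

/-- 9e -/
theorem side_split {a b C : ℝ} (ha : 0 < a) (ha1 : a < 1) (hb : 1 ≤ b) (hab : a * b < 1)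
    (hC : 0 < C) : ∃ C' : ℝ, 0 < C' ∧ ∀ (L : ℕ) (S : Finset (Site L) → ℝ), EntLike S →
      Dec S a b C → ∀ s x0 u0 x1 u2 x2 y0 y y1 : ℕ, 1 ≤ s → x0 ≤ u0 → u2 ≤ x2 →
      u0 + s ≤ x1 → x1 + s ≤ u2 → y0 + s ≤ y → y + s ≤ y1 → x1 ≤ x0 + 6 * s → x2 ≤ x1 + 6 * s →
      y1 ≤ y0 + 6 * s → x2 ≤ L → y1 ≤ L →
      (mi S (rect L x0 x1 y0 y1) (rect L x1 x2 y0 y1) ≤
        mi S (rect L u0 x1 y0 y) (rect L x1 u2 y0 y) +
          mi S (rect L u0 x1 y y1) (rect L x1 u2 y y1) + C' * (s : ℝ) ^ (a * b)) ∧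
      (mi S (rect L y0 y1 x0 x1) (rect L y0 y1 x1 x2) ≤
        mi S (rect L y0 y u0 x1) (rect L y0 y x1 u2) +
          mi S (rect L y y1 u0 x1) (rect L y y1 x1 u2) + C' * (s : ℝ) ^ (a * b)) := by
  obtain ⟨C', hC', h⟩ := sa9_split ha ha1 hb hab hC
  refine ⟨C', hC', ?_⟩
  intro L S hS hD s x0 u0 x1 u2 x2 y0 y y1 hs hu0 hu2 g1 g2 g3 g4 g5 g6 g7 _ _
  refine ⟨h L S hS hD s x0 u0 x1 u2 x2 y0 y y1 hs hu0 hu2 g1 g2 g3 g4 g5 g6 g7, ?_⟩
  have h3 := h L (fun A => S (tr A)) (tr_ent hS) (tr_dec hD) s x0 u0 x1 u2 x2 y0 y y1 hs hu0 hu2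
    g1 g2 g3 g4 g5 g6 g7
  simp only [tr_mi, tr_rect] at h3
  exact h3

end Vale.Agent.P356.SA
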