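import Vale.Agent.P356.SA.Thin
import Mathlib.Analysis.SpecialFunctions.Pow.Real

/-!
Preparations for the boxes: numbers, decoupling of sets in a box, transposition of the lattice.
-/

set_option linter.all false

namespace Vale.Agent.P356.SA

open Matrix Finset Vale.Agent.P356 Vale.Agent.P356.SV Vale.Agent.P356.Path Vale.Agent.P356.NA
open scoped BigOperators ComplexOrder Kronecker

/-- membership in a rectangle -/
theorem sa9_mem {L x0 x1 y0 y1 : ℕ} (p : Site L) :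
    p ∈ rect L x0 x1 y0 y1 ↔ x0 ≤ p.1.val ∧ p.1.val < x1 ∧ y0 ≤ p.2.val ∧ p.2.val < y1 := by
  unfold rect
  simp only [Finset.mem_filter, Finset.mem_univ, true_and]

theorem sa9_card {L x0 x1 y0 y1 : ℕ} : (rect L x0 x1 y0 y1).card ≤ (x1 - x0) * (y1 - y0) := by
  have h1 : (rect L x0 x1 y0 y1).card ≤ ((Finset.Ico x0 x1) ×ˢ (Finset.Ico y0 y1)).card := by
    refine Finset.card_le_card_of_injOn (fun p => (p.1.val, p.2.val)) ?_ ?_
    · intro p hp
      have hp' := (sa9_mem p).mp (Finset.mem_coe.mp hp)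
      simp only [Finset.coe_product, Set.mem_prod, Finset.mem_coe, Finset.mem_Ico]
      exact ⟨⟨hp'.1, hp'.2.1⟩, hp'.2.2.1, hp'.2.2.2⟩
    · intro p _ p' _ h
      simp only [Prod.mk.injEq] at h
      exact Prod.ext (Fin.ext h.1) (Fin.ext h.2)
  rwa [Finset.card_product, Nat.card_Ico, Nat.card_Ico] at h1

/-- decoupling of two sets at distance `N` -/
theorem sa9_dec {L : ℕ} {S : Finset (Site L) → ℝ} {a b C : ℝ} (hD : Dec S a b C) {s N : ℕ}
    (hs : 1 ≤ s) (hN : C * (10 * s : ℝ) ^ a ≤ N) {x0 x1 y0 y1 : ℕ} (hx : x1 ≤ x0 + 10 * s)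
    (hy : y1 ≤ y0 + 10 * s) {X Y : Finset (Site L)} (hX : X ⊆ rect L x0 x1 y0 y1)
    (hd : ∀ x ∈ X, ∀ y ∈ Y, N ≤ dist1 x y) : mi S X Y ≤ C * (10 * s : ℝ) ^ a := by
  have e : ((10 * s : ℕ) : ℝ) = 10 * (s : ℝ) := by push_cast; ring
  have h1 := hD.dec (10 * s) x0 x1 y0 y1 (by omega) hx hy X Y hX (by
    intro x hx y hy
    rw [e]
    exact hN.trans (by exact_mod_cast hd x hx y hy))
  rwa [e] at h1

/-- the numbers -/
theorem sa9_nums {a b C : ℝ} (ha : 0 < a) (ha1 : a < 1) (hb : 1 ≤ b) (hC : 0 < C) :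
    ∃ c1 s1 : ℝ, 1 ≤ c1 ∧ 0 < s1 ∧ ∀ s N : ℕ, 1 ≤ s → C * (10 * s : ℝ) ^ a ≤ N →
      (N : ℝ) ≤ C * (10 * s : ℝ) ^ a + 1 →
      1 ≤ N ∧ C * (10 * s : ℝ) ^ a ≤ c1 * (s : ℝ) ^ (a * b) ∧
      C * ((10 * N : ℕ) : ℝ) ^ b ≤ c1 * (s : ℝ) ^ (a * b) ∧
      (s < 10 * N → (s : ℝ) ^ 2 ≤ s1) := by
  set c0 : ℝ := C * 10 ^ a + 1 with hc0
  have h10 : (1 : ℝ) ≤ 10 ^ a := Real.one_le_rpow (by norm_num) ha.le
  have hc0p : 1 ≤ c0 := by
    have : 0 ≤ C * 10 ^ a := by positivity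
    linarith
  refine ⟨c0 + C * (10 * c0) ^ b, ((10 * c0) ^ (1 / (1 - a))) ^ 2, ?_, by positivity, ?_⟩
  · have : 0 ≤ C * (10 * c0) ^ b := by positivity
    linarith
  intro s N hs hN1 hN2
  have hs1 : (1 : ℝ) ≤ s := by exact_mod_cast hs
  have hs0 : (0 : ℝ) < s := by linarith
  have hsa : (1 : ℝ) ≤ (s : ℝ) ^ a := Real.one_le_rpow hs1 ha.le
  have e1 : (10 * s : ℝ) ^ a = 10 ^ a * (s : ℝ) ^ a := Real.mul_rpow (by norm_num) hs0.le
  have hNle : (N : ℝ) ≤ c0 * (s : ℝ) ^ a := by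
    rw [e1] at hN2
    rw [hc0]
    nlinarith
  have hNpos : (0 : ℝ) < N := by
    have : 0 < C * (10 * s : ℝ) ^ a := by positivity
    linarith
  have hsab : (s : ℝ) ^ a ≤ (s : ℝ) ^ (a * b) :=
    Real.rpow_le_rpow_of_exponent_le hs1 (by nlinarith)
  have hsab0 : (0 : ℝ) < (s : ℝ) ^ (a * b) := by positivity
  refine ⟨by exact_mod_cast hNpos, ?_, ?_, ?_⟩
  · rw [e1]
    have h1 : C * (10 ^ a * (s : ℝ) ^ a) ≤ c0 * (s : ℝ) ^ (a * b) := by
      have h2 : C * (10 ^ a * (s : ℝ) ^ a) = (C * 10 ^ a) * (s : ℝ) ^ a := by ring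
      rw [h2]
      refine mul_le_mul (by linarith) hsab (by positivity) (by linarith)
    have h3 : 0 ≤ C * (10 * c0) ^ b * (s : ℝ) ^ (a * b) := by positivity
    rw [add_mul]
    linarith
  · have h1 : (((10 * N : ℕ) : ℝ)) ^ b ≤ ((10 * c0) * (s : ℝ) ^ a) ^ b := by
      refine Real.rpow_le_rpow (by positivity) ?_ (by linarith)
      push_cast
      nlinarith
    have h2 : ((10 * c0) * (s : ℝ) ^ a) ^ b = (10 * c0) ^ b * (s : ℝ) ^ (a * b) := by
      rw [Real.mul_rpow (by positivity) (by positivity), ← Real.rpow_mul hs0.le]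
    rw [h2] at h1
    have h3 := mul_le_mul_of_nonneg_left h1 hC.le
    have h4 : 0 ≤ c0 * (s : ℝ) ^ (a * b) := by positivity
    rw [add_mul]
    linarith
  · intro hsN
    have h1 : (s : ℝ) ≤ 10 * c0 * (s : ℝ) ^ a := by
      have : (s : ℝ) ≤ 10 * N := by exact_mod_cast hsN.le
      nlinarith
    have h2 : (s : ℝ) ^ (1 - a) ≤ 10 * c0 := by
      rw [Real.rpow_sub hs0, Real.rpow_one, div_le_iff₀ (by positivity)]
      exact h1
    have h3 : (s : ℝ) ≤ (10 * c0) ^ (1 / (1 - a)) := by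
      have h4 : ((s : ℝ) ^ (1 - a)) ^ (1 / (1 - a)) ≤ (10 * c0) ^ (1 / (1 - a)) :=
        Real.rpow_le_rpow (by positivity) h2 (by
          have : 0 < 1 - a := by linarith
          positivity)
      rw [← Real.rpow_mul hs0.le, mul_one_div_cancel (by linarith), Real.rpow_one] at h4
      exact h4
    exact pow_le_pow_left₀ hs0.le h3 2

/-- entropy of a small square -/
theorem sa9_small {L : ℕ} {S : Finset (Site L) → ℝ} {a b C : ℝ} (hD : Dec S a b C) {N : ℕ}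
    (hN : 1 ≤ N) {x0 x1 y0 y1 : ℕ} (hx : x1 ≤ x0 + 10 * N) (hy : y1 ≤ y0 + 10 * N) :
    S (rect L x0 x1 y0 y1) ≤ C * ((10 * N : ℕ) : ℝ) ^ b :=
  hD.near (10 * N) x0 x1 y0 y1 (by omega) hx hy

/-! ### transposition -/

/-- transposed set -/
def tr {L : ℕ} (B : Finset (Site L)) : Finset (Site L) := B.map (Equiv.prodComm _ _).toEmbedding

theorem tr_mem {L : ℕ} (B : Finset (Site L)) (p : Site L) : p ∈ tr B ↔ (p.2, p.1) ∈ B := by
  unfold tr
  rw [Finset.mem_map]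
  constructor
  · rintro ⟨q, hq, rfl⟩
    exact hq
  · intro h
    exact ⟨(p.2, p.1), h, rfl⟩

theorem tr_rect (L x0 x1 y0 y1 : ℕ) : tr (rect L x0 x1 y0 y1) = rect L y0 y1 x0 x1 := by
  ext p
  rw [tr_mem, sa9_mem, sa9_mem]
  tauto

theorem tr_tr {L : ℕ} (B : Finset (Site L)) : tr (tr B) = B := by
  ext p
  rw [tr_mem, tr_mem]

theorem tr_union {L : ℕ} (A B : Finset (Site L)) : tr (A ∪ B) = tr A ∪ tr B := by
  ext p
  simp only [tr_mem, Finset.mem_union]

theorem tr_empty {L : ℕ} : tr (∅ : Finset (Site L)) = ∅ := by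
  unfold tr
  exact Finset.map_empty _

theorem tr_compl {L : ℕ} (A : Finset (Site L)) : tr Aᶜ = (tr A)ᶜ := by
  ext p
  simp only [tr_mem, Finset.mem_compl]

theorem tr_disj {L : ℕ} {A B : Finset (Site L)} (h : Disjoint A B) : Disjoint (tr A) (tr B) := by
  rw [Finset.disjoint_left] at h ⊢
  intro p hp hp'
  rw [tr_mem] at hp hp'
  exact h hp hp'

theorem tr_card {L : ℕ} (A : Finset (Site L)) : (tr A).card = A.card := Finset.card_map _

theorem tr_ent {L : ℕ} {S : Finset (Site L) → ℝ} (hS : EntLike S) :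
    EntLike (fun A => S (tr A)) where
  empty := by
    show S (tr ∅) = 0
    rw [tr_empty, hS.empty]
  nonneg := fun B => hS.nonneg _
  compl := fun B => by
    show S (tr Bᶜ) = S (tr B)
    rw [tr_compl, hS.compl]
  ssa := fun A B D h1 h2 h3 => by
    show S (tr B) + S (tr (A ∪ B ∪ D)) ≤ S (tr (A ∪ B)) + S (tr (B ∪ D))
    rw [tr_union, tr_union, tr_union]
    exact hS.ssa _ _ _ (tr_disj h1) (tr_disj h2) (tr_disj h3)

theorem tr_dec {L : ℕ} {S : Finset (Site L) → ℝ} {a b C : ℝ} (hD : Dec S a b C) :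
    Dec (fun A => S (tr A)) a b C where
  card := fun B => by
    show S (tr B) ≤ C * B.card
    rw [← tr_card]
    exact hD.card _
  near := fun l x0 x1 y0 y1 hl hx hy => by
    show S (tr (rect L x0 x1 y0 y1)) ≤ _
    rw [tr_rect]
    exact hD.near l y0 y1 x0 x1 hl hy hx
  dec := fun l x0 x1 y0 y1 hl hx hy X Y hX hd => by
    have h1 := hD.dec l y0 y1 x0 x1 hl hy hx (tr X) (tr Y) (by
      intro p hp
      rw [tr_mem] at hp
      have := hX hp
      rw [sa9_mem] at this ⊢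
      tauto) (by
      intro x hx y hy
      rw [tr_mem] at hx hy
      have h2 := hd _ hx _ hy
      have e : dist1 ((x.2, x.1) : Site L) (y.2, y.1) = dist1 x y := by
        unfold dist1
        exact Nat.add_comm _ _
      rwa [e] at h2)
    unfold mi at h1 ⊢
    rw [← tr_union] at h1
    exact h1

theorem tr_mi {L : ℕ} (S : Finset (Site L) → ℝ) (A B : Finset (Site L)) :
    mi (fun A => S (tr A)) A B = mi S (tr A) (tr B) := by
  unfold mi
  rw [← tr_union]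

end Vale.Agent.P356.SA
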