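import Vale.Agent.P356.SA.Grid679

/-!
Changing the colour of one box.
-/

set_option linter.all false

namespace Vale.Agent.P356.SA

open Matrix Finset Vale.Agent.P356 Vale.Agent.P356.SV Vale.Agent.P356.Path Vale.Agent.P356.NA
open scoped BigOperators ComplexOrder Kronecker

variable {L s : ℕ}

theorem gBox_left {z : ℕ × ℕ} (h : 1 ≤ z.1) :
    rect L (gE L s (z.1 - 1)) (gE L s z.1) (gE L s z.2) (gE L s (z.2 + 1)) =
      gBox L s (z.1 - 1, z.2) := by
  unfold gBox
  simp only
  rw [Nat.sub_add_cancel h]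

theorem gBox_down {z : ℕ × ℕ} (h : 1 ≤ z.2) :
    rect L (gE L s z.1) (gE L s (z.1 + 1)) (gE L s (z.2 - 1)) (gE L s z.2) =
      gBox L s (z.1, z.2 - 1) := by
  unfold gBox
  simp only
  rw [Nat.sub_add_cancel h]

theorem gBox_left0 {z : ℕ × ℕ} (h : ¬ 1 ≤ z.1) :
    rect L (gE L s (z.1 - 1)) (gE L s z.1) (gE L s z.2) (gE L s (z.2 + 1)) = ∅ := by
  rw [Finset.eq_empty_iff_forall_notMem]
  intro p hp
  rw [b8_mem] at hp
  have h0 : z.1 = 0 := by omega
  rw [h0] at hp
  simp only [Nat.zero_sub] at hp
  omega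

theorem gBox_down0 {z : ℕ × ℕ} (h : ¬ 1 ≤ z.2) :
    rect L (gE L s z.1) (gE L s (z.1 + 1)) (gE L s (z.2 - 1)) (gE L s z.2) = ∅ := by
  rw [Finset.eq_empty_iff_forall_notMem]
  intro p hp
  rw [b8_mem] at hp
  have h0 : z.2 = 0 := by omega
  rw [h0] at hp
  simp only [Nat.zero_sub] at hp
  omega

theorem gE_bd0 (hs : 1 ≤ s) {i : ℕ} (hi : i < L / s) :
    gE L s i = 0 ∨ Side s (gE L s (i - 1)) (gE L s i) := by
  by_cases h : 1 ≤ i
  · right
    have := gE_Side hs (i := i - 1) (L := L) (by omega)
    rwa [Nat.sub_add_cancel h] at this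
  · left
    have h0 : i = 0 := by omega
    rw [gE_lt hi, h0, zero_mul]

theorem gE_bd1 (hs : 1 ≤ s) (i : ℕ) :
    gE L s (i + 1) = L ∨ Side s (gE L s (i + 1)) (gE L s (i + 2)) := by
  by_cases h : i + 1 < L / s
  · right
    exact gE_Side hs h
  · left
    exact gE_ge (by omega)

/-- colouring one box -/
theorem flip_up {a C : ℝ} {S : Finset (Site L) → ℝ} (hS : EntLike S) (hL : Loc S a C)
    (hs : 1 ≤ s) (hsL : s ≤ L) (c : ℕ × ℕ → Bool) (z : ℕ × ℕ) (hz : z ∈ gT L s)
    (hc : c z = false) :
    S (gReg L s (Function.update c z true)) - gF S s (Function.update c z true) ≤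
      S (gReg L s c) - gF S s c + C * (s : ℝ) ^ a := by
  have hz' := gT_mem.mp hz
  set c' := Function.update c z true with hc'
  have hcz : c' z = true := by rw [hc', Function.update_self]
  have hcn : ∀ y, y ≠ z → c' y = c y := fun y hy => by rw [hc', Function.update_of_ne hy]
  -- the region
  have hreg : gReg L s c' = gReg L s c ∪ gBox L s z := by
    ext p
    rw [Finset.mem_union, gBox_mem hs hsL hz]
    unfold gReg
    simp only [Finset.mem_filter, Finset.mem_univ, true_and]
    by_cases h : gIx L s p = z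
    · rw [h, hcz]; simp
    · rw [hcn _ h]; simp [h]
  have hdisj : Disjoint (gReg L s c) (gBox L s z) := by
    rw [Finset.disjoint_left]
    intro p hp hp'
    rw [gBox_mem hs hsL hz] at hp'
    unfold gReg at hp
    rw [Finset.mem_filter, hp', hc] at hp
    exact absurd hp.2 (by simp)
  -- the neighbours
  obtain ⟨TL, hTL⟩ : ∃ T, T = if (1 ≤ z.1 ∧ c (z.1 - 1, z.2) = true) then
    gBox L s (z.1 - 1, z.2) else ∅ := ⟨_, rfl⟩
  obtain ⟨TR, hTR⟩ : ∃ T, T = if c (z.1 + 1, z.2) = true then gBox L s (z.1 + 1, z.2) else ∅ :=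
    ⟨_, rfl⟩
  obtain ⟨TD, hTD⟩ : ∃ T, T = if (1 ≤ z.2 ∧ c (z.1, z.2 - 1) = true) then
    gBox L s (z.1, z.2 - 1) else ∅ := ⟨_, rfl⟩
  obtain ⟨TU, hTU⟩ : ∃ T, T = if c (z.1, z.2 + 1) = true then gBox L s (z.1, z.2 + 1) else ∅ :=
    ⟨_, rfl⟩
  have hsub : TL ∪ TR ∪ TD ∪ TU ⊆ gReg L s c := by
    refine Finset.union_subset (Finset.union_subset (Finset.union_subset ?_ ?_) ?_) ?_
    · rw [hTL]; split_ifs with h
      · exact gBox_sub_gReg hs hsL h.2
      · exact Finset.empty_subset _
    · rw [hTR]; split_ifs with h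
      · exact gBox_sub_gReg hs hsL h
      · exact Finset.empty_subset _
    · rw [hTD]; split_ifs with h
      · exact gBox_sub_gReg hs hsL h.2
      · exact Finset.empty_subset _
    · rw [hTU]; split_ifs with h
      · exact gBox_sub_gReg hs hsL h
      · exact Finset.empty_subset _
  have hcond := S_cond' hS hdisj hsub
  have hadd := hL.add s (gE L s (z.1 - 1)) (gE L s z.1) (gE L s (z.1 + 1)) (gE L s (z.1 + 2))
    (gE L s (z.2 - 1)) (gE L s z.2) (gE L s (z.2 + 1)) (gE L s (z.2 + 2)) hs
    (gE_Side hs hz'.1) (gE_Side hs hz'.2) (gE_le _) (gE_le _) (gE_bd0 hs hz'.1)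
    (gE_bd0 hs hz'.2) (gE_bd1 hs z.1) (gE_bd1 hs z.2) TL TR TD TU
    (by
      rw [hTL]; split_ifs with h
      · right; rw [gBox_left h.1]
      · left; rfl)
    (by
      rw [hTR]; split_ifs with h
      · right; rfl
      · left; rfl)
    (by
      rw [hTD]; split_ifs with h
      · right; rw [gBox_down h.1]
      · left; rfl)
    (by
      rw [hTU]; split_ifs with h
      · right; rfl
      · left; rfl)
  have hQ : rect L (gE L s z.1) (gE L s (z.1 + 1)) (gE L s z.2) (gE L s (z.2 + 1)) =
    gBox L s z := rfl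
  rw [hQ] at hadd
  -- informations with the neighbours
  have mL : mi S (gBox L s z) (rect L (gE L s (z.1 - 1)) (gE L s z.1) (gE L s z.2)
      (gE L s (z.2 + 1))) = if 1 ≤ z.1 then gH S s (z.1 - 1, z.2) else 0 := by
    split_ifs with h
    · rw [gBox_left h, mi_comm']
      unfold gH
      simp only
      rw [Nat.sub_add_cancel h]
    · rw [gBox_left0 h, mi_empty hS]
  have mR : mi S (gBox L s z) (rect L (gE L s (z.1 + 1)) (gE L s (z.1 + 2)) (gE L s z.2)
      (gE L s (z.2 + 1))) = gH S s z := rfl
  have mD : mi S (gBox L s z) (rect L (gE L s z.1) (gE L s (z.1 + 1)) (gE L s (z.2 - 1))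
      (gE L s z.2)) = if 1 ≤ z.2 then gV S s (z.1, z.2 - 1) else 0 := by
    split_ifs with h
    · rw [gBox_down h, mi_comm']
      unfold gV
      simp only
      rw [Nat.sub_add_cancel h]
    · rw [gBox_down0 h, mi_empty hS]
  have mU : mi S (gBox L s z) (rect L (gE L s z.1) (gE L s (z.1 + 1)) (gE L s (z.2 + 1))
      (gE L s (z.2 + 2))) = gV S s z := rfl
  have tL : mi S (gBox L s z) TL = if 1 ≤ z.1 then (if c (z.1 - 1, z.2) = true then
      gH S s (z.1 - 1, z.2) else 0) else 0 := by
    rw [hTL]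
    by_cases h : 1 ≤ z.1
    · by_cases h' : c (z.1 - 1, z.2) = true
      · rw [if_pos ⟨h, h'⟩, if_pos h, if_pos h', ← gBox_left h, mL, if_pos h]
      · rw [if_neg (fun x => h' x.2), if_pos h, if_neg h', mi_empty hS]
    · rw [if_neg (fun x => h x.1), if_neg h, mi_empty hS]
  have tR : mi S (gBox L s z) TR = if c (z.1 + 1, z.2) = true then gH S s z else 0 := by
    rw [hTR]
    split_ifs with h
    · rfl
    · exact mi_empty hS _
  have tD : mi S (gBox L s z) TD = if 1 ≤ z.2 then (if c (z.1, z.2 - 1) = true then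
      gV S s (z.1, z.2 - 1) else 0) else 0 := by
    rw [hTD]
    by_cases h : 1 ≤ z.2
    · by_cases h' : c (z.1, z.2 - 1) = true
      · rw [if_pos ⟨h, h'⟩, if_pos h, if_pos h', ← gBox_down h, mD, if_pos h]
      · rw [if_neg (fun x => h' x.2), if_pos h, if_neg h', mi_empty hS]
    · rw [if_neg (fun x => h x.1), if_neg h, mi_empty hS]
  have tU : mi S (gBox L s z) TU = if c (z.1, z.2 + 1) = true then gV S s z else 0 := by
    rw [hTU]
    split_ifs with h
    · rfl
    · exact mi_empty hS _
  rw [mL, mR, mD, mU, tL, tR, tD, tU] at hadd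
  -- the functional
  have f1 := gSum_flip (gT L s) (fun z => (z.1 + 1, z.2)) (fun z => (z.1 - 1, z.2)) (gH S s) z hz
    (by rw [gT_mem]; exact ⟨by simp only; omega, hz'.2⟩) (1 ≤ z.1)
    (by
      rintro ⟨y1, y2⟩ hy
      simp only [Prod.ext_iff] at hy ⊢
      omega)
    (fun h => Prod.ext (Nat.sub_add_cancel h) rfl)
    (by
      intro h
      refine Prod.ext ?_ rfl
      simp only
      omega)
    (by
      rintro ⟨y1, y2⟩ hy
      simp only [Prod.ext_iff] at hy
      omega) c c' hcn
  have f2 := gSum_flip (gT L s) (fun z => (z.1, z.2 + 1)) (fun z => (z.1, z.2 - 1)) (gV S s) z hz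
    (by rw [gT_mem]; exact ⟨hz'.1, by simp only; omega⟩) (1 ≤ z.2)
    (by
      rintro ⟨y1, y2⟩ hy
      simp only [Prod.ext_iff] at hy ⊢
      omega)
    (fun h => Prod.ext rfl (Nat.sub_add_cancel h))
    (by
      intro h
      refine Prod.ext rfl ?_
      simp only
      omega)
    (by
      rintro ⟨y1, y2⟩ hy
      simp only [Prod.ext_iff] at hy
      omega) c c' hcn
  rw [hcz, hc] at f1 f2
  unfold gF
  rw [f1, f2, hreg]
  rw [Finset.union_comm (gBox L s z) (TL ∪ TR ∪ TD ∪ TU)] at hcond
  rw [Finset.union_comm (gBox L s z) (TL ∪ TR ∪ TD ∪ TU)] at hadd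
  have e1 : ∀ (b : Bool) (x : ℝ), (if true ≠ b then x else 0) = if b = true then 0 else x := by
    intro b x
    cases b <;> simp
  have e2 : ∀ (b : Bool) (x : ℝ), (if false ≠ b then x else 0) = if b = true then x else 0 := by
    intro b x
    cases b <;> simp
  have e3 : ∀ (b : Bool) (x : ℝ), (if b ≠ true then x else 0) = if b = true then 0 else x := by
    intro b x
    cases b <;> simp
  have e4 : ∀ (b : Bool) (x : ℝ), (if b ≠ false then x else 0) = if b = true then x else 0 := by
    intro b x
    cases b <;> simp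
  simp only [e1, e2, e3, e4]
  split_ifs at hadd ⊢ <;> linarith

/-- changing the colour of one box -/
theorem flip_one {a C : ℝ} {S : Finset (Site L) → ℝ} (hC : 0 ≤ C) (hS : EntLike S)
    (hL : Loc S a C) (hs : 1 ≤ s) (hsL : s ≤ L) (c : ℕ × ℕ → Bool) (z : ℕ × ℕ) (hz : z ∈ gT L s)
    (b : Bool) :
    S (gReg L s (Function.update c z b)) - gF S s (Function.update c z b) ≤
      S (gReg L s c) - gF S s c + C * (s : ℝ) ^ a := by
  have hpos : 0 ≤ C * (s : ℝ) ^ a := mul_nonneg hC (Real.rpow_nonneg (Nat.cast_nonneg _) _)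
  by_cases hb : c z = b
  · rw [← hb, Function.update_eq_self]
    linarith
  · cases hb' : b with
    | true =>
      rw [hb'] at hb
      exact flip_up hS hL hs hsL c z hz (by simpa using hb)
    | false =>
      rw [hb'] at hb
      have h1 : (fun y => !(c y)) z = false := by simpa using hb
      have h2 := flip_up hS hL hs hsL (fun y => !(c y)) z hz h1
      have e : Function.update (fun y => !(c y)) z true =
          fun y => !(Function.update c z false y) := by
        funext y
        by_cases hy : y = z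
        · rw [hy]; simp
        · rw [Function.update_of_ne hy, Function.update_of_ne hy]
      rw [e, gF_compl, gF_compl, ← gReg_compl, ← gReg_compl, hS.compl, hS.compl] at h2
      exact h2

/-- changing the colours of a set of boxes -/
theorem flip_many {a C : ℝ} {S : Finset (Site L) → ℝ} (hC : 0 ≤ C) (hS : EntLike S)
    (hL : Loc S a C) (hs : 1 ≤ s) (hsL : s ≤ L) (c c' : ℕ × ℕ → Bool) (M : Finset (ℕ × ℕ))
    (hM : M ⊆ gT L s) :
    S (gReg L s (fun z => if z ∈ M then c' z else c z)) -
        gF S s (fun z => if z ∈ M then c' z else c z) ≤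
      S (gReg L s c) - gF S s c + M.card * (C * (s : ℝ) ^ a) := by
  induction M using Finset.induction_on with
  | empty => simp
  | insert z M hzM ih =>
    have h1 := ih ((Finset.subset_insert z M).trans hM)
    have h2 := flip_one hC hS hL hs hsL (fun y => if y ∈ M then c' y else c y) z
      (hM (Finset.mem_insert_self z M)) (c' z)
    have e : Function.update (fun y => if y ∈ M then c' y else c y) z (c' z) =
        fun y => if y ∈ insert z M then c' y else c y := by
      funext y
      by_cases hy : y = z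
      · rw [hy]; simp
      · rw [Function.update_of_ne hy]
        simp [Finset.mem_insert, hy]
    rw [e] at h2
    rw [Finset.card_insert_of_notMem hzM]
    push_cast
    linarith

/-- two colourings -/
theorem flip_all {a C : ℝ} {S : Finset (Site L) → ℝ} (hC : 0 ≤ C) (hS : EntLike S)
    (hL : Loc S a C) (hs : 1 ≤ s) (hsL : s ≤ L) (c c' : ℕ × ℕ → Bool) :
    S (gReg L s c') - gF S s c' ≤
      S (gReg L s c) - gF S s c + ((gT L s).filter (fun z => c' z ≠ c z)).card *
        (C * (s : ℝ) ^ a) := by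
  have h := flip_many hC hS hL hs hsL c c' ((gT L s).filter (fun z => c' z ≠ c z))
    (Finset.filter_subset _ _)
  set M := (gT L s).filter (fun z => c' z ≠ c z) with hM
  have key : ∀ z ∈ gT L s, (if z ∈ M then c' z else c z) = c' z := by
    intro z hz
    by_cases h1 : c' z = c z
    · rw [h1]; simp
    · rw [if_pos]
      rw [hM, Finset.mem_filter]
      exact ⟨hz, h1⟩
  have hout : ∀ z : ℕ × ℕ, z ∉ gT L s → gBox L s z = ∅ := by
    intro z hz
    rw [gT_mem, not_and_or, not_lt, not_lt] at hz
    exact gBox_out hz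
  have e1 : gReg L s (fun z => if z ∈ M then c' z else c z) = gReg L s c' := by
    unfold gReg
    refine Finset.filter_congr fun p _ => ?_
    beta_reduce
    rw [key _ (gIx_mem hs hsL p)]
  have e2 : gF S s (fun z => if z ∈ M then c' z else c z) = gF S s c' := by
    unfold gF gSum
    congr 2
    · refine Finset.sum_congr rfl fun z hz => ?_
      beta_reduce
      by_cases hr : (z.1 + 1, z.2) ∈ gT L s
      · rw [key z hz, key _ hr]
      · have : gH S s z = 0 := by
          unfold gH
          rw [hout _ hr, mi_empty hS]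
        simp only [this, ite_self]
    · refine Finset.sum_congr rfl fun z hz => ?_
      beta_reduce
      by_cases hr : (z.1, z.2 + 1) ∈ gT L s
      · rw [key z hz, key _ hr]
      · have : gV S s z = 0 := by
          unfold gV
          rw [hout _ hr, mi_empty hS]
        simp only [this, ite_self]
  rw [e1, e2] at h
  exact h

end Vale.Agent.P356.SA
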