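import Vale.Agent.P356.SA.Facts
import Vale.Agent.P356.SA.BoxUS

/-!
The local hypotheses from decoupling (block 10a).
-/

set_option linter.all false

namespace Vale.Agent.P356.SA

open Matrix Finset Vale.Agent.P356 Vale.Agent.P356.SV Vale.Agent.P356.Path Vale.Agent.P356.NA
open scoped BigOperators ComplexOrder Kronecker

section B10a

/-- 10a: from block 9 -/
theorem loc_of_dec {a b C : ℝ} (ha : 0 < a) (ha1 : a < 1) (hb : 1 ≤ b) (hab : a * b < 1)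
    (hC : 0 < C) : ∃ C' : ℝ, 0 < C' ∧ ∀ (L : ℕ) (S : Finset (Site L) → ℝ), EntLike S →
      Dec S a b C → Loc S (a * b) C' := by
  obtain ⟨C1, hC1, h1⟩ := box_upper ha ha1 hb hab hC
  obtain ⟨C2, hC2, h2⟩ := box_super ha ha1 hb hab hC
  obtain ⟨C3, hC3, h3⟩ := side_split ha ha1 hb hab hC
  refine ⟨C1 + C2 + C3 + C, by positivity, ?_⟩
  intro L S hS hD
  refine ⟨?_, ?_, ?_⟩
  · intro s xm x0 x1 xp ym y0 y1 yp hs hx hy hx1 hy1 e1 e2 e3 e4 TL TR TD TU f1 f2 f3 f4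
    have g1 := h1 L S hS hD s xm x0 x1 xp ym y0 y1 yp hs hx hy hx1 hy1 e1 e2 e3 e4
    have g2 := h2 L S hS hD s xm x0 x1 xp ym y0 y1 yp hs hx hy hx1 hy1 e1 e2 e3 e4 TL TR TD TU
      f1 f2 f3 f4
    have hp : 0 ≤ (s : ℝ) ^ (a * b) := Real.rpow_nonneg (Nat.cast_nonneg s) _
    have e : S (rect L x0 x1 y0 y1 ∪ (TL ∪ TR ∪ TD ∪ TU)) - S (TL ∪ TR ∪ TD ∪ TU) =
        S (rect L x0 x1 y0 y1) - mi S (rect L x0 x1 y0 y1) (TL ∪ TR ∪ TD ∪ TU) := by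
      unfold mi
      ring
    rw [e]
    have hm1 : 0 ≤ C3 * (s : ℝ) ^ (a * b) := mul_nonneg hC3.le hp
    have hm2 : 0 ≤ C * (s : ℝ) ^ (a * b) := mul_nonneg hC.le hp
    have hsum : (C1 + C2 + C3 + C) * (s : ℝ) ^ (a * b) = C1 * (s : ℝ) ^ (a * b) +
        C2 * (s : ℝ) ^ (a * b) + C3 * (s : ℝ) ^ (a * b) + C * (s : ℝ) ^ (a * b) := by ring
    rw [hsum]
    linarith
  · intro s x0 u0 x1 u2 x2 y0 y y1 hs g1 g2 g3 g4 g5 g6 g7 g8 g9 g10 g11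
    have g := h3 L S hS hD s x0 u0 x1 u2 x2 y0 y y1 hs g1 g2 g3 g4 g5 g6 g7 g8 g9 g10 g11
    have hp : 0 ≤ (s : ℝ) ^ (a * b) := Real.rpow_nonneg (Nat.cast_nonneg s) _
    have hle : C3 * (s : ℝ) ^ (a * b) ≤ (C1 + C2 + C3 + C) * (s : ℝ) ^ (a * b) :=
      mul_le_mul_of_nonneg_right (by linarith) hp
    exact ⟨by linarith [g.1], by linarith [g.2]⟩
  · intro B
    have h := hD.card B
    have hp : (0 : ℝ) ≤ (B.card : ℝ) := Nat.cast_nonneg _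
    have hle : C * (B.card : ℝ) ≤ (C1 + C2 + C3 + C) * B.card :=
      mul_le_mul_of_nonneg_right (by linarith) hp
    linarith

end B10a

end Vale.Agent.P356.SA
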