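import Vale.Agent.P356.SA.Defs
import Vale.Agent.P356.NA.GoodCut
import Vale.Agent.P356.NA.RepCalc

set_option linter.all false

/-!
Steep tilt, thresholds depending on the cut: `good_split2`, `good_cut2`, `average_main`.
-/

namespace Vale.Agent.P356.SA

open Matrix Finset Vale.Agent.P356 Vale.Agent.P356.SV Vale.Agent.P356.Path Vale.Agent.P356.NA
open scoped BigOperators ComplexOrder Kronecker

section G
variable {N : Type} [Fintype N] [DecidableEq N] {α β : ℕ → Type}
  [∀ k, Fintype (α k)] [∀ k, DecidableEq (α k)] [∀ k, Fintype (β k)] [∀ k, DecidableEq (β k)]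

/-- 1a: decomposition of a good vector, `θ` arbitrary, thresholds `t k` -/
theorem good_split2 (e : ∀ k, N ≃ α k × β k) (n : ℕ) (hn : 1 ≤ n)
    (hnest : ∀ j k, j ≤ k → ∀ Y : Matrix (α k) (α k) ℂ, ∃ Y' : Matrix (α j) (α j) ℂ,
      opL (e k) Y = opL (e j) Y')
    {θ : ℝ} (hθ : 0 < θ) {m c : ℝ} {χ : N → ℂ} (h : NA.Good e (fun _ => θ) n m χ c) {ε : ℝ}
    (hε : 0 < ε) (t : ℕ → ℝ) (ht : ∀ k < n, 0 ≤ t k)
    (hsum : c / 2 + Real.log (1 / ε) ≤ θ * ∑ k ∈ range n, t k) :
    ∃ (Γ : ℕ → N → ℂ) (T : N → ℂ), χ = ∑ k ∈ range n, Γ k + T ∧ nsq T ≤ ε ^ 2 ∧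
      ∀ k < n, (t k ≤ 0 → LR (e k) (Γ k) 0) ∧
        LR (e k) (Γ k) (Real.exp (t k) * (max 0 (c / 2 + Real.log (1 / ε)) / θ)) := by
  obtain ⟨π, hπ, hc⟩ := h
  set ϑ : ℕ → ℝ := fun _ => θ with hϑ
  set ζ := vv e ϑ χ n 1 π with hζ
  have hχ : prL (YY e ϑ π (-1)) n *ᵥ ζ = χ := by
    rw [hζ, vv, mulVec_mulVec, prL_mul_prR (fun j _ => YY_inv e ϑ (hπ j).1 1), one_mulVec]
  have hYn : ∀ k v, nrm (YY e ϑ π (-1) k *ᵥ v) ≤ 1 * nrm v := by
    intro k v
    refine na_g_nrm (e k) (hπ k).1 _ zero_le_one (fun i => ?_) v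
    rw [abs_of_pos (Real.exp_pos _)]
    refine Real.exp_le_one_iff.mpr ?_
    have h1 : 0 ≤ ϑ k * (π k).2 i := mul_nonneg hθ.le ((hπ k).2 i).1
    linarith
  have hζc : nrm ζ ≤ Real.exp (c / 2) * Real.exp (-(penR ϑ n π / 2)) := by
    have h1 : nrm ζ ^ 2 ≤ (Real.exp (c / 2) * Real.exp (-(penR ϑ n π / 2))) ^ 2 := by
      rw [nrm_sq, mul_pow, ← Real.exp_nat_mul, ← Real.exp_nat_mul]
      have e1 : ((2 : ℕ) : ℝ) * (c / 2) = c := by push_cast; ring
      have e2 : ((2 : ℕ) : ℝ) * (-(penR ϑ n π / 2)) = -penR ϑ n π := by push_cast; ring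
      rw [e1, e2, Real.exp_neg]
      rw [← div_eq_mul_inv, le_div_iff₀ (Real.exp_pos _)]
      exact hc
    exact (sq_le_sq₀ (nrm_nonneg _) (by positivity)).mp h1
  have hpen : 0 ≤ penR ϑ n π := by
    refine Finset.sum_nonneg fun k _ => ?_
    have : 0 ≤ ∑ i, Real.exp (-((π k).2 i)) := Finset.sum_nonneg fun i _ => (Real.exp_pos _).le
    exact mul_nonneg (by simp only [hϑ]; linarith) this
  rcases le_or_gt (nrm ζ) ε with hsmall | hbig
  · refine ⟨fun _ => 0, χ, ?_, ?_, ?_⟩
    · rw [Finset.sum_const_zero, zero_add]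
    · rw [← nrm_sq]
      have h1 : nrm χ ≤ nrm ζ := by
        rw [← hχ]
        have : ∀ j, nrm (prL (YY e ϑ π (-1)) j *ᵥ ζ) ≤ nrm ζ := by
          intro j
          induction j with
          | zero => rw [prL, one_mulVec]
          | succ j ih =>
            rw [prL, ← mulVec_mulVec]
            have := hYn j (prL (YY e ϑ π (-1)) j *ᵥ ζ)
            linarith
        exact this n
      exact pow_le_pow_left₀ (nrm_nonneg _) (h1.trans hsmall) 2
    · intro k hk
      refine ⟨fun _ => LR_zero (e k), LR_mono (e k) (LR_zero (e k)) ?_⟩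
      exact mul_nonneg (Real.exp_pos _).le (div_nonneg (le_max_left _ _) hθ.le)
  · have hζ0 : 0 < nrm ζ := hε.trans hbig
    set b : ∀ k, α k → ℝ := fun k i => if (π k).2 i < t k then 1 else 0 with hb
    set E : ∀ k, Matrix (α k) (α k) ℂ := fun k => dOp (π k).1 (b k) with hE
    have hEpr : ∀ k, IsPr (E k) := by
      intro k
      refine ⟨?_, dOp_herm _ _⟩
      simp only [hE]
      rw [dOp_mul (hπ k).1]
      congr 1
      funext i
      simp only [hb]
      split_ifs <;> norm_num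
    have hEtr : ∀ k, (E k).trace.re = ∑ i, b k i := by
      intro k
      simp only [hE]
      rw [dOp, Matrix.trace_mul_comm, ← Matrix.mul_assoc,
        mul_eq_one_comm.mp (hπ k).1, Matrix.one_mul, Matrix.trace_diagonal, Complex.re_sum]
      simp only [Complex.ofReal_re]
    obtain ⟨Γ, h1, h2⟩ := na_g_tele e
      (fun k => dOp (π k).1 (fun i => Real.exp (-1 * ϑ k * (π k).2 i))) E hEpr ζ hnest n
    refine ⟨Γ, na_g_T (fun k => opL (e k) (dOp (π k).1
      (fun i => Real.exp (-1 * ϑ k * (π k).2 i)))) (fun k => 1 - opL (e k) (E k)) ζ n, ?_, ?_, ?_⟩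
    · rw [← h1]
      exact hχ.symm
    · have hT : ∀ j, nrm (na_g_T (fun k => opL (e k) (dOp (π k).1
          (fun i => Real.exp (-1 * ϑ k * (π k).2 i)))) (fun k => 1 - opL (e k) (E k)) ζ j) ≤
          Real.exp (-(∑ k ∈ range j, θ * t k)) * nrm ζ := by
        intro j
        induction j with
        | zero =>
          rw [na_g_T]
          simp
        | succ j ih =>
          rw [na_g_T]
          set w := na_g_T (fun k => opL (e k) (dOp (π k).1
            (fun i => Real.exp (-1 * ϑ k * (π k).2 i)))) (fun k => 1 - opL (e k) (E k)) ζ j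
          have e1 : (1 - opL (e j) (E j)) *ᵥ (opL (e j) (dOp (π j).1
              (fun i => Real.exp (-1 * ϑ j * (π j).2 i))) *ᵥ w) =
              opL (e j) (dOp (π j).1 (fun i => (1 - b j i) *
                Real.exp (-1 * ϑ j * (π j).2 i))) *ᵥ w := by
            rw [mulVec_mulVec, ← opL_one (e j), ← opL_sub, ← opL_mul]
            congr 2
            rw [← dOp_mul (hπ j).1]
            congr 1
            rw [← dOp_one (hπ j).1]
            simp only [hE]
            ext a b'
            rw [Matrix.sub_apply, dOp_apply, dOp_apply, dOp_apply, ← Finset.sum_sub_distrib]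
            refine Finset.sum_congr rfl fun i _ => ?_
            push_cast
            ring
          rw [e1]
          have e2 := na_g_nrm (e j) (hπ j).1 (fun i => (1 - b j i) *
                Real.exp (-1 * ϑ j * (π j).2 i)) (C := Real.exp (-(θ * t j))) (Real.exp_pos _).le
                (fun i => by
                  simp only [hb]
                  split_ifs with hi
                  · rw [sub_self, zero_mul, abs_zero]
                    exact (Real.exp_pos _).le
                  · rw [sub_zero, one_mul, abs_of_pos (Real.exp_pos _)]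
                    refine Real.exp_le_exp.mpr ?_
                    push Not at hi
                    simp only [hϑ]
                    have : θ * t j ≤ θ * (π j).2 i := mul_le_mul_of_nonneg_left hi hθ.le
                    linarith) w
          refine e2.trans ?_
          rw [Finset.sum_range_succ, neg_add, Real.exp_add, mul_comm (Real.exp (-∑ k ∈ range j, θ * t k)),
            mul_assoc]
          exact mul_le_mul_of_nonneg_left ih (Real.exp_pos _).le
      have h3 := hT n
      rw [← nrm_sq]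
      refine pow_le_pow_left₀ (nrm_nonneg _) (h3.trans ?_) 2
      have h4 : nrm ζ ≤ Real.exp (c / 2) := by
        refine hζc.trans ?_
        have : Real.exp (-(penR ϑ n π / 2)) ≤ 1 := Real.exp_le_one_iff.mpr (by linarith)
        calc _ ≤ Real.exp (c / 2) * 1 := mul_le_mul_of_nonneg_left this (Real.exp_pos _).le
          _ = _ := mul_one _
      calc Real.exp (-(∑ k ∈ range n, θ * t k)) * nrm ζ
          ≤ Real.exp (-(∑ k ∈ range n, θ * t k)) * Real.exp (c / 2) :=
            mul_le_mul_of_nonneg_left h4 (Real.exp_pos _).le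
        _ = Real.exp (c / 2 - θ * ∑ k ∈ range n, t k) := by
            rw [← Real.exp_add, ← Finset.mul_sum]; congr 1; ring
        _ ≤ Real.exp (Real.log ε) := by
            refine Real.exp_le_exp.mpr ?_
            rw [one_div, Real.log_inv] at hsum
            linarith
        _ = ε := Real.exp_log hε
    · intro k hk
      refine ⟨fun h0 => LR_mono (e k) (h2 k hk) ?_, LR_mono (e k) (h2 k hk) ?_⟩
      · rw [hEtr]
        refine le_of_eq (Finset.sum_eq_zero fun i _ => ?_)
        simp only [hb]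
        rw [if_neg]
        have := ((hπ k).2 i).1
        linarith
      · have e2 : ∑ i, b k i ≤ Real.exp (t k) * ∑ i, Real.exp (-((π k).2 i)) := by
          rw [Finset.mul_sum]
          refine Finset.sum_le_sum fun i _ => ?_
          simp only [hb]
          split_ifs with hi
          · rw [← Real.exp_add]
            refine Real.one_le_exp ?_
            linarith
          · positivity
        have e3 : 2 * θ * ∑ i, Real.exp (-((π k).2 i)) ≤ penR ϑ n π := by
          rw [penR]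
          refine Finset.single_le_sum (f := fun k => 2 * ϑ k * ∑ i, Real.exp (-((π k).2 i)))
            (fun j _ => ?_) (Finset.mem_range.mpr hk)
          have : 0 ≤ ∑ i, Real.exp (-((π j).2 i)) :=
            Finset.sum_nonneg fun i _ => (Real.exp_pos _).le
          exact mul_nonneg (by simp only [hϑ]; linarith) this
        have e4 : penR ϑ n π / 2 ≤ c / 2 + Real.log (1 / ε) := by
          have h3 : ε ≤ Real.exp (c / 2) * Real.exp (-(penR ϑ n π / 2)) := hbig.le.trans hζc
          rw [← Real.exp_add] at h3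
          have h4 := Real.log_le_log hε h3
          rw [Real.log_exp] at h4
          rw [one_div, Real.log_inv]
          linarith
        rw [hEtr]
        refine e2.trans (mul_le_mul_of_nonneg_left ?_ (Real.exp_pos _).le)
        rw [le_div_iff₀ hθ]
        refine le_trans ?_ (le_max_right 0 _)
        linarith

/-- commuting enlargements along nested cuts, from the outermost cut inwards -/
theorem sa1_family [Nonempty N] (e : ∀ k, N ≃ α k × β k) (n : ℕ)
    (hnest : ∀ j k, j ≤ k → ∀ Y : Matrix (α k) (α k) ℂ, ∃ Y' : Matrix (α j) (α j) ℂ,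
      opL (e k) Y = opL (e j) Y')
    (E : ∀ k, Matrix (α k) (α k) ℂ) (D : ℕ → ℝ)
    (hE : ∀ k < n, IsPr (E k) ∧ (E k).trace.re ≤ D k) (s : ℕ) (hs : s ≤ n) :
    ∃ F : ∀ k, Matrix (α k) (α k) ℂ,
      (∀ k, n - s ≤ k → k < n → IsPr (F k) ∧ F k * E k = E k ∧ (F k).trace.re ≤ 2 ^ n * D k) ∧
      (∀ i j, n - s ≤ i → i < n → n - s ≤ j → j < n →
        opL (e i) (F i) * opL (e j) (F j) = opL (e j) (F j) * opL (e i) (F i)) := by
  induction s with
  | zero =>
    exact ⟨fun _ => 0, fun k h1 h2 => absurd h2 (by omega), fun i j h1 h2 => absurd h2 (by omega)⟩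
  | succ s ih =>
    obtain ⟨F, hF1, hF2⟩ := ih (by omega)
    set k := n - (s + 1) with hk
    have hkn : k < n := by omega
    have hks : n - s = k + 1 := by omega
    clear_value k
    rw [hks] at hF1 hF2
    have hex : ∀ i, ∃ G : Matrix (α k) (α k) ℂ,
        opL (e (k + 1 + i)) (F (k + 1 + i)) = opL (e k) G := fun i =>
      hnest k (k + 1 + i) (by omega) _
    choose G hG using hex
    have hGpr : ∀ i < s, IsPr (G i) := by
      intro i hi
      refine na_c_isPr (e k) ?_
      rw [← hG]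
      exact isPr_opL _ (hF1 _ (by omega) (by omega)).1
    have hGG : ∀ i < s, ∀ j < s, G i * G j = G j * G i := by
      intro i hi j hj
      refine na_c_inj (e k) ?_
      rw [opL_mul, opL_mul, ← hG, ← hG]
      exact hF2 _ _ (by omega) (by omega) (by omega) (by omega)
    obtain ⟨P, hP, hPE, hPt, hPG⟩ := na_c_enl (hE k hkn).1 G s hGpr hGG
    have hPc : ∀ i, k < i → i < n → opL (e i) (F i) * opL (e k) P =
        opL (e k) P * opL (e i) (F i) := by
      intro i h1 h2
      obtain ⟨t, rfl⟩ : ∃ t, i = k + 1 + t := ⟨i - (k + 1), by omega⟩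
      rw [hG, ← opL_mul, ← opL_mul, hPG t (by omega)]
    refine ⟨Function.update F k P, ?_, ?_⟩
    · intro i h1 h2
      by_cases hik : i = k
      · subst hik
        rw [Function.update_self]
        refine ⟨hP, hPE, hPt.trans ?_⟩
        have h3 : (0 : ℝ) ≤ (E i).trace.re := by
          rw [na_g_trace_rank (hE i hkn).1]
          positivity
        have h4 : (2 : ℝ) ^ s ≤ 2 ^ n := pow_le_pow_right₀ (by norm_num) (by omega)
        calc (2 : ℝ) ^ s * (E i).trace.re ≤ 2 ^ n * (E i).trace.re :=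
              mul_le_mul_of_nonneg_right h4 h3
          _ ≤ 2 ^ n * D i := mul_le_mul_of_nonneg_left (hE i hkn).2 (by positivity)
      · rw [Function.update_of_ne hik]
        exact hF1 i (by omega) h2
    · intro i j hi1 hi2 hj1 hj2
      by_cases hik : i = k
      · subst hik
        by_cases hjk : j = i
        · subst hjk
          rfl
        · rw [Function.update_self, Function.update_of_ne hjk]
          exact (hPc j (by omega) hj2).symm
      · rw [Function.update_of_ne hik]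
        by_cases hjk : j = k
        · subst hjk
          rw [Function.update_self]
          exact hPc i (by omega) hi2
        · rw [Function.update_of_ne hjk]
          exact hF2 i j (by omega) hi2 (by omega) hj2

/-- 1b: existence of a good cut, with ranks depending on the cut -/
theorem good_cut2 (e : ∀ k, N ≃ α k × β k) (n : ℕ) (hn : 1 ≤ n)
    (hnest : ∀ j k, j ≤ k → ∀ Y : Matrix (α k) (α k) ℂ, ∃ Y' : Matrix (α j) (α j) ℂ,
      opL (e k) Y = opL (e j) Y')
    {Ω : N → ℂ} (hΩ : nsq Ω = 1) (Γ : ℕ → N → ℂ) (D : ℕ → ℝ) (hD : ∀ k < n, 0 ≤ D k)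
    (hΓ : ∀ k < n, LR (e k) (Γ k) (D k))
    (hclose : nsq (Ω - ∑ k ∈ range n, Γ k) ≤ 1 / 16) :
    ∃ k < n, ∃ F : Matrix (α k) (α k) ℂ, IsPr F ∧ F.trace.re ≤ 2 ^ n * D k ∧
      1 / (4 * (n : ℝ) ^ 2) ≤ nsq (opL (e k) F *ᵥ Ω) := by
  classical
  haveI : Nonempty N := by
    by_contra hN
    rw [not_nonempty_iff] at hN
    rw [nsq, Finset.univ_eq_empty, Finset.sum_empty] at hΩ
    exact zero_ne_one hΩ
  have hex : ∀ k, ∃ E : Matrix (α k) (α k) ℂ, k < n →
      IsPr E ∧ E.trace.re ≤ D k ∧ opL (e k) E *ᵥ Γ k = Γ k := by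
    intro k
    by_cases hk : k < n
    · obtain ⟨E, hE⟩ := hΓ k hk
      exact ⟨E, fun _ => hE⟩
    · exact ⟨0, fun h => absurd h hk⟩
  choose E hE using hex
  obtain ⟨F, hF1, hF2⟩ := sa1_family e n hnest E D (fun k hk => ⟨(hE k hk).1, (hE k hk).2.1⟩)
    n le_rfl
  rw [Nat.sub_self] at hF1 hF2
  set P : ℕ → Matrix N N ℂ := fun k => opL (e k) (F k) with hP
  have hPpr : ∀ k < n, IsPr (P k) := fun k hk => isPr_opL _ (hF1 k (Nat.zero_le k) hk).1
  have hPP : ∀ i < n, ∀ j < n, (1 - P i) * (1 - P j) = (1 - P j) * (1 - P i) := by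
    intro i hi j hj
    have := hF2 i j (Nat.zero_le i) hi (Nat.zero_le j) hj
    rw [Matrix.sub_mul, Matrix.mul_sub, Matrix.mul_sub, Matrix.sub_mul, Matrix.mul_sub,
      Matrix.mul_sub]
    simp only [Matrix.one_mul, Matrix.mul_one, hP]
    rw [this]
    abel
  have hkill : ∀ k < n, prR (fun i => 1 - P i) n *ᵥ Γ k = 0 := by
    intro k hk
    refine na_c_prR_kill (fun i => 1 - P i) n hPP k hk (Γ k) ?_
    show (1 - P k) *ᵥ Γ k = 0
    rw [sub_mulVec, one_mulVec, sub_eq_zero]
    have h1 := (hE k hk).2.2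
    conv_rhs => rw [← h1]
    rw [hP, mulVec_mulVec, ← opL_mul, (hF1 k (Nat.zero_le k) hk).2.1, h1]
  have h1 : prR (fun i => 1 - P i) n *ᵥ Ω = prR (fun i => 1 - P i) n *ᵥ
      (Ω - ∑ k ∈ range n, Γ k) := by
    rw [mulVec_sub, mulVec_sum, Finset.sum_eq_zero (fun k hk => hkill k (Finset.mem_range.mp hk)),
      sub_zero]
  have h2 : nrm (prR (fun i => 1 - P i) n *ᵥ Ω) ≤ 1 / 4 := by
    rw [h1]
    refine (na_c_nrm_prR _ n (fun i hi => na_g_pr_compl (hPpr i hi)) _).trans ?_
    rw [nrm]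
    refine Real.sqrt_le_iff.mpr ⟨by norm_num, ?_⟩
    refine hclose.trans ?_
    norm_num
  have h3 := na_c_union P n hPpr Ω
  have h4 : nrm Ω = 1 := by rw [nrm, hΩ, Real.sqrt_one]
  have h5 : 3 / 4 ≤ ∑ i ∈ range n, nrm (P i *ᵥ Ω) := by linarith
  have hn0 : (0 : ℝ) < n := by exact_mod_cast hn
  by_contra hcon
  push Not at hcon
  have h6 : ∀ i ∈ range n, nrm (P i *ᵥ Ω) < 3 / 4 / n := by
    intro i hi
    have hi' := Finset.mem_range.mp hi
    have h7 := hcon i hi' (F i) (hF1 i (Nat.zero_le i) hi').1 (hF1 i (Nat.zero_le i) hi').2.2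
    have h8 : nrm (P i *ᵥ Ω) ^ 2 < (3 / 4 / n) ^ 2 := by
      rw [nrm_sq]
      refine h7.trans_le ?_
      rw [div_pow, div_le_div_iff₀ (by positivity) (by positivity)]
      nlinarith [sq_nonneg (n : ℝ)]
    exact (sq_lt_sq₀ (nrm_nonneg _) (by positivity)).mp h8
  have h7 : ∑ i ∈ range n, nrm (P i *ᵥ Ω) < ∑ _i ∈ range n, (3 / 4 / (n : ℝ)) :=
    Finset.sum_lt_sum_of_nonempty ⟨0, Finset.mem_range.mpr hn⟩ h6
  rw [Finset.sum_const, Finset.card_range, nsmul_eq_mul, mul_div_cancel₀ _ hn0.ne'] at h7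
  linarith


theorem sa1_pr_zero {a : Type*} [Fintype a] [DecidableEq a] {F : Matrix a a ℂ} (hF : IsPr F)
    (h : F.trace.re ≤ 0) : F = 0 := by
  obtain ⟨U, b, hU, hb, hQU, htr⟩ := proj_basis hF
  have hb0 : ∀ i, 0 ≤ b i := by
    intro i
    rcases hb i with h | h
    · rw [h]
    · rw [h]; norm_num
  have h1 : ∑ i, b i = 0 := le_antisymm (by rw [← htr]; exact h)
    (Finset.sum_nonneg fun i _ => hb0 i)
  have h2 : ∀ i, b i = 0 := fun i =>
    (Finset.sum_eq_zero_iff_of_nonneg (fun i _ => hb0 i)).mp h1 i (Finset.mem_univ i)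
  rw [hQU]
  ext x y
  rw [dOp_apply, Matrix.zero_apply]
  refine Finset.sum_eq_zero fun i _ => ?_
  rw [h2 i]
  simp

/-- the initial vector is good -/
theorem sa1_init (e : ∀ k, N ≃ α k × β k) (n : ℕ) (hn : 1 ≤ n)
    {m : ℝ} (hm : ∀ k < n, Real.log (Fintype.card (α k)) ≤ m)
    {v : N → ℂ} (hv : nsq v ≤ 1) {θ : ℝ} (hθ : 0 < θ)
    (r : ℕ → ℝ) (hr : ∀ k < n, 0 ≤ r k ∧ r k ≤ m)
    (hvr : ∀ k < n, LR (e k) v (Real.exp (r k))) :
    NA.Good e (fun _ => θ) n m v (2 * (θ * ∑ k ∈ range n, r k) + 4 * (θ * n)) := by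
  classical
  have hn0 : (0 : ℝ) < n := by exact_mod_cast hn
  have hm0 : 0 ≤ m := (hr 0 hn).1.trans (hr 0 hn).2
  have key : ∀ k, ∃ π : Par α k, (π.1 * π.1ᴴ = 1 ∧ ∀ i, 0 ≤ π.2 i ∧ π.2 i ≤ m) ∧
      (k < n → opL (e k) (dOp π.1 (fun i => Real.exp (1 * θ * π.2 i))) *ᵥ v =
        ((Real.exp (θ * r k) : ℝ) : ℂ) • v ∧ ∑ i, Real.exp (-(π.2 i)) ≤ 2) := by
    intro k
    by_cases hk : k < n
    · obtain ⟨E, hE, hEt, hEv⟩ := hvr k hk
      obtain ⟨U, b, hU, hb, hEU, hEt2⟩ := proj_basis hE
      refine ⟨(U, fun i => if b i = 1 then r k else m), ⟨hU, fun i => ?_⟩, fun _ => ⟨?_, ?_⟩⟩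
      · dsimp only
        split_ifs
        · exact hr k hk
        · exact ⟨hm0, le_refl _⟩
      · dsimp only
        have h1 : opL (e k) (dOp U (fun i => Real.exp (1 * θ *
            (if b i = 1 then r k else m)))) *ᵥ v =
            opL (e k) (dOp U (fun i => Real.exp (1 * θ *
            (if b i = 1 then r k else m))) * E) *ᵥ v := by
          rw [opL_mul, ← mulVec_mulVec, hEv]
        rw [h1]
        have h2 : dOp U (fun i => Real.exp (1 * θ *
            (if b i = 1 then r k else m))) * E = ((Real.exp (θ * r k) : ℝ) : ℂ) • E := by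
          rw [hEU, dOp_mul hU]
          ext a c
          rw [Matrix.smul_apply, dOp_apply, dOp_apply, smul_eq_mul, Finset.mul_sum]
          refine Finset.sum_congr rfl fun i _ => ?_
          rcases hb i with h | h
          · rw [h]; simp
          · rw [h]; simp only [if_true, mul_one, one_mul]; push_cast; ring
        rw [h2, opL_smul, smul_mulVec, hEv]
      · dsimp only
        have h1 : ∀ i, Real.exp (-(if b i = 1 then r k else m)) ≤
            b i * Real.exp (-(r k)) + Real.exp (-m) := by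
          intro i
          rcases hb i with h | h
          · rw [h]; simp
          · rw [h]; simp only [if_true, one_mul]
            have := Real.exp_pos (-m)
            linarith
        refine (Finset.sum_le_sum fun i _ => h1 i).trans ?_
        rw [Finset.sum_add_distrib, ← Finset.sum_mul, ← hEt2, Finset.sum_const, nsmul_eq_mul,
          Finset.card_univ]
        have h2 : E.trace.re * Real.exp (-(r k)) ≤ 1 := by
          have := mul_le_mul_of_nonneg_right hEt (Real.exp_pos (-(r k))).le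
          rwa [← Real.exp_add, add_neg_cancel, Real.exp_zero] at this
        have h3 : (Fintype.card (α k) : ℝ) * Real.exp (-m) ≤ 1 := by
          rcases Nat.eq_zero_or_pos (Fintype.card (α k)) with h0 | h0
          · rw [h0]; simp
          · have h4 : (0 : ℝ) < Fintype.card (α k) := by exact_mod_cast h0
            have h5 := Real.exp_le_exp.mpr (hm k hk)
            rw [Real.exp_log h4] at h5
            have := mul_le_mul_of_nonneg_right h5 (Real.exp_pos (-m)).le
            rwa [← Real.exp_add, add_neg_cancel, Real.exp_zero] at this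
        linarith
    · refine ⟨(1, fun _ => 0), ⟨by rw [conjTranspose_one, Matrix.one_mul], fun i => ⟨le_refl _, hm0⟩⟩,
        fun h => absurd h hk⟩
  choose π hπ1 hπ2 using key
  refine ⟨π, hπ1, ?_⟩
  -- the tilted vector
  have hvv : ∀ j ≤ n, prR (YY e (fun _ => θ) π 1) j *ᵥ v =
      ((Real.exp (∑ k ∈ range j, θ * r k) : ℝ) : ℂ) • v := by
    intro j
    induction j with
    | zero => intro _; rw [prR, one_mulVec]; simp
    | succ j ih =>
      intro hj
      have h1 := (hπ2 j hj).1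
      rw [prR, ← mulVec_mulVec, YY, h1, mulVec_smul, ih (by omega), smul_smul,
        Finset.sum_range_succ, Real.exp_add]
      push_cast
      rw [mul_comm]
  have hv2 : nsq (vv e (fun _ => θ) v n 1 π) =
      Real.exp (2 * (θ * ∑ k ∈ range n, r k)) * nsq v := by
    rw [vv, hvv n (le_refl n), nsq_smul, Complex.norm_real, Real.norm_eq_abs, abs_of_pos (Real.exp_pos _),
      ← Real.exp_nat_mul, ← Finset.mul_sum]
    congr 2
  have hpen : penR (fun _ => θ) n π ≤ 4 * (θ * n) := by
    rw [penR]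
    have h1 : ∀ k ∈ range n, 2 * θ * ∑ i, Real.exp (-((π k).2 i)) ≤ 4 * θ := by
      intro k hk
      have h2 := (hπ2 k (Finset.mem_range.mp hk)).2
      have h3 : 2 * θ * ∑ i, Real.exp (-((π k).2 i)) ≤ 2 * θ * 2 :=
        mul_le_mul_of_nonneg_left h2 (by positivity)
      refine h3.trans (le_of_eq ?_)
      ring
    refine (Finset.sum_le_sum h1).trans (le_of_eq ?_)
    rw [Finset.sum_const, Finset.card_range, nsmul_eq_mul]
    ring
  rw [hv2, Real.exp_add]
  have h1 := Real.exp_le_exp.mpr hpen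
  have h2 : Real.exp (2 * (θ * ∑ k ∈ range n, r k)) * nsq v ≤
      Real.exp (2 * (θ * ∑ k ∈ range n, r k)) := by
    calc _ ≤ Real.exp (2 * (θ * ∑ k ∈ range n, r k)) * 1 :=
          mul_le_mul_of_nonneg_left hv (Real.exp_pos _).le
      _ = _ := mul_one _
  exact mul_le_mul h2 h1 (Real.exp_pos _).le (by positivity)

/-- 1c: the lossless average inequality. `θ = Λ / n`. -/
theorem average_main (e : ∀ k, N ≃ α k × β k) (n : ℕ) (hn : 1 ≤ n)
    (hnest : ∀ j k, j ≤ k → ∀ Y : Matrix (α k) (α k) ℂ, ∃ Y' : Matrix (α j) (α j) ℂ,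
      opL (e k) Y = opL (e j) Y')
    {m : ℝ} (hm : ∀ k < n, Real.log (Fintype.card (α k)) ≤ m)
    {Ω v : N → ℂ} (hΩ : nsq Ω = 1) (hv : nsq v ≤ 1) {b : ℝ} (hb : 0 ≤ b)
    (hov : Real.exp (-b) ≤ ‖star Ω ⬝ᵥ v‖) (r : ℕ → ℝ) (hr : ∀ k < n, 0 ≤ r k ∧ r k ≤ m)
    (hvr : ∀ k < n, LR (e k) v (Real.exp (r k)))
    {Λ : ℝ} (hΛ : 1 ≤ Λ) {K : Matrix N N ℂ} {D g ε : ℝ} (hD : 1 ≤ D) (hg : 0 ≤ g)
    (hK : Rep e (fun _ => Λ / (n : ℝ)) n m K D g)
    (hKΩ : K *ᵥ Ω = Ω) (hKΩ' : Kᴴ *ᵥ Ω = Ω) (hε : 0 ≤ ε)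
    (hKs : ∀ ψ, star Ω ⬝ᵥ ψ = 0 → nsq (K *ᵥ ψ) ≤ ε ^ 2 * nsq ψ)
    (j : ℕ) (hj : ε ^ j ≤ Real.exp (-b) / 20) (S : ℕ → ℝ) {H : ℝ} (hH : 0 ≤ H)
    (hlarge : ∀ k < n, ∀ F : Matrix (α k) (α k) ℂ, IsPr F →
      1 / (4 * (n : ℝ) ^ 2) ≤ nsq (opL (e k) F *ᵥ Ω) → S k ≤ Real.log F.trace.re + H)
    {Q : ℝ} (hQ : Q = (∑ k ∈ range n, r k) / n + 2 + j * g / (2 * Λ) +
      (b + 3 + j * Real.log D) / Λ) :
    (∑ k ∈ range n, S k) / n ≤ Q + j * Real.log D + n + H + Real.log (n * Q) + 1 := by
  classical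
  have hn0 : (0 : ℝ) < n := by exact_mod_cast hn
  have hΛ0 : 0 < Λ := by linarith
  have hlogD : 0 ≤ Real.log D := Real.log_nonneg hD
  set avg := (∑ k ∈ range n, r k) / n with havg
  have havg0 : 0 ≤ avg := div_nonneg
    (Finset.sum_nonneg fun k hk => (hr k (Finset.mem_range.mp hk)).1) hn0.le
  have hQ2 : 2 ≤ Q := by
    rw [hQ]
    have h1 : 0 ≤ (j : ℝ) * g / (2 * Λ) := by positivity
    have h2 : 0 ≤ (b + 3 + j * Real.log D) / Λ := by positivity
    linarith
  have hQ0 : 0 < Q := by linarith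
  by_contra hcon
  push Not at hcon
  set H1 : ℝ := n + H + j * Real.log D + Real.log (n * Q) + 1 with hH1
  set t : ℕ → ℝ := fun k => max 0 (S k - H1) with ht
  have ht0 : ∀ k, 0 ≤ t k := fun k => le_max_left _ _
  have hsumt : Q * n ≤ ∑ k ∈ range n, t k := by
    have h1 : ∑ k ∈ range n, (S k - H1) ≤ ∑ k ∈ range n, t k :=
      Finset.sum_le_sum fun k _ => le_max_right _ _
    rw [Finset.sum_sub_distrib, Finset.sum_const, Finset.card_range, nsmul_eq_mul] at h1
    have h2 : (Q + H1) * n ≤ ∑ k ∈ range n, S k := by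
      rw [← le_div_iff₀ hn0]
      rw [hH1]
      linarith
    linarith
  have hgood := sa1_init e n hn hm hv (θ := Λ / (n : ℝ)) (by positivity) r hr hvr
  have hgc : 2 * (Λ / (n : ℝ) * ∑ k ∈ range n, r k) + 4 * (Λ / (n : ℝ) * n) =
      2 * (Λ * avg) + 4 * Λ := by
    rw [havg]
    field_simp
  rw [hgc] at hgood
  -- the powers of `K`
  obtain ⟨R, M, c, hRD, hM, hKj⟩ := hK.pow j
  have hip : ∀ ψ, star Ω ⬝ᵥ (K *ᵥ ψ) = star Ω ⬝ᵥ ψ := by
    intro ψ
    have := ip_mulVec Kᴴ Ω ψ
    rw [hKΩ', conjTranspose_conjTranspose] at this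
    exact this.symm
  have hpowΩ : K ^ j *ᵥ Ω = Ω := pow_fix K j hKΩ
  have hpow : ∀ i, ∀ ψ, star Ω ⬝ᵥ ψ = 0 → nrm (K ^ i *ᵥ ψ) ≤ ε ^ i * nrm ψ ∧
      star Ω ⬝ᵥ (K ^ i *ᵥ ψ) = 0 := by
    intro i
    induction i with
    | zero => intro ψ h; rw [pow_zero, one_mulVec, pow_zero, one_mul]; exact ⟨le_refl _, h⟩
    | succ i ih =>
      intro ψ h
      obtain ⟨h1, h2⟩ := ih ψ h
      rw [pow_succ', ← mulVec_mulVec]
      refine ⟨?_, by rw [hip, h2]⟩
      have h3 : nrm (K *ᵥ (K ^ i *ᵥ ψ)) ≤ ε * nrm (K ^ i *ᵥ ψ) := by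
        have h4 := hKs _ h2
        have h5 : nrm (K *ᵥ (K ^ i *ᵥ ψ)) ^ 2 ≤ (ε * nrm (K ^ i *ᵥ ψ)) ^ 2 := by
          rw [nrm_sq, mul_pow, nrm_sq]; exact h4
        exact (sq_le_sq₀ (nrm_nonneg _) (mul_nonneg hε (nrm_nonneg _))).mp h5
      refine h3.trans ?_
      rw [pow_succ']
      rw [mul_assoc]
      exact mul_le_mul_of_nonneg_left h1 hε
  set s : ℂ := star Ω ⬝ᵥ v with hs
  have hs0 : 0 < ‖s‖ := (Real.exp_pos _).trans_le hov
  have hsne : s ≠ 0 := norm_pos_iff.mp hs0
  -- close to the ground state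
  have hclose : nrm (Ω - s⁻¹ • (K ^ j *ᵥ v)) ≤ 1 / 20 := by
    set w : N → ℂ := v - s • Ω with hw
    have hw0 : star Ω ⬝ᵥ w = 0 := by
      rw [hw, dotProduct_sub, dotProduct_smul, ip_self, hΩ, ← hs]
      simp
    have hwn : nrm w ≤ 1 := by
      have h1 : nsq v = nsq w + ‖s‖ ^ 2 := by
        have h2 : v = w + s • Ω := by rw [hw]; abel
        rw [h2, nsq_add, nsq_smul, hΩ, mul_one]
        have h3 : star w ⬝ᵥ (s • Ω) = 0 := by
          rw [dotProduct_smul]
          have h4 : star w ⬝ᵥ Ω = star (star Ω ⬝ᵥ w) := by rw [star_dotProduct]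
          rw [h4, hw0, star_zero, smul_zero]
        rw [h3]
        simp only [Complex.zero_re, mul_zero, add_zero]
      rw [nrm, Real.sqrt_le_one]
      have := sq_nonneg ‖s‖
      linarith
    have h1 : Ω - s⁻¹ • (K ^ j *ᵥ v) = -(s⁻¹ • (K ^ j *ᵥ w)) := by
      have h2 : v = w + s • Ω := by rw [hw]; abel
      rw [h2, mulVec_add, mulVec_smul, hpowΩ, smul_add, smul_smul, inv_mul_cancel₀ hsne, one_smul]
      abel
    rw [h1, nrm_neg, nrm_smul, norm_inv]
    have h3 := (hpow j w hw0).1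
    have h4 : nrm (K ^ j *ᵥ w) ≤ Real.exp (-b) / 20 * 1 :=
      h3.trans (mul_le_mul hj hwn (nrm_nonneg _) (by positivity))
    rw [mul_one] at h4
    rw [inv_mul_le_iff₀ hs0]
    linarith
  -- split every term
  have hD0 : (0 : ℝ) < D ^ j := pow_pos (by linarith) j
  set c0 : ℝ := 2 * (Λ * avg) + 4 * Λ + j * g + 2 * b with hc0
  have hterm : ∀ i, NA.Good e (fun _ => Λ / (n : ℝ)) n m (s⁻¹ • (c i • (M i *ᵥ v))) c0 := by
    intro i
    have h1 := (hM i).2 v _ hgood
    have h2 := h1.smul (hM i).1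
    refine (h2.smul' (z := s⁻¹) (t := 2 * b) ?_)
    rw [norm_inv, two_mul, Real.exp_add, ← sq]
    refine pow_le_pow_left₀ (by positivity) ?_ 2
    rw [inv_le_comm₀ hs0 (by positivity), ← Real.exp_neg]
    exact hov
  have hlog8 : Real.log 8 ≤ 3 := by
    have h1 : (8 : ℝ) ≤ Real.exp 3 := by
      have h2 : (2 : ℝ) ≤ Real.exp 1 := by
        have := Real.add_one_le_exp (1 : ℝ)
        linarith
      calc (8 : ℝ) = 2 ^ 3 := by norm_num
        _ ≤ (Real.exp 1) ^ 3 := pow_le_pow_left₀ (by norm_num) h2 3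
        _ = Real.exp 3 := by rw [← Real.exp_nat_mul]; norm_num
    rw [← Real.log_exp 3]
    exact Real.log_le_log (by norm_num) h1
  have hcQ : c0 / 2 + Real.log (1 / (1 / (8 * D ^ j))) ≤ Λ * Q := by
    rw [one_div_one_div, Real.log_mul (by norm_num) hD0.ne', Real.log_pow, hc0, hQ]
    have h1 : Λ * (avg + 2 + j * g / (2 * Λ) + (b + 3 + j * Real.log D) / Λ) =
        Λ * avg + 2 * Λ + j * g / 2 + (b + 3 + j * Real.log D) := by
      field_simp
    rw [h1]
    linarith
  have hsplit := fun i => good_split2 e n hn hnest (θ := Λ / (n : ℝ)) (by positivity) (hterm i)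
    (ε := 1 / (8 * D ^ j)) (by positivity) t (fun k _ => ht0 k) (by
      refine hcQ.trans ?_
      rw [div_mul_eq_mul_div, le_div_iff₀ hn0, mul_assoc]
      exact mul_le_mul_of_nonneg_left hsumt hΛ0.le)
  choose Γ T hΓT hT hΓ using hsplit
  set DD : ℕ → ℝ := fun k => if t k ≤ 0 then 0 else D ^ j * (Real.exp (t k) * (n * Q)) with hDD
  have hmax : max 0 (c0 / 2 + Real.log (1 / (1 / (8 * D ^ j)))) / (Λ / (n : ℝ)) ≤ n * Q := by
    rw [div_le_iff₀ (by positivity)]
    have : (n : ℝ) * Q * (Λ / n) = Λ * Q := by field_simp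
    rw [this]
    exact max_le (by positivity) hcQ
  obtain ⟨k, hk, F, hF, hFt, hFw⟩ := good_cut2 e n hn hnest hΩ (fun k => ∑ i, Γ i k)
    DD (by
      intro k hk
      simp only [hDD]
      split_ifs
      · exact le_refl _
      · positivity) (by
      intro k hk
      simp only [hDD]
      split_ifs with htk
      · have h1 := LR_sum (e k) Finset.univ (fun i => Γ i k)
          (fun _ => 0) (fun i _ => (hΓ i k hk).1 htk)
        rw [Finset.sum_const_zero] at h1
        exact h1
      · have h1 := LR_sum (e k) Finset.univ (fun i => Γ i k)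
          (fun _ => Real.exp (t k) * (n * Q)) (fun i _ => LR_mono (e k) (hΓ i k hk).2
            (mul_le_mul_of_nonneg_left hmax (Real.exp_pos _).le))
        rw [Finset.sum_const, Finset.card_univ, Fintype.card_fin, nsmul_eq_mul] at h1
        exact LR_mono (e k) h1 (mul_le_mul_of_nonneg_right hRD (by positivity))) (by
      have h1 : s⁻¹ • (K ^ j *ᵥ v) = ∑ k ∈ range n, ∑ i, Γ i k + ∑ i, T i := by
        rw [hKj, Finset.sum_comm, ← Finset.sum_add_distrib]
        rw [Matrix.sum_mulVec, Finset.smul_sum]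
        refine Finset.sum_congr rfl fun i _ => ?_
        rw [smul_mulVec]
        exact hΓT i
      have h2 : nrm (∑ i, T i) ≤ 1 / 8 := by
        have h3 : ∀ u : Finset (Fin R), nrm (∑ i ∈ u, T i) ≤ ∑ i ∈ u, (1 / (8 * D ^ j)) := by
          intro u
          induction u using Finset.induction_on with
          | empty => simp [nrm, nsq]
          | insert a u ha ih =>
            rw [Finset.sum_insert ha, Finset.sum_insert ha]
            refine (nrm_add_le _ _).trans (add_le_add ?_ ih)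
            have h4 := hT a
            rw [← nrm_sq] at h4
            exact (sq_le_sq₀ (nrm_nonneg _) (by positivity)).mp h4
        refine (h3 _).trans ?_
        rw [Finset.sum_const, Finset.card_univ, Fintype.card_fin, nsmul_eq_mul]
        rw [mul_one_div, div_le_div_iff₀ (by positivity) (by norm_num)]
        linarith
      have h3 : Ω - ∑ k ∈ range n, ∑ i, Γ i k =
          (Ω - s⁻¹ • (K ^ j *ᵥ v)) + ∑ i, T i := by
        rw [h1]; abel
      rw [h3, ← nrm_sq]
      have h4 : nrm ((Ω - s⁻¹ • (K ^ j *ᵥ v)) + ∑ i, T i) ≤ 1 / 4 := by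
        refine (nrm_add_le _ _).trans ?_
        linarith
      calc _ ≤ (1 / 4 : ℝ) ^ 2 := pow_le_pow_left₀ (nrm_nonneg _) h4 2
        _ = 1 / 16 := by norm_num)
  -- the good cut is not trivial
  have hFpos : 0 < F.trace.re := by
    by_contra hneg
    push Not at hneg
    have h3 : F = 0 := sa1_pr_zero hF hneg
    rw [h3, opL_zero, zero_mulVec] at hFw
    have h4 : nsq (0 : N → ℂ) = 0 := by simp [nsq]
    rw [h4] at hFw
    have : 0 < 1 / (4 * (n : ℝ) ^ 2) := by positivity
    linarith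
  have hl := hlarge k hk F hF hFw
  have htk : 0 < t k := by
    by_contra hneg
    push Not at hneg
    have h1 : DD k = 0 := by simp only [hDD]; rw [if_pos hneg]
    rw [h1, mul_zero] at hFt
    linarith
  have htk2 : t k = S k - H1 := by
    simp only [ht] at htk ⊢
    rcases le_or_gt (S k - H1) 0 with h | h
    · rw [max_eq_left h] at htk; exact absurd htk (lt_irrefl _)
    · exact max_eq_right h.le
  have h1 : DD k = D ^ j * (Real.exp (t k) * (n * Q)) := by
    simp only [hDD]; rw [if_neg (not_le.mpr htk)]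
  rw [h1] at hFt
  have h2 : Real.log F.trace.re ≤ n * Real.log 2 + (j * Real.log D + (t k + Real.log (n * Q))) := by
    refine (Real.log_le_log hFpos hFt).trans (le_of_eq ?_)
    rw [Real.log_mul (by positivity) (by positivity), Real.log_pow,
      Real.log_mul (by positivity) (by positivity), Real.log_pow,
      Real.log_mul (by positivity) (by positivity), Real.log_exp]
  have h3 : (n : ℝ) * Real.log 2 ≤ n := by
    have h4 : Real.log 2 ≤ 1 := by
      have := Real.log_two_lt_d9
      linarith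
    calc (n : ℝ) * Real.log 2 ≤ n * 1 := mul_le_mul_of_nonneg_left h4 hn0.le
      _ = n := mul_one _
  rw [htk2] at h2
  linarith

end G

end Vale.Agent.P356.SA
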