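import Vale.Agent.P356.NA.Layer
import Vale.Agent.P356.NA.Poly
import Vale.Agent.P356.NA.Reg
import Vale.Agent.P356.SV.Ent

/-!
The near-area law, in the form needed for the decoupling step.
-/

set_option linter.all false

namespace Vale.Agent.P356.SA

open Vale.Agent.P356 Vale.Agent.P356.SV Vale.Agent.P356.NA

theorem near_law (q R : ℕ) (hq : 1 ≤ q) (J Δ : ℝ) (hJ : 0 < J) (hΔ : 0 < Δ) :
    ∃ C c : ℝ, 0 ≤ C ∧ 0 ≤ c ∧ ∀ (L : ℕ) (h : Finset (Site L) → Op (Site L) q)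
      (Ω : Conf (Site L) q → ℂ), FFLG L q R J Δ h Ω → ∀ B : Finset (Site L),
      entropyOf B Ω ≤ C * (bdry B : ℝ) * (1 + Real.log (bdry B)) ^ c := by
  have hκ : 0 ≤ Real.log q := Real.log_nonneg (by exact_mod_cast hq)
  obtain ⟨C, hC, hlay⟩ := layer q R hq J Δ hJ hΔ
  obtain ⟨A₀, c, hA₀, hc, hrec⟩ := rect_polylog (6 * C) (Real.log q) (by linarith) hκ
  obtain ⟨C', hC', hreg⟩ := region_polylog A₀ c (Real.log q) hA₀ hc hκ
  refine ⟨C', c + 1, hC', by linarith, ?_⟩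
  intro L h Ω hF A
  have hΩ : nsq Ω = 1 := hF.unit
  have hn := fun B : Finset (Site L) => entropy_nonneg B Ω hΩ
  have hu := fun (B B' : Finset (Site L)) (hBB : Disjoint B B') => entropy_union B B' hBB Ω hΩ
  have hcard := fun B : Finset (Site L) => entropy_le_card hq B Ω hΩ
  refine hreg L (fun B => entropyOf B Ω) hn hu (fun B => entropy_compl B Ω hΩ) hcard ?_ A
  refine hrec L (fun B => entropyOf B Ω) hn hu hcard ?_
  intro l x0 x1 y0 y1 hl h1 h2
  obtain ⟨w, hw, hS⟩ := hlay L h Ω hF l hl x0 x1 y0 y1 h1 h2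
  have hl0 : 0 ≤ (l : ℝ) ^ (9 / 10 : ℝ) := by positivity
  refine ⟨w, hw.trans (by nlinarith), hS.trans (add_le_add ?_ (le_of_eq (by ring)))⟩
  exact mul_le_mul_of_nonneg_right (by linarith) (hn _)

end Vale.Agent.P356.SA
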