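import Vale.Agent.P356.SA.Flip679

/-!
Comparison of two consecutive grids.
-/

set_option linter.all false

namespace Vale.Agent.P356.SA

open Matrix Finset Vale.Agent.P356 Vale.Agent.P356.SV Vale.Agent.P356.Path Vale.Agent.P356.NA
open scoped BigOperators ComplexOrder Kronecker

section sums

theorem rf_pairs (g : ℕ → ℝ) (m : ℕ) :
    ∑ I ∈ range m, (g (2 * I) + g (2 * I + 1)) = ∑ i ∈ range (2 * m), g i := by
  induction m with
  | zero => simp
  | succ m ih =>
    rw [Finset.sum_range_succ, ih, show 2 * (m + 1) = 2 * m + 1 + 1 by ring,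
      Finset.sum_range_succ, Finset.sum_range_succ]
    ring

theorem rf_row (g : ℕ → ℝ) (k : ℕ) (hk : 2 ≤ k) :
    ∑ I ∈ range (k / 2), (g (2 * I) + g (2 * I + 1) +
      (if I + 1 = k / 2 ∧ 2 * I + 2 < k then g (2 * I + 2) else 0)) = ∑ i ∈ range k, g i := by
  rw [Finset.sum_add_distrib, rf_pairs]
  have h1 : ∑ I ∈ range (k / 2), (if I + 1 = k / 2 ∧ 2 * I + 2 < k then g (2 * I + 2) else 0) =
      if 2 * (k / 2) < k then g (2 * (k / 2)) else 0 := by
    rw [Finset.sum_eq_single (k / 2 - 1)]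
    · have e1 : k / 2 - 1 + 1 = k / 2 := by omega
      have e2 : 2 * (k / 2 - 1) + 2 = 2 * (k / 2) := by omega
      rw [e2]
      by_cases h : 2 * (k / 2) < k
      · rw [if_pos ⟨e1, h⟩, if_pos h]
      · rw [if_neg (fun x => h x.2), if_neg h]
    · intro b hb hne
      rw [if_neg]
      intro h
      omega
    · intro h
      rw [Finset.mem_range] at h
      omega
  rw [h1]
  split_ifs with h
  · have e : k = 2 * (k / 2) + 1 := by omega
    conv_rhs => rw [e]
    rw [Finset.sum_range_succ]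
  · have e : k = 2 * (k / 2) := by omega
    rw [add_zero, ← e]

theorem rf_col (g : ℕ → ℝ) (hg : ∀ i, 0 ≤ g i) (k : ℕ) :
    ∑ I ∈ range (k / 2), g (2 * I + 1) ≤ ∑ i ∈ range k, g i := by
  calc ∑ I ∈ range (k / 2), g (2 * I + 1) ≤ ∑ I ∈ range (k / 2), (g (2 * I) + g (2 * I + 1)) :=
        Finset.sum_le_sum fun I _ => by linarith [hg (2 * I)]
    _ = ∑ i ∈ range (2 * (k / 2)), g i := rf_pairs g _
    _ ≤ ∑ i ∈ range k, g i := by
        refine Finset.sum_le_sum_of_subset_of_nonneg ?_ fun i _ _ => hg i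
        intro i hi
        rw [Finset.mem_range] at hi ⊢
        omega

end sums

variable {L s : ℕ}

/-- parent box -/
def gPar (L s : ℕ) (z : ℕ × ℕ) : ℕ × ℕ :=
  (min (z.1 / 2) (L / (2 * s) - 1), min (z.2 / 2) (L / (2 * s) - 1))

theorem rf_k (L s : ℕ) : L / (2 * s) = L / s / 2 := by
  rw [Nat.div_div_eq_div_mul, mul_comm]

theorem gIx_par (hs : 1 ≤ s) (hsL : 2 * s ≤ L) (p : Site L) :
    gIx L (2 * s) p = gPar L s (gIx L s p) := by
  have hk : 2 ≤ L / s := by
    rw [Nat.le_div_iff_mul_le (by omega)]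
    exact hsL
  have key : ∀ t : ℕ, b9_ix (2 * s) (L / (2 * s)) t =
      min (b9_ix s (L / s) t / 2) (L / (2 * s) - 1) := by
    intro t
    unfold b9_ix
    have e : t / (2 * s) = t / s / 2 := by rw [Nat.div_div_eq_div_mul, mul_comm]
    rw [e, rf_k]
    omega
  unfold gIx gPar
  simp only [key]

theorem gReg_par (hs : 1 ≤ s) (hsL : 2 * s ≤ L) (c : ℕ × ℕ → Bool) :
    gReg L s (fun z => c (gPar L s z)) = gReg L (2 * s) c := by
  unfold gReg
  refine Finset.filter_congr fun p _ => ?_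
  rw [gIx_par hs hsL]

theorem gE_two {I : ℕ} (h : I < L / (2 * s)) : gE L (2 * s) I = gE L s (2 * I) := by
  rw [gE_lt h, gE_lt]
  · ring
  · rw [rf_k] at h
    omega

theorem gE_two' {I : ℕ} (h : L / s ≤ 2 * I) : gE L (2 * s) I = gE L s (2 * I) := by
  rw [gE_ge h, gE_ge]
  rw [rf_k]
  omega

theorem gE_mono (hs : 1 ≤ s) {i j : ℕ} (h : i ≤ j) : gE L s i ≤ gE L s j := by
  induction j, h using Nat.le_induction with
  | base => exact le_rfl
  | succ j _ ih =>
    refine ih.trans ?_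
    by_cases hj : j < L / s
    · have := (gE_side hs hj).1
      omega
    · rw [gE_ge (by omega), gE_ge (by omega)]

/-- horizontal refinement of one pair -/
theorem rf_ptH {a C : ℝ} (hC : 0 ≤ C) {S : Finset (Site L) → ℝ} (hL : Loc S a C) (hs : 1 ≤ s)
    {I J : ℕ} (hI : I + 1 < L / (2 * s)) (hJ : J < L / (2 * s)) :
    gH S (2 * s) (I, J) ≤ gH S s (2 * I + 1, 2 * J) + gH S s (2 * I + 1, 2 * J + 1) +
      (if J + 1 = L / s / 2 ∧ 2 * J + 2 < L / s then gH S s (2 * I + 1, 2 * J + 2) else 0) +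
      2 * (C * (s : ℝ) ^ a) := by
  have hk := rf_k L s
  have hpos : 0 ≤ C * (s : ℝ) ^ a := mul_nonneg hC (Real.rpow_nonneg (Nat.cast_nonneg _) _)
  have s1 : gE L s (2 * I) + s ≤ gE L s (2 * I + 1) ∧ gE L s (2 * I + 1) ≤ gE L s (2 * I) + 2 * s :=
    gE_side hs (by omega)
  have s2 : gE L s (2 * I + 1) + s ≤ gE L s (2 * I + 2) ∧ gE L s (2 * I + 2) ≤ gE L s (2 * I + 1) + 2 * s :=
    gE_side hs (by omega)
  have s3 : gE L s (2 * I + 2) + s ≤ gE L s (2 * I + 3) ∧ gE L s (2 * I + 3) ≤ gE L s (2 * I + 2) + 2 * s :=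
    gE_side hs (by omega)
  have t1 : gE L s (2 * J) + s ≤ gE L s (2 * J + 1) ∧ gE L s (2 * J + 1) ≤ gE L s (2 * J) + 2 * s :=
    gE_side hs (by omega)
  have t2 : gE L s (2 * J + 1) + s ≤ gE L s (2 * J + 2) ∧ gE L s (2 * J + 2) ≤ gE L s (2 * J + 1) + 2 * s :=
    gE_side hs (by omega)
  have S1 : gE L (2 * s) I + (2 * s) ≤ gE L (2 * s) (I + 1) ∧ gE L (2 * s) (I + 1) ≤ gE L (2 * s) I + 2 * (2 * s) :=
    gE_side (by omega) (by omega)
  have S2 : gE L (2 * s) (I + 1) + (2 * s) ≤ gE L (2 * s) (I + 2) ∧ gE L (2 * s) (I + 2) ≤ gE L (2 * s) (I + 1) + 2 * (2 * s) :=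
    gE_side (by omega) hI
  have S3 : gE L (2 * s) J + (2 * s) ≤ gE L (2 * s) (J + 1) ∧ gE L (2 * s) (J + 1) ≤ gE L (2 * s) J + 2 * (2 * s) :=
    gE_side (by omega) hJ
  have E0 : gE L (2 * s) I = gE L s (2 * I) := gE_two (by omega)
  have E1 : gE L (2 * s) (I + 1) = gE L s (2 * I + 2) := gE_two hI
  have E2 : gE L s (2 * I + 3) ≤ gE L (2 * s) (I + 2) := by
    by_cases h : I + 2 < L / (2 * s)
    · rw [gE_two h]
      exact gE_mono hs (by omega)
    · rw [gE_ge (s := 2 * s) (i := I + 2) (by omega)]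
      exact gE_le _
  have F0 : gE L (2 * s) J = gE L s (2 * J) := gE_two hJ
  have F1 : gE L s (2 * J + 2) ≤ gE L (2 * s) (J + 1) := by
    by_cases h : J + 1 < L / (2 * s)
    · rw [gE_two h]
      exact le_rfl
    · rw [gE_ge (s := 2 * s) (i := J + 1) (by omega)]
      exact gE_le _
  have h1 := (hL.split s (gE L (2 * s) I) (gE L s (2 * I + 1)) (gE L (2 * s) (I + 1))
    (gE L s (2 * I + 3)) (gE L (2 * s) (I + 2)) (gE L (2 * s) J) (gE L s (2 * J + 1))
    (gE L (2 * s) (J + 1)) hs (by omega) E2 (by omega) (by omega) (by omega) (by omega)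
    (by omega) (by omega) (by omega) (gE_le _) (gE_le _)).1
  have e1 : mi S (rect L (gE L s (2 * I + 1)) (gE L (2 * s) (I + 1)) (gE L (2 * s) J)
      (gE L s (2 * J + 1))) (rect L (gE L (2 * s) (I + 1)) (gE L s (2 * I + 3)) (gE L (2 * s) J)
      (gE L s (2 * J + 1))) = gH S s (2 * I + 1, 2 * J) := by
    rw [E1, F0]
    rfl
  have e0 : mi S (rect L (gE L (2 * s) I) (gE L (2 * s) (I + 1)) (gE L (2 * s) J)
      (gE L (2 * s) (J + 1))) (rect L (gE L (2 * s) (I + 1)) (gE L (2 * s) (I + 2))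
      (gE L (2 * s) J) (gE L (2 * s) (J + 1))) = gH S (2 * s) (I, J) := rfl
  rw [e0, e1] at h1
  by_cases hlast : J + 1 = L / s / 2 ∧ 2 * J + 2 < L / s
  · rw [if_pos hlast]
    have t3 : gE L s (2 * J + 2) + s ≤ gE L s (2 * J + 3) ∧ gE L s (2 * J + 3) ≤ gE L s (2 * J + 2) + 2 * s :=
      gE_side hs hlast.2
    have F2 : gE L (2 * s) (J + 1) = gE L s (2 * J + 3) := by
      rw [gE_ge (by omega), gE_ge (by omega)]
    have h2 := (hL.split s (gE L s (2 * I + 1)) (gE L s (2 * I + 1)) (gE L (2 * s) (I + 1))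
      (gE L s (2 * I + 3)) (gE L s (2 * I + 3)) (gE L s (2 * J + 1)) (gE L s (2 * J + 2))
      (gE L (2 * s) (J + 1)) hs le_rfl le_rfl (by omega) (by omega) (by omega) (by omega)
      (by omega) (by omega) (by omega) (gE_le _) (gE_le _)).1
    have e2 : mi S (rect L (gE L s (2 * I + 1)) (gE L (2 * s) (I + 1)) (gE L s (2 * J + 1))
        (gE L s (2 * J + 2))) (rect L (gE L (2 * s) (I + 1)) (gE L s (2 * I + 3))
        (gE L s (2 * J + 1)) (gE L s (2 * J + 2))) = gH S s (2 * I + 1, 2 * J + 1) := by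
      rw [E1]
      rfl
    have e3 : mi S (rect L (gE L s (2 * I + 1)) (gE L (2 * s) (I + 1)) (gE L s (2 * J + 2))
        (gE L (2 * s) (J + 1))) (rect L (gE L (2 * s) (I + 1)) (gE L s (2 * I + 3))
        (gE L s (2 * J + 2)) (gE L (2 * s) (J + 1))) = gH S s (2 * I + 1, 2 * J + 2) := by
      rw [E1, F2]
      rfl
    rw [e2, e3] at h2
    linarith
  · rw [if_neg hlast]
    have F2 : gE L (2 * s) (J + 1) = gE L s (2 * J + 2) := by
      by_cases h : J + 1 < L / (2 * s)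
      · exact gE_two h
      · exact gE_two' (by omega)
    have e2 : mi S (rect L (gE L s (2 * I + 1)) (gE L (2 * s) (I + 1)) (gE L s (2 * J + 1))
        (gE L (2 * s) (J + 1))) (rect L (gE L (2 * s) (I + 1)) (gE L s (2 * I + 3))
        (gE L s (2 * J + 1)) (gE L (2 * s) (J + 1))) = gH S s (2 * I + 1, 2 * J + 1) := by
      rw [E1, F2]
      rfl
    rw [e2] at h1
    linarith

/-- vertical refinement of one pair -/
theorem rf_ptV {a C : ℝ} (hC : 0 ≤ C) {S : Finset (Site L) → ℝ} (hL : Loc S a C) (hs : 1 ≤ s)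
    {I J : ℕ} (hI : I + 1 < L / (2 * s)) (hJ : J < L / (2 * s)) :
    gV S (2 * s) (J, I) ≤ gV S s (2 * J, 2 * I + 1) + gV S s (2 * J + 1, 2 * I + 1) +
      (if J + 1 = L / s / 2 ∧ 2 * J + 2 < L / s then gV S s (2 * J + 2, 2 * I + 1) else 0) +
      2 * (C * (s : ℝ) ^ a) := by
  have hk := rf_k L s
  have hpos : 0 ≤ C * (s : ℝ) ^ a := mul_nonneg hC (Real.rpow_nonneg (Nat.cast_nonneg _) _)
  have s1 : gE L s (2 * I) + s ≤ gE L s (2 * I + 1) ∧ gE L s (2 * I + 1) ≤ gE L s (2 * I) + 2 * s :=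
    gE_side hs (by omega)
  have s2 : gE L s (2 * I + 1) + s ≤ gE L s (2 * I + 2) ∧ gE L s (2 * I + 2) ≤ gE L s (2 * I + 1) + 2 * s :=
    gE_side hs (by omega)
  have s3 : gE L s (2 * I + 2) + s ≤ gE L s (2 * I + 3) ∧ gE L s (2 * I + 3) ≤ gE L s (2 * I + 2) + 2 * s :=
    gE_side hs (by omega)
  have t1 : gE L s (2 * J) + s ≤ gE L s (2 * J + 1) ∧ gE L s (2 * J + 1) ≤ gE L s (2 * J) + 2 * s :=
    gE_side hs (by omega)
  have t2 : gE L s (2 * J + 1) + s ≤ gE L s (2 * J + 2) ∧ gE L s (2 * J + 2) ≤ gE L s (2 * J + 1) + 2 * s :=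
    gE_side hs (by omega)
  have S1 : gE L (2 * s) I + (2 * s) ≤ gE L (2 * s) (I + 1) ∧ gE L (2 * s) (I + 1) ≤ gE L (2 * s) I + 2 * (2 * s) :=
    gE_side (by omega) (by omega)
  have S2 : gE L (2 * s) (I + 1) + (2 * s) ≤ gE L (2 * s) (I + 2) ∧ gE L (2 * s) (I + 2) ≤ gE L (2 * s) (I + 1) + 2 * (2 * s) :=
    gE_side (by omega) hI
  have S3 : gE L (2 * s) J + (2 * s) ≤ gE L (2 * s) (J + 1) ∧ gE L (2 * s) (J + 1) ≤ gE L (2 * s) J + 2 * (2 * s) :=
    gE_side (by omega) hJ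
  have E0 : gE L (2 * s) I = gE L s (2 * I) := gE_two (by omega)
  have E1 : gE L (2 * s) (I + 1) = gE L s (2 * I + 2) := gE_two hI
  have E2 : gE L s (2 * I + 3) ≤ gE L (2 * s) (I + 2) := by
    by_cases h : I + 2 < L / (2 * s)
    · rw [gE_two h]
      exact gE_mono hs (by omega)
    · rw [gE_ge (s := 2 * s) (i := I + 2) (by omega)]
      exact gE_le _
  have F0 : gE L (2 * s) J = gE L s (2 * J) := gE_two hJ
  have F1 : gE L s (2 * J + 2) ≤ gE L (2 * s) (J + 1) := by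
    by_cases h : J + 1 < L / (2 * s)
    · rw [gE_two h]
      exact le_rfl
    · rw [gE_ge (s := 2 * s) (i := J + 1) (by omega)]
      exact gE_le _
  have h1 := (hL.split s (gE L (2 * s) I) (gE L s (2 * I + 1)) (gE L (2 * s) (I + 1))
    (gE L s (2 * I + 3)) (gE L (2 * s) (I + 2)) (gE L (2 * s) J) (gE L s (2 * J + 1))
    (gE L (2 * s) (J + 1)) hs (by omega) E2 (by omega) (by omega) (by omega) (by omega)
    (by omega) (by omega) (by omega) (gE_le _) (gE_le _)).2
  have e1 : mi S (rect L (gE L (2 * s) J) (gE L s (2 * J + 1)) (gE L s (2 * I + 1))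
      (gE L (2 * s) (I + 1))) (rect L (gE L (2 * s) J) (gE L s (2 * J + 1))
      (gE L (2 * s) (I + 1)) (gE L s (2 * I + 3))) = gV S s (2 * J, 2 * I + 1) := by
    rw [E1, F0]
    rfl
  have e0 : mi S (rect L (gE L (2 * s) J) (gE L (2 * s) (J + 1)) (gE L (2 * s) I)
      (gE L (2 * s) (I + 1))) (rect L (gE L (2 * s) J) (gE L (2 * s) (J + 1))
      (gE L (2 * s) (I + 1)) (gE L (2 * s) (I + 2))) = gV S (2 * s) (J, I) := rfl
  rw [e0, e1] at h1
  by_cases hlast : J + 1 = L / s / 2 ∧ 2 * J + 2 < L / s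
  · rw [if_pos hlast]
    have t3 : gE L s (2 * J + 2) + s ≤ gE L s (2 * J + 3) ∧ gE L s (2 * J + 3) ≤ gE L s (2 * J + 2) + 2 * s :=
      gE_side hs hlast.2
    have F2 : gE L (2 * s) (J + 1) = gE L s (2 * J + 3) := by
      rw [gE_ge (by omega), gE_ge (by omega)]
    have h2 := (hL.split s (gE L s (2 * I + 1)) (gE L s (2 * I + 1)) (gE L (2 * s) (I + 1))
      (gE L s (2 * I + 3)) (gE L s (2 * I + 3)) (gE L s (2 * J + 1)) (gE L s (2 * J + 2))
      (gE L (2 * s) (J + 1)) hs le_rfl le_rfl (by omega) (by omega) (by omega) (by omega)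
      (by omega) (by omega) (by omega) (gE_le _) (gE_le _)).2
    have e2 : mi S (rect L (gE L s (2 * J + 1)) (gE L s (2 * J + 2)) (gE L s (2 * I + 1))
        (gE L (2 * s) (I + 1))) (rect L (gE L s (2 * J + 1)) (gE L s (2 * J + 2))
        (gE L (2 * s) (I + 1)) (gE L s (2 * I + 3))) = gV S s (2 * J + 1, 2 * I + 1) := by
      rw [E1]
      rfl
    have e3 : mi S (rect L (gE L s (2 * J + 2)) (gE L (2 * s) (J + 1)) (gE L s (2 * I + 1))
        (gE L (2 * s) (I + 1))) (rect L (gE L s (2 * J + 2)) (gE L (2 * s) (J + 1))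
        (gE L (2 * s) (I + 1)) (gE L s (2 * I + 3))) = gV S s (2 * J + 2, 2 * I + 1) := by
      rw [E1, F2]
      rfl
    rw [e2, e3] at h2
    linarith
  · rw [if_neg hlast]
    have F2 : gE L (2 * s) (J + 1) = gE L s (2 * J + 2) := by
      by_cases h : J + 1 < L / (2 * s)
      · exact gE_two h
      · exact gE_two' (by omega)
    have e2 : mi S (rect L (gE L s (2 * J + 1)) (gE L (2 * s) (J + 1)) (gE L s (2 * I + 1))
        (gE L (2 * s) (I + 1))) (rect L (gE L s (2 * J + 1)) (gE L (2 * s) (J + 1))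
        (gE L (2 * s) (I + 1)) (gE L s (2 * I + 3))) = gV S s (2 * J + 1, 2 * I + 1) := by
      rw [E1, F2]
      rfl
    rw [e2] at h1
    linarith

theorem gH_nn {S : Finset (Site L) → ℝ} (hS : EntLike S) (hs : 1 ≤ s) (hsL : s ≤ L) (z : ℕ × ℕ) :
    0 ≤ gH S s z := by
  unfold gH
  by_cases hz : z ∈ gT L s
  · refine mi_nn hS (gBox_disj hs hsL hz ?_)
    intro h
    rw [Prod.ext_iff] at h
    simp only at h
    omega
  · rw [gT_mem, not_and_or, not_lt, not_lt] at hz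
    rw [gBox_out hz]
    exact mi_nn hS (Finset.disjoint_empty_left _)

theorem gV_nn {S : Finset (Site L) → ℝ} (hS : EntLike S) (hs : 1 ≤ s) (hsL : s ≤ L) (z : ℕ × ℕ) :
    0 ≤ gV S s z := by
  unfold gV
  by_cases hz : z ∈ gT L s
  · refine mi_nn hS (gBox_disj hs hsL hz ?_)
    intro h
    rw [Prod.ext_iff] at h
    simp only at h
    omega
  · rw [gT_mem, not_and_or, not_lt, not_lt] at hz
    rw [gBox_out hz]
    exact mi_nn hS (Finset.disjoint_empty_left _)

theorem rf_sumH {a C : ℝ} (hC : 0 ≤ C) {S : Finset (Site L) → ℝ} (hS : EntLike S)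
    (hL : Loc S a C) (hs : 1 ≤ s) (hsL : 2 * s ≤ L) (c : ℕ × ℕ → Bool) :
    gSum (gT L (2 * s)) (fun z => (z.1 + 1, z.2)) (gH S (2 * s)) c ≤
      gSum (gT L s) (fun z => (z.1 + 1, z.2)) (gH S s) (fun z => c (gPar L s z)) +
      ((gT L (2 * s)).filter (fun z => z.1 + 1 < L / (2 * s) ∧ c z ≠ c (z.1 + 1, z.2))).card *
        (2 * (C * (s : ℝ) ^ a)) := by
  have hsL' : s ≤ L := by omega
  have hk := rf_k L s
  have hk2 : 2 ≤ L / s := by
    rw [Nat.le_div_iff_mul_le (by omega)]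
    exact hsL
  set f : ℕ → ℕ → ℝ := fun i1 i2 => if c (gPar L s (i1, i2)) ≠ c (gPar L s (i1 + 1, i2)) then
    gH S s (i1, i2) else 0 with hf
  have hf0 : ∀ i1 i2, 0 ≤ f i1 i2 := by
    intro i1 i2
    simp only [hf]
    split_ifs
    · exact gH_nn hS hs hsL' _
    · exact le_rfl
  set G : ℕ × ℕ → ℝ := fun z => f (2 * z.1 + 1) (2 * z.2) + f (2 * z.1 + 1) (2 * z.2 + 1) +
    (if z.2 + 1 = L / s / 2 ∧ 2 * z.2 + 2 < L / s then f (2 * z.1 + 1) (2 * z.2 + 2) else 0)
    with hG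
  have hG0 : ∀ z, 0 ≤ G z := by
    intro z
    simp only [hG]
    have h3 : 0 ≤ (if z.2 + 1 = L / s / 2 ∧ 2 * z.2 + 2 < L / s then
        f (2 * z.1 + 1) (2 * z.2 + 2) else 0) := by
      split_ifs
      · exact hf0 _ _
      · exact le_rfl
    have h1 := hf0 (2 * z.1 + 1) (2 * z.2)
    have h2 := hf0 (2 * z.1 + 1) (2 * z.2 + 1)
    linarith
  have hpt : ∀ z ∈ gT L (2 * s), (if c z ≠ c ((fun z => (z.1 + 1, z.2)) z) then
      gH S (2 * s) z else 0) ≤ G z + (if z.1 + 1 < L / (2 * s) ∧ c z ≠ c (z.1 + 1, z.2) then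
        2 * (C * (s : ℝ) ^ a) else 0) := by
    intro z hz
    rw [gT_mem] at hz
    beta_reduce
    by_cases h1 : z.1 + 1 < L / (2 * s)
    · by_cases h2 : c z ≠ c (z.1 + 1, z.2)
      · rw [if_pos h2, if_pos ⟨h1, h2⟩]
        have h3 := rf_ptH hC hL hs h1 hz.2
        have p1 : ∀ i2, i2 / 2 = z.2 ∨ (z.2 + 1 = L / s / 2 ∧ i2 = 2 * z.2 + 2) →
            f (2 * z.1 + 1) i2 = gH S s (2 * z.1 + 1, i2) := by
          intro i2 hi2
          simp only [hf]
          have q1 : gPar L s (2 * z.1 + 1, i2) = z := by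
            unfold gPar
            refine Prod.ext ?_ ?_
            · simp only; omega
            · simp only; omega
          have q2 : gPar L s (2 * z.1 + 1 + 1, i2) = (z.1 + 1, z.2) := by
            unfold gPar
            refine Prod.ext ?_ ?_
            · simp only; omega
            · simp only; omega
          rw [q1, q2, if_pos h2]
        simp only [hG]
        rw [p1 (2 * z.2) (by left; omega), p1 (2 * z.2 + 1) (by left; omega)]
        by_cases h4 : z.2 + 1 = L / s / 2 ∧ 2 * z.2 + 2 < L / s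
        · rw [if_pos h4] at h3 ⊢
          rw [p1 (2 * z.2 + 2) (by right; omega)]
          exact h3
        · rw [if_neg h4] at h3 ⊢
          exact h3
      · rw [if_neg h2, if_neg (fun x => h2 x.2), add_zero]
        exact hG0 z
    · have h2 : gH S (2 * s) z = 0 := by
        unfold gH
        rw [gBox_out (z := (z.1 + 1, z.2)) (Or.inl (by simp only; omega)), mi_empty hS]
      rw [h2, ite_self, if_neg (fun x => h1 x.1), add_zero]
      exact hG0 z
  have hsum := Finset.sum_le_sum hpt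
  rw [Finset.sum_add_distrib] at hsum
  have e1 : ∑ z ∈ gT L (2 * s), (if z.1 + 1 < L / (2 * s) ∧ c z ≠ c (z.1 + 1, z.2) then
      2 * (C * (s : ℝ) ^ a) else 0) = ((gT L (2 * s)).filter (fun z => z.1 + 1 < L / (2 * s) ∧
        c z ≠ c (z.1 + 1, z.2))).card * (2 * (C * (s : ℝ) ^ a)) := by
    rw [← Finset.sum_filter, Finset.sum_const, nsmul_eq_mul]
  rw [e1] at hsum
  have e2 : ∑ z ∈ gT L (2 * s), G z ≤
      gSum (gT L s) (fun z => (z.1 + 1, z.2)) (gH S s) (fun z => c (gPar L s z)) := by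
    have e3 : gSum (gT L s) (fun z => (z.1 + 1, z.2)) (gH S s) (fun z => c (gPar L s z)) =
        ∑ i1 ∈ range (L / s), ∑ i2 ∈ range (L / s), f i1 i2 := by
      unfold gSum gT
      rw [Finset.sum_product]
    rw [e3]
    have e4 : ∑ z ∈ gT L (2 * s), G z =
        ∑ I ∈ range (L / s / 2), ∑ i2 ∈ range (L / s), f (2 * I + 1) i2 := by
      unfold gT
      rw [Finset.sum_product, hk]
      refine Finset.sum_congr rfl fun I _ => ?_
      rw [← rf_row (fun i2 => f (2 * I + 1) i2) (L / s) hk2]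
    rw [e4]
    exact rf_col (fun i1 => ∑ i2 ∈ range (L / s), f i1 i2)
      (fun i1 => Finset.sum_nonneg fun i2 _ => hf0 _ _) (L / s)
  unfold gSum at e2 ⊢
  linarith

theorem rf_sumV {a C : ℝ} (hC : 0 ≤ C) {S : Finset (Site L) → ℝ} (hS : EntLike S)
    (hL : Loc S a C) (hs : 1 ≤ s) (hsL : 2 * s ≤ L) (c : ℕ × ℕ → Bool) :
    gSum (gT L (2 * s)) (fun z => (z.1, z.2 + 1)) (gV S (2 * s)) c ≤
      gSum (gT L s) (fun z => (z.1, z.2 + 1)) (gV S s) (fun z => c (gPar L s z)) +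
      ((gT L (2 * s)).filter (fun z => z.2 + 1 < L / (2 * s) ∧ c z ≠ c (z.1, z.2 + 1))).card *
        (2 * (C * (s : ℝ) ^ a)) := by
  have hsL' : s ≤ L := by omega
  have hk := rf_k L s
  have hk2 : 2 ≤ L / s := by
    rw [Nat.le_div_iff_mul_le (by omega)]
    exact hsL
  set f : ℕ → ℕ → ℝ := fun i1 i2 => if c (gPar L s (i1, i2)) ≠ c (gPar L s (i1, i2 + 1)) then
    gV S s (i1, i2) else 0 with hf
  have hf0 : ∀ i1 i2, 0 ≤ f i1 i2 := by
    intro i1 i2
    simp only [hf]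
    split_ifs
    · exact gV_nn hS hs hsL' _
    · exact le_rfl
  set G : ℕ × ℕ → ℝ := fun z => f (2 * z.1) (2 * z.2 + 1) + f (2 * z.1 + 1) (2 * z.2 + 1) +
    (if z.1 + 1 = L / s / 2 ∧ 2 * z.1 + 2 < L / s then f (2 * z.1 + 2) (2 * z.2 + 1) else 0)
    with hG
  have hG0 : ∀ z, 0 ≤ G z := by
    intro z
    simp only [hG]
    have h3 : 0 ≤ (if z.1 + 1 = L / s / 2 ∧ 2 * z.1 + 2 < L / s then
        f (2 * z.1 + 2) (2 * z.2 + 1) else 0) := by
      split_ifs
      · exact hf0 _ _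
      · exact le_rfl
    have h1 := hf0 (2 * z.1) (2 * z.2 + 1)
    have h2 := hf0 (2 * z.1 + 1) (2 * z.2 + 1)
    linarith
  have hpt : ∀ z ∈ gT L (2 * s), (if c z ≠ c ((fun z => (z.1, z.2 + 1)) z) then
      gV S (2 * s) z else 0) ≤ G z + (if z.2 + 1 < L / (2 * s) ∧ c z ≠ c (z.1, z.2 + 1) then
        2 * (C * (s : ℝ) ^ a) else 0) := by
    intro z hz
    rw [gT_mem] at hz
    beta_reduce
    by_cases h1 : z.2 + 1 < L / (2 * s)
    · by_cases h2 : c z ≠ c (z.1, z.2 + 1)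
      · rw [if_pos h2, if_pos ⟨h1, h2⟩]
        have h3 := rf_ptV hC hL hs h1 hz.1
        have p1 : ∀ i1, i1 / 2 = z.1 ∨ (z.1 + 1 = L / s / 2 ∧ i1 = 2 * z.1 + 2) →
            f i1 (2 * z.2 + 1) = gV S s (i1, 2 * z.2 + 1) := by
          intro i1 hi1
          simp only [hf]
          have q1 : gPar L s (i1, 2 * z.2 + 1) = z := by
            unfold gPar
            refine Prod.ext ?_ ?_
            · simp only; omega
            · simp only; omega
          have q2 : gPar L s (i1, 2 * z.2 + 1 + 1) = (z.1, z.2 + 1) := by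
            unfold gPar
            refine Prod.ext ?_ ?_
            · simp only; omega
            · simp only; omega
          rw [q1, q2, if_pos h2]
        simp only [hG]
        rw [p1 (2 * z.1) (by left; omega), p1 (2 * z.1 + 1) (by left; omega)]
        by_cases h4 : z.1 + 1 = L / s / 2 ∧ 2 * z.1 + 2 < L / s
        · rw [if_pos h4] at h3 ⊢
          rw [p1 (2 * z.1 + 2) (by right; omega)]
          exact h3
        · rw [if_neg h4] at h3 ⊢
          exact h3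
      · rw [if_neg h2, if_neg (fun x => h2 x.2), add_zero]
        exact hG0 z
    · have h2 : gV S (2 * s) z = 0 := by
        unfold gV
        rw [gBox_out (z := (z.1, z.2 + 1)) (Or.inr (by simp only; omega)), mi_empty hS]
      rw [h2, ite_self, if_neg (fun x => h1 x.1), add_zero]
      exact hG0 z
  have hsum := Finset.sum_le_sum hpt
  rw [Finset.sum_add_distrib] at hsum
  have e1 : ∑ z ∈ gT L (2 * s), (if z.2 + 1 < L / (2 * s) ∧ c z ≠ c (z.1, z.2 + 1) then
      2 * (C * (s : ℝ) ^ a) else 0) = ((gT L (2 * s)).filter (fun z => z.2 + 1 < L / (2 * s) ∧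
        c z ≠ c (z.1, z.2 + 1))).card * (2 * (C * (s : ℝ) ^ a)) := by
    rw [← Finset.sum_filter, Finset.sum_const, nsmul_eq_mul]
  rw [e1] at hsum
  have e2 : ∑ z ∈ gT L (2 * s), G z ≤
      gSum (gT L s) (fun z => (z.1, z.2 + 1)) (gV S s) (fun z => c (gPar L s z)) := by
    have e3 : gSum (gT L s) (fun z => (z.1, z.2 + 1)) (gV S s) (fun z => c (gPar L s z)) =
        ∑ i2 ∈ range (L / s), ∑ i1 ∈ range (L / s), f i1 i2 := by
      unfold gSum gT
      rw [Finset.sum_product, Finset.sum_comm]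
    rw [e3]
    have e4 : ∑ z ∈ gT L (2 * s), G z =
        ∑ I ∈ range (L / s / 2), ∑ i1 ∈ range (L / s), f i1 (2 * I + 1) := by
      unfold gT
      rw [Finset.sum_product, Finset.sum_comm, hk]
      refine Finset.sum_congr rfl fun I _ => ?_
      rw [← rf_row (fun i1 => f i1 (2 * I + 1)) (L / s) hk2]
    rw [e4]
    exact rf_col (fun i2 => ∑ i1 ∈ range (L / s), f i1 i2)
      (fun i2 => Finset.sum_nonneg fun i1 _ => hf0 _ _) (L / s)
  unfold gSum at e2 ⊢
  linarith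

end Vale.Agent.P356.SA
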