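import Vale.Agent.P356.SV.Ent
import Mathlib.Analysis.Calculus.Deriv.MeanValue

/-!
Strong subadditivity of the von Neumann entropy, through a variational formula: for `t > 0`,
`sup_X [2 Re Tr ρ X - t Tr ρ Xᴴ X - Tr σ X Xᴴ]` is monotone under partial traces, and its
integral over `t` is the relative entropy.
-/

set_option linter.all false

namespace Vale.Agent.P356.SA

open Matrix Finset Vale.Agent.P356 Vale.Agent.P356.SV Vale.Agent.P356.Path
open scoped BigOperators ComplexOrder Kronecker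

section real

/-- integration in the parameter `t` -/
theorem ssa_int {K L : Type*} [Fintype K] [Fintype L] (c p s : K → ℝ) (c' p' s' : L → ℝ)
    (hp : ∀ k, 0 ≤ p k) (hs : ∀ k, 0 ≤ s k)
    (hp' : ∀ k, 0 ≤ p' k) (hs' : ∀ k, 0 ≤ s' k)
    (hz : ∀ k, s k = 0 → c k * p k = 0) (hz' : ∀ k, s' k = 0 → c' k * p' k = 0)
    (hsum : ∑ k, c k * p k = ∑ k, c' k * p' k)
    (h : ∀ t : ℝ, 0 < t → ∑ k, c k * (p k ^ 2 / (t * p k + s k)) ≤
      ∑ k, c' k * (p' k ^ 2 / (t * p' k + s' k))) :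
    ∑ k, c k * p k * (Real.log (p k) - Real.log (s k)) ≤
      ∑ k, c' k * p' k * (Real.log (p' k) - Real.log (s' k)) := by
  have hder : ∀ (c p s : ℝ), 0 ≤ p → 0 ≤ s → (s = 0 → c * p = 0) → ∀ t : ℝ, 0 ≤ t →
      HasDerivAt (fun t : ℝ => c * p * Real.log (t * p + s)) (c * (p ^ 2 / (t * p + s))) t := by
    intro c p s hp hs hz t ht
    by_cases h0 : c * p = 0
    · have e : c * (p ^ 2 / (t * p + s)) = 0 := by
        have : c * (p ^ 2 / (t * p + s)) = (c * p) * (p / (t * p + s)) := by ring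
        rw [this, h0, zero_mul]
      rw [e]
      simp only [h0, zero_mul]
      exact hasDerivAt_const t 0
    · have hs0 : 0 < s := lt_of_le_of_ne hs fun h => h0 (hz h.symm)
      have hpos : 0 < t * p + s := by positivity
      have h1 : HasDerivAt (fun t : ℝ => t * p + s) p t := by
        have := ((hasDerivAt_id t).mul_const p).add_const s
        simpa using this
      have h2 := (h1.log hpos.ne').const_mul (c * p)
      have e : c * (p ^ 2 / (t * p + s)) = c * p * (p / (t * p + s)) := by ring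
      rw [e]
      exact h2
  have hlim : ∀ (c p s : ℝ), 0 ≤ p → 0 ≤ s →
      Filter.Tendsto (fun t : ℝ => c * p * (Real.log (t * p + s) - Real.log t)) Filter.atTop
        (nhds (c * p * Real.log p)) := by
    intro c p s hp hs
    rcases hp.eq_or_lt with h0 | h0
    · subst h0
      simp
    · refine Filter.Tendsto.const_mul _ ?_
      have h1 : Filter.Tendsto (fun t : ℝ => p + s * t⁻¹) Filter.atTop (nhds (p + s * 0)) :=
        (tendsto_inv_atTop_zero.const_mul s).const_add p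
      rw [mul_zero, add_zero] at h1
      have h2 := h1.log h0.ne'
      refine h2.congr' ?_
      filter_upwards [Filter.eventually_gt_atTop (0 : ℝ)] with t ht
      have e : t * p + s = t * (p + s * t⁻¹) := by field_simp
      rw [e, Real.log_mul ht.ne' (by positivity)]
      ring
  set f : ℝ → ℝ := fun t => ∑ k, c' k * p' k * Real.log (t * p' k + s' k) -
    ∑ k, c k * p k * Real.log (t * p k + s k) with hf
  have hfd : ∀ t : ℝ, 0 ≤ t → HasDerivAt f (∑ k, c' k * (p' k ^ 2 / (t * p' k + s' k)) -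
      ∑ k, c k * (p k ^ 2 / (t * p k + s k))) t := by
    intro t ht
    exact (HasDerivAt.fun_sum fun k _ => hder _ _ _ (hp' k) (hs' k) (hz' k) t ht).sub
      (HasDerivAt.fun_sum fun k _ => hder _ _ _ (hp k) (hs k) (hz k) t ht)
  have hmono : MonotoneOn f (Set.Ici 0) := by
    refine monotoneOn_of_deriv_nonneg (convex_Ici 0)
      (fun t ht => (hfd t ht).continuousAt.continuousWithinAt) ?_ ?_
    · intro t ht
      rw [interior_Ici] at ht
      exact (hfd t (le_of_lt ht)).differentiableAt.differentiableWithinAt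
    · intro t ht
      rw [interior_Ici] at ht
      rw [(hfd t (le_of_lt ht)).deriv]
      linarith [h t ht]
  have hft : Filter.Tendsto f Filter.atTop
      (nhds (∑ k, c' k * p' k * Real.log (p' k) - ∑ k, c k * p k * Real.log (p k))) := by
    have h1 : Filter.Tendsto (fun t : ℝ =>
        ∑ k, c' k * p' k * (Real.log (t * p' k + s' k) - Real.log t) -
        ∑ k, c k * p k * (Real.log (t * p k + s k) - Real.log t)) Filter.atTop
        (nhds (∑ k, c' k * p' k * Real.log (p' k) - ∑ k, c k * p k * Real.log (p k))) :=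
      (tendsto_finset_sum _ fun k _ => hlim _ _ _ (hp' k) (hs' k)).sub
        (tendsto_finset_sum _ fun k _ => hlim _ _ _ (hp k) (hs k))
    refine h1.congr fun t => ?_
    rw [hf]
    simp only [mul_sub, Finset.sum_sub_distrib, ← Finset.sum_mul]
    rw [hsum]
    ring
  have hfin : f 0 ≤ ∑ k, c' k * p' k * Real.log (p' k) - ∑ k, c k * p k * Real.log (p k) := by
    refine ge_of_tendsto hft ?_
    filter_upwards [Filter.eventually_ge_atTop (0 : ℝ)] with t ht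
    exact hmono (Set.mem_Ici.mpr le_rfl) (Set.mem_Ici.mpr ht) ht
  have hf0 : f 0 = ∑ k, c' k * p' k * Real.log (s' k) - ∑ k, c k * p k * Real.log (s k) := by
    rw [hf]
    simp only [zero_mul, zero_add]
  rw [hf0] at hfin
  simp only [mul_sub, Finset.sum_sub_distrib]
  linarith

end real

section quad
variable {ι : Type*} [Fintype ι] [DecidableEq ι]

/-- the quadratic functional -/
noncomputable def ssa_qf (ρ σ X : Matrix ι ι ℂ) (t : ℝ) : ℝ :=
  2 * (ρ * X).trace.re - t * (ρ * (Xᴴ * X)).trace.re - (σ * (X * Xᴴ)).trace.re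

/-- the quadratic functional in eigenbases -/
theorem ssa_qf_eq {ρ σ U W : Matrix ι ι ℂ} {p s : ι → ℝ} (hU : U * Uᴴ = 1) (hW : W * Wᴴ = 1)
    (hρ : ρ = U * diagonal (fun i => (p i : ℂ)) * Uᴴ)
    (hσ : σ = W * diagonal (fun i => (s i : ℂ)) * Wᴴ) (X : Matrix ι ι ℂ) (t : ℝ) :
    ssa_qf ρ σ X t = ∑ i, ∑ j, (2 * p i * ((star ((Wᴴ * U) j i)) * (Wᴴ * X * U) j i).re -
      (t * p i + s j) * ‖(Wᴴ * X * U) j i‖ ^ 2) := by
  have hU' : Uᴴ * U = 1 := mul_eq_one_comm.mp hU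
  have hW' : Wᴴ * W = 1 := mul_eq_one_comm.mp hW
  set Y := Wᴴ * X * U with hY
  set T := Wᴴ * U with hT
  have e1 : (ρ * X).trace = ∑ i, ∑ j, (p i : ℂ) * (star (T j i) * Y j i) := by
    have h1 : (ρ * X).trace = (diagonal (fun i => (p i : ℂ)) * (Tᴴ * Y)).trace := by
      rw [hρ, hT, hY, conjTranspose_mul, conjTranspose_conjTranspose]
      calc (U * diagonal (fun i => (p i : ℂ)) * Uᴴ * X).trace
          = (U * (diagonal (fun i => (p i : ℂ)) * Uᴴ * X)).trace := by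
            simp only [Matrix.mul_assoc]
        _ = ((diagonal (fun i => (p i : ℂ)) * Uᴴ * X) * U).trace := Matrix.trace_mul_comm _ _
        _ = (diagonal (fun i => (p i : ℂ)) * Uᴴ * (W * Wᴴ) * X * U).trace := by
            rw [hW, Matrix.mul_one]
        _ = _ := by simp only [Matrix.mul_assoc]
    rw [h1, Matrix.trace]
    refine Finset.sum_congr rfl fun i _ => ?_
    rw [diag_apply, diagonal_mul, mul_apply, Finset.mul_sum]
    refine Finset.sum_congr rfl fun j _ => ?_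
    rw [conjTranspose_apply]
  have e2 : (ρ * (Xᴴ * X)).trace = ∑ i, ∑ j, ((p i * ‖Y j i‖ ^ 2 : ℝ) : ℂ) := by
    have h1 : (ρ * (Xᴴ * X)).trace = (diagonal (fun i => (p i : ℂ)) * (Yᴴ * Y)).trace := by
      rw [hρ, hY, conjTranspose_mul, conjTranspose_mul, conjTranspose_conjTranspose]
      calc (U * diagonal (fun i => (p i : ℂ)) * Uᴴ * (Xᴴ * X)).trace
          = (U * (diagonal (fun i => (p i : ℂ)) * Uᴴ * (Xᴴ * X))).trace := by
            simp only [Matrix.mul_assoc]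
        _ = ((diagonal (fun i => (p i : ℂ)) * Uᴴ * (Xᴴ * X)) * U).trace :=
            Matrix.trace_mul_comm _ _
        _ = (diagonal (fun i => (p i : ℂ)) * Uᴴ * (Xᴴ * (W * Wᴴ) * X) * U).trace := by
            rw [hW, Matrix.mul_one]
        _ = _ := by simp only [Matrix.mul_assoc]
    rw [h1, Matrix.trace]
    refine Finset.sum_congr rfl fun i _ => ?_
    rw [diag_apply, diagonal_mul, mul_apply, Finset.mul_sum]
    refine Finset.sum_congr rfl fun j _ => ?_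
    rw [conjTranspose_apply, RCLike.star_def, Complex.conj_mul']
    push_cast
    ring
  have e3 : (σ * (X * Xᴴ)).trace = ∑ i, ∑ j, ((s j * ‖Y j i‖ ^ 2 : ℝ) : ℂ) := by
    have h1 : (σ * (X * Xᴴ)).trace = (diagonal (fun i => (s i : ℂ)) * (Y * Yᴴ)).trace := by
      rw [hσ, hY, conjTranspose_mul, conjTranspose_mul, conjTranspose_conjTranspose]
      calc (W * diagonal (fun i => (s i : ℂ)) * Wᴴ * (X * Xᴴ)).trace
          = (W * (diagonal (fun i => (s i : ℂ)) * Wᴴ * (X * Xᴴ))).trace := by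
            simp only [Matrix.mul_assoc]
        _ = ((diagonal (fun i => (s i : ℂ)) * Wᴴ * (X * Xᴴ)) * W).trace :=
            Matrix.trace_mul_comm _ _
        _ = (diagonal (fun i => (s i : ℂ)) * Wᴴ * (X * (U * Uᴴ) * Xᴴ) * W).trace := by
            rw [hU, Matrix.mul_one]
        _ = _ := by simp only [Matrix.mul_assoc]
    rw [h1, Matrix.trace, Finset.sum_comm]
    refine Finset.sum_congr rfl fun j _ => ?_
    rw [diag_apply, diagonal_mul, mul_apply, Finset.mul_sum]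
    refine Finset.sum_congr rfl fun i _ => ?_
    rw [conjTranspose_apply, RCLike.star_def, Complex.mul_conj']
    push_cast
    ring
  rw [ssa_qf, e1, e2, e3]
  simp only [Complex.re_sum, Complex.ofReal_re, Complex.re_ofReal_mul]
  rw [Finset.mul_sum, Finset.mul_sum, ← Finset.sum_sub_distrib, ← Finset.sum_sub_distrib]
  refine Finset.sum_congr rfl fun i _ => ?_
  rw [Finset.mul_sum, Finset.mul_sum, ← Finset.sum_sub_distrib, ← Finset.sum_sub_distrib]
  refine Finset.sum_congr rfl fun j _ => ?_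
  ring

theorem ssa_qf_le {ρ σ U W : Matrix ι ι ℂ} {p s : ι → ℝ} (hU : U * Uᴴ = 1) (hW : W * Wᴴ = 1)
    (hρ : ρ = U * diagonal (fun i => (p i : ℂ)) * Uᴴ)
    (hσ : σ = W * diagonal (fun i => (s i : ℂ)) * Wᴴ) (hp : ∀ i, 0 ≤ p i) (hs : ∀ i, 0 ≤ s i)
    (X : Matrix ι ι ℂ) {t : ℝ} (ht : 0 < t) :
    ssa_qf ρ σ X t ≤ ∑ i, ∑ j, ‖(Wᴴ * U) j i‖ ^ 2 * (p i ^ 2 / (t * p i + s j)) := by
  rw [ssa_qf_eq hU hW hρ hσ]
  refine Finset.sum_le_sum fun i _ => Finset.sum_le_sum fun j _ => ?_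
  set z := (Wᴴ * U) j i
  set y := (Wᴴ * X * U) j i
  rcases (hp i).eq_or_lt with h0 | h0
  · rw [← h0]
    have := mul_nonneg (hs j) (sq_nonneg ‖y‖)
    simp only [mul_zero, zero_mul, zero_add, zero_sub]
    norm_num
    exact this
  · have hd : 0 < t * p i + s j := by have := hs j; positivity
    have h1 : (star z * y).re ≤ ‖z‖ * ‖y‖ := by
      refine (Complex.re_le_norm _).trans (le_of_eq ?_)
      rw [norm_mul, norm_star]
    have h2 : 2 * p i * (star z * y).re ≤ 2 * p i * (‖z‖ * ‖y‖) :=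
      mul_le_mul_of_nonneg_left h1 (by positivity)
    have h3 : 2 * p i * (‖z‖ * ‖y‖) - (t * p i + s j) * ‖y‖ ^ 2 ≤
        ‖z‖ ^ 2 * (p i ^ 2 / (t * p i + s j)) := by
      have h4 : ‖z‖ ^ 2 * (p i ^ 2 / (t * p i + s j)) -
          (2 * p i * (‖z‖ * ‖y‖) - (t * p i + s j) * ‖y‖ ^ 2) =
          (p i * ‖z‖ - (t * p i + s j) * ‖y‖) ^ 2 / (t * p i + s j) := by
        rw [eq_div_iff hd.ne']
        have h6 : p i ^ 2 / (t * p i + s j) * (t * p i + s j) = p i ^ 2 :=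
          div_mul_cancel₀ _ hd.ne'
        linear_combination ‖z‖ ^ 2 * h6
      have h5 : 0 ≤ (p i * ‖z‖ - (t * p i + s j) * ‖y‖) ^ 2 / (t * p i + s j) := by positivity
      linarith
    linarith

theorem ssa_qf_max {ρ σ U W : Matrix ι ι ℂ} {p s : ι → ℝ} (hU : U * Uᴴ = 1) (hW : W * Wᴴ = 1)
    (hρ : ρ = U * diagonal (fun i => (p i : ℂ)) * Uᴴ)
    (hσ : σ = W * diagonal (fun i => (s i : ℂ)) * Wᴴ) (hp : ∀ i, 0 ≤ p i) (hs : ∀ i, 0 ≤ s i)
    {t : ℝ} (ht : 0 < t) :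
    ∃ X, ssa_qf ρ σ X t = ∑ i, ∑ j, ‖(Wᴴ * U) j i‖ ^ 2 * (p i ^ 2 / (t * p i + s j)) := by
  have hU' : Uᴴ * U = 1 := mul_eq_one_comm.mp hU
  have hW' : Wᴴ * W = 1 := mul_eq_one_comm.mp hW
  set Y : Matrix ι ι ℂ := fun j i => ((p i / (t * p i + s j) : ℝ) : ℂ) * (Wᴴ * U) j i with hY
  refine ⟨W * Y * Uᴴ, ?_⟩
  rw [ssa_qf_eq hU hW hρ hσ]
  have e : Wᴴ * (W * Y * Uᴴ) * U = Y := by
    calc Wᴴ * (W * Y * Uᴴ) * U = (Wᴴ * W) * Y * (Uᴴ * U) := by simp only [Matrix.mul_assoc]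
      _ = Y := by rw [hW', hU', Matrix.one_mul, Matrix.mul_one]
  rw [e]
  refine Finset.sum_congr rfl fun i _ => Finset.sum_congr rfl fun j _ => ?_
  simp only [hY]
  set z := (Wᴴ * U) j i
  have e1 : (star z * (((p i / (t * p i + s j) : ℝ) : ℂ) * z)).re =
      p i / (t * p i + s j) * ‖z‖ ^ 2 := by
    have : star z * (((p i / (t * p i + s j) : ℝ) : ℂ) * z) =
        ((p i / (t * p i + s j) * ‖z‖ ^ 2 : ℝ) : ℂ) := by
      push_cast
      rw [← Complex.conj_mul', RCLike.star_def]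
      ring
    rw [this, Complex.ofReal_re]
  have e2 : ‖((p i / (t * p i + s j) : ℝ) : ℂ) * z‖ ^ 2 =
      (p i / (t * p i + s j)) ^ 2 * ‖z‖ ^ 2 := by
    rw [norm_mul, mul_pow, Complex.norm_real, Real.norm_eq_abs, sq_abs]
  rw [e1, e2]
  rcases (hp i).eq_or_lt with h0 | h0
  · rw [← h0]
    simp
  · have hd : 0 < t * p i + s j := by have := hs j; positivity
    have h6 : p i ^ 2 / (t * p i + s j) = p i / (t * p i + s j) * p i := by ring
    have h7 : (t * p i + s j) * (p i / (t * p i + s j)) = p i := mul_div_cancel₀ _ hd.ne'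
    rw [h6]
    linear_combination (-(p i / (t * p i + s j)) * ‖z‖ ^ 2) * h7

end quad

section mono
variable {α κ : Type*} [Fintype α] [Fintype κ] [DecidableEq α] [DecidableEq κ]

/-- the functional of a partial trace -/
theorem ssa_qf_pt {ι : Type*} [Fintype ι] [DecidableEq ι] (e : ι ≃ α × κ) (ρ σ : Matrix ι ι ℂ)
    (ρ' σ' : Matrix κ κ ℂ)
    (hρ : ∀ k k', ρ' k k' = ∑ a, ρ (e.symm (a, k)) (e.symm (a, k')))
    (hσ : ∀ k k', σ' k k' = ∑ a, σ (e.symm (a, k)) (e.symm (a, k'))) (X : Matrix κ κ ℂ) (t : ℝ) :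
    ssa_qf ρ' σ' X t = ssa_qf ρ σ
      (Matrix.submatrix ((1 : Matrix α α ℂ) ⊗ₖ X) e e) t := by
  have key : ∀ (τ : Matrix ι ι ℂ) (τ' : Matrix κ κ ℂ)
      (hτ : ∀ k k', τ' k k' = ∑ a, τ (e.symm (a, k)) (e.symm (a, k'))) (Z : Matrix κ κ ℂ),
      (τ' * Z).trace = (τ * Matrix.submatrix ((1 : Matrix α α ℂ) ⊗ₖ Z) e e).trace := by
    intro τ τ' hτ Z
    rw [Matrix.trace, Matrix.trace, ← e.symm.sum_comp, Fintype.sum_prod_type]
    simp only [diag_apply, mul_apply]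
    have h1 : ∀ a k, ∑ x, τ (e.symm (a, k)) x *
        (Matrix.submatrix ((1 : Matrix α α ℂ) ⊗ₖ Z) e e) x (e.symm (a, k)) =
        ∑ k', τ (e.symm (a, k)) (e.symm (a, k')) * Z k' k := by
      intro a k
      rw [← e.symm.sum_comp, Fintype.sum_prod_type, Finset.sum_comm]
      refine Finset.sum_congr rfl fun k' _ => ?_
      rw [Finset.sum_eq_single a]
      · simp [kroneckerMap_apply]
      · intro b _ hb
        simp [kroneckerMap_apply, one_apply_ne hb]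
      · intro h
        exact absurd (Finset.mem_univ a) h
    simp only [h1]
    refine Eq.trans ?_ Finset.sum_comm
    refine Finset.sum_congr rfl fun k _ => ?_
    refine Eq.trans ?_ Finset.sum_comm
    refine Finset.sum_congr rfl fun k' _ => ?_
    rw [hτ, Finset.sum_mul]
  have m1 : (Matrix.submatrix ((1 : Matrix α α ℂ) ⊗ₖ X) e e)ᴴ =
      Matrix.submatrix ((1 : Matrix α α ℂ) ⊗ₖ Xᴴ) e e := by
    rw [conjTranspose_submatrix, conjTranspose_kronecker, conjTranspose_one]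
  have m2 : ∀ A B : Matrix κ κ ℂ, Matrix.submatrix ((1 : Matrix α α ℂ) ⊗ₖ A) e e *
      Matrix.submatrix ((1 : Matrix α α ℂ) ⊗ₖ B) e e =
      Matrix.submatrix ((1 : Matrix α α ℂ) ⊗ₖ (A * B)) e e := by
    intro A B
    rw [Matrix.submatrix_mul_equiv, ← mul_kronecker_mul, Matrix.one_mul]
  rw [ssa_qf, ssa_qf, m1, m2, m2, key ρ ρ' hρ, key ρ ρ' hρ, key σ σ' hσ]

/-- Monotonicity of the relative entropy under a partial trace, in terms of spectral data. -/
theorem ssa_mono {ι : Type*} [Fintype ι] [DecidableEq ι] (e : ι ≃ α × κ) {ρ σ U W : Matrix ι ι ℂ}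
    {p s : ι → ℝ} {ρ' σ' U' W' : Matrix κ κ ℂ} {p' s' : κ → ℝ}
    (hU : U * Uᴴ = 1) (hW : W * Wᴴ = 1)
    (hρ : ρ = U * diagonal (fun i => (p i : ℂ)) * Uᴴ)
    (hσ : σ = W * diagonal (fun i => (s i : ℂ)) * Wᴴ) (hp : ∀ i, 0 ≤ p i) (hs : ∀ i, 0 ≤ s i)
    (hU' : U' * U'ᴴ = 1) (hW' : W' * W'ᴴ = 1)
    (hρ' : ρ' = U' * diagonal (fun i => (p' i : ℂ)) * U'ᴴ)
    (hσ' : σ' = W' * diagonal (fun i => (s' i : ℂ)) * W'ᴴ) (hp' : ∀ i, 0 ≤ p' i)
    (hs' : ∀ i, 0 ≤ s' i)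
    (hz : ∀ i j, s j = 0 → ‖(Wᴴ * U) j i‖ ^ 2 * p i = 0)
    (hz' : ∀ i j, s' j = 0 → ‖(W'ᴴ * U') j i‖ ^ 2 * p' i = 0)
    (htr : ∑ i, p i = ∑ i, p' i)
    (hρt : ∀ k k', ρ' k k' = ∑ a, ρ (e.symm (a, k)) (e.symm (a, k')))
    (hσt : ∀ k k', σ' k k' = ∑ a, σ (e.symm (a, k)) (e.symm (a, k'))) :
    ∑ i, ∑ j, ‖(W'ᴴ * U') j i‖ ^ 2 * p' i * (Real.log (p' i) - Real.log (s' j)) ≤
      ∑ i, ∑ j, ‖(Wᴴ * U) j i‖ ^ 2 * p i * (Real.log (p i) - Real.log (s j)) := by
  have hT : (Wᴴ * U) * (Wᴴ * U)ᴴ = 1 := by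
    rw [conjTranspose_mul, conjTranspose_conjTranspose]
    calc Wᴴ * U * (Uᴴ * W) = Wᴴ * (U * Uᴴ) * W := by simp only [Matrix.mul_assoc]
      _ = 1 := by rw [hU, Matrix.mul_one]; exact mul_eq_one_comm.mp hW
  have hT' : (W'ᴴ * U') * (W'ᴴ * U')ᴴ = 1 := by
    rw [conjTranspose_mul, conjTranspose_conjTranspose]
    calc W'ᴴ * U' * (U'ᴴ * W') = W'ᴴ * (U' * U'ᴴ) * W' := by simp only [Matrix.mul_assoc]
      _ = 1 := by rw [hU', Matrix.mul_one]; exact mul_eq_one_comm.mp hW'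
  have h := ssa_int (K := κ × κ) (L := ι × ι) (fun z => ‖(W'ᴴ * U') z.2 z.1‖ ^ 2)
    (fun z => p' z.1) (fun z => s' z.2) (fun z => ‖(Wᴴ * U) z.2 z.1‖ ^ 2)
    (fun z => p z.1) (fun z => s z.2) (fun z => hp' z.1) (fun z => hs' z.2) (fun z => hp z.1)
    (fun z => hs z.2) (fun z h => hz' z.1 z.2 h) (fun z h => hz z.1 z.2 h) ?_ ?_
  · simpa only [Fintype.sum_prod_type] using h
  · simp only [Fintype.sum_prod_type, ← Finset.sum_mul]
    simp only [b7_col hT, b7_col hT', one_mul]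
    exact htr.symm
  · intro t ht
    simp only [Fintype.sum_prod_type]
    obtain ⟨X, hX⟩ := ssa_qf_max hU' hW' hρ' hσ' hp' hs' ht
    rw [← hX, ssa_qf_pt e ρ σ ρ' σ' hρt hσt]
    exact ssa_qf_le hU hW hρ hσ hp hs _ ht

end mono

section marg
variable {κ γ : Type*} [Fintype κ] [Fintype γ] [DecidableEq κ] [DecidableEq γ]

theorem ssa_marg {ρ : Matrix (κ × γ) (κ × γ) ℂ} {ρκ : Matrix κ κ ℂ}
    (hκ : ∀ i i', ρκ i i' = ∑ c, ρ (i, c) (i', c)) (h : ρ.IsHermitian) (hh : ρκ.IsHermitian)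
    (j : κ) :
    ∑ c : γ, ∑ i, h.eigenvalues i *
      ‖(((hh.eigenvectorUnitary : Matrix κ κ ℂ) ⊗ₖ (1 : Matrix γ γ ℂ))ᴴ *
        (h.eigenvectorUnitary : Matrix (κ × γ) (κ × γ) ℂ)) (j, c) i‖ ^ 2 = hh.eigenvalues j := by
  set V := (hh.eigenvectorUnitary : Matrix κ κ ℂ) with hV
  set R : Matrix (κ × γ) (κ × γ) ℂ := V ⊗ₖ (1 : Matrix γ γ ℂ) with hR
  have h1 : ∀ c, (Rᴴ * ρ * R) (j, c) (j, c) =
      ∑ i', ∑ i, star (V i j) * ρ (i, c) (i', c) * V i' j := by
    intro c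
    rw [mul_apply, Fintype.sum_prod_type]
    refine Finset.sum_congr rfl fun i' _ => ?_
    rw [Finset.sum_eq_single c]
    · have h2 : (Rᴴ * ρ) (j, c) (i', c) = ∑ i, star (V i j) * ρ (i, c) (i', c) := by
        rw [mul_apply, Fintype.sum_prod_type]
        refine Finset.sum_congr rfl fun i _ => ?_
        rw [Finset.sum_eq_single c]
        · rw [conjTranspose_apply, hR, kroneckerMap_apply, one_apply_eq, mul_one]
        · intro c' _ hc'
          rw [conjTranspose_apply, hR, kroneckerMap_apply, one_apply_ne hc', mul_zero, star_zero,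
            zero_mul]
        · intro hc
          exact absurd (Finset.mem_univ c) hc
      rw [h2, hR, kroneckerMap_apply, one_apply_eq, mul_one, Finset.sum_mul]
    · intro c' _ hc'
      rw [hR, kroneckerMap_apply, one_apply_ne hc', mul_zero, mul_zero]
    · intro hc
      exact absurd (Finset.mem_univ c) hc
  have h2 : ((∑ c : γ, ∑ i, h.eigenvalues i *
      ‖(Rᴴ * (h.eigenvectorUnitary : Matrix (κ × γ) (κ × γ) ℂ)) (j, c) i‖ ^ 2 : ℝ) : ℂ) =
      (Vᴴ * ρκ * V) j j := by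
    rw [Complex.ofReal_sum]
    have e : ∀ c : γ, ((∑ i, h.eigenvalues i *
        ‖(Rᴴ * (h.eigenvectorUnitary : Matrix (κ × γ) (κ × γ) ℂ)) (j, c) i‖ ^ 2 : ℝ) : ℂ) =
        ∑ i', ∑ i, star (V i j) * ρ (i, c) (i', c) * V i' j := fun c => by
      rw [← b7_diag_entry h R (j, c), h1]
    rw [Finset.sum_congr rfl fun c _ => e c, Finset.sum_comm, mul_apply]
    refine Finset.sum_congr rfl fun i' _ => ?_
    rw [Finset.sum_comm, mul_apply, Finset.sum_mul]
    refine Finset.sum_congr rfl fun i _ => ?_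
    rw [conjTranspose_apply, hκ, Finset.mul_sum, Finset.sum_mul]
  have h3 := b7_diag hh
  rw [← hV] at h3
  rw [h3, diagonal_apply_eq] at h2
  exact_mod_cast h2

theorem ssa_eval {ρ : Matrix (κ × γ) (κ × γ) ℂ} {ρκ : Matrix κ κ ℂ}
    (hκ : ∀ i i', ρκ i i' = ∑ c, ρ (i, c) (i', c)) (h : ρ.IsHermitian) (hh : ρκ.IsHermitian) :
    ∑ i, ∑ j : κ × γ, ‖(((hh.eigenvectorUnitary : Matrix κ κ ℂ) ⊗ₖ (1 : Matrix γ γ ℂ))ᴴ *
        (h.eigenvectorUnitary : Matrix (κ × γ) (κ × γ) ℂ)) j i‖ ^ 2 * h.eigenvalues i *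
        (Real.log (h.eigenvalues i) - Real.log (hh.eigenvalues j.1)) =
      -vnEntropy ρ + vnEntropy ρκ := by
  set V := (hh.eigenvectorUnitary : Matrix κ κ ℂ) with hV
  set U := (h.eigenvectorUnitary : Matrix (κ × γ) (κ × γ) ℂ) with hU
  have hVV : V * Vᴴ = 1 := b7_unitary hh
  have hUU : U * Uᴴ = 1 := b7_unitary h
  set R : Matrix (κ × γ) (κ × γ) ℂ := V ⊗ₖ (1 : Matrix γ γ ℂ) with hR
  have hRR : R * Rᴴ = 1 := by
    rw [hR, conjTranspose_kronecker, ← mul_kronecker_mul, hVV, conjTranspose_one, Matrix.one_mul,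
      one_kronecker_one]
  have hT : (Rᴴ * U) * (Rᴴ * U)ᴴ = 1 := by
    rw [conjTranspose_mul, conjTranspose_conjTranspose]
    calc Rᴴ * U * (Uᴴ * R) = Rᴴ * (U * Uᴴ) * R := by simp only [Matrix.mul_assoc]
      _ = 1 := by rw [hUU, Matrix.mul_one]; exact mul_eq_one_comm.mp hRR
  simp only [mul_sub, Finset.sum_sub_distrib]
  have e1 : ∑ i, ∑ j : κ × γ, ‖(Rᴴ * U) j i‖ ^ 2 * h.eigenvalues i *
      Real.log (h.eigenvalues i) = -vnEntropy ρ := by
    rw [vnEntropy, dif_pos h, ← Finset.sum_neg_distrib]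
    refine Finset.sum_congr rfl fun i _ => ?_
    rw [← Finset.sum_mul, ← Finset.sum_mul, b7_col hT, Real.negMulLog]
    ring
  have e2 : ∑ i, ∑ j : κ × γ, ‖(Rᴴ * U) j i‖ ^ 2 * h.eigenvalues i *
      Real.log (hh.eigenvalues j.1) = -vnEntropy ρκ := by
    rw [vnEntropy, dif_pos hh, ← Finset.sum_neg_distrib, Finset.sum_comm, Fintype.sum_prod_type]
    refine Finset.sum_congr rfl fun j _ => ?_
    have e3 : ∑ c : γ, ∑ i, ‖(Rᴴ * U) (j, c) i‖ ^ 2 * h.eigenvalues i *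
        Real.log (hh.eigenvalues j) =
        (∑ c : γ, ∑ i, h.eigenvalues i * ‖(Rᴴ * U) (j, c) i‖ ^ 2) *
          Real.log (hh.eigenvalues j) := by
      rw [Finset.sum_mul]
      refine Finset.sum_congr rfl fun c _ => ?_
      rw [Finset.sum_mul]
      exact Finset.sum_congr rfl fun i _ => by ring
    rw [e3, ssa_marg hκ h hh j, Real.negMulLog]
    ring
  rw [e1, e2]
  ring

end marg

section matrix
variable {α β γ : Type*} [Fintype α] [Fintype β] [Fintype γ] [DecidableEq α] [DecidableEq β]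
  [DecidableEq γ]

theorem ssa_pt_herm {κ γ : Type*} [Fintype κ] [Fintype γ] [DecidableEq κ] [DecidableEq γ]
    {ρ : Matrix (κ × γ) (κ × γ) ℂ} {ρκ : Matrix κ κ ℂ}
    (hκ : ∀ i i', ρκ i i' = ∑ c, ρ (i, c) (i', c)) (h : ρ.IsHermitian) : ρκ.IsHermitian := by
  ext i i'
  rw [conjTranspose_apply, hκ, hκ, star_sum]
  refine Finset.sum_congr rfl fun c _ => ?_
  have := congrFun (congrFun h (i, c)) (i', c)
  simpa [conjTranspose_apply] using this

/-- Data of one side of the comparison. -/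
theorem ssa_side {κ γ : Type*} [Fintype κ] [Fintype γ] [DecidableEq κ] [DecidableEq γ]
    {ρ : Matrix (κ × γ) (κ × γ) ℂ} (hρ : ρ.PosSemidef) {ρκ : Matrix κ κ ℂ}
    (hκ : ∀ i i', ρκ i i' = ∑ c, ρ (i, c) (i', c)) (hh : ρκ.IsHermitian) :
    ((hh.eigenvectorUnitary : Matrix κ κ ℂ) ⊗ₖ (1 : Matrix γ γ ℂ)) *
      ((hh.eigenvectorUnitary : Matrix κ κ ℂ) ⊗ₖ (1 : Matrix γ γ ℂ))ᴴ = 1 ∧
    (ρκ ⊗ₖ (1 : Matrix γ γ ℂ)) = ((hh.eigenvectorUnitary : Matrix κ κ ℂ) ⊗ₖ (1 : Matrix γ γ ℂ)) *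
      diagonal (fun z : κ × γ => ((hh.eigenvalues z.1 : ℝ) : ℂ)) *
      ((hh.eigenvectorUnitary : Matrix κ κ ℂ) ⊗ₖ (1 : Matrix γ γ ℂ))ᴴ ∧
    (∀ i, 0 ≤ hh.eigenvalues i) ∧
    (∀ i (j : κ × γ), hh.eigenvalues j.1 = 0 →
      ‖(((hh.eigenvectorUnitary : Matrix κ κ ℂ) ⊗ₖ (1 : Matrix γ γ ℂ))ᴴ *
        (hρ.isHermitian.eigenvectorUnitary : Matrix (κ × γ) (κ × γ) ℂ)) j i‖ ^ 2 *
        hρ.isHermitian.eigenvalues i = 0) := by
  have h := hρ.isHermitian
  have hm := ssa_marg hκ h hh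
  set V := (hh.eigenvectorUnitary : Matrix κ κ ℂ) with hV
  set U := (h.eigenvectorUnitary : Matrix (κ × γ) (κ × γ) ℂ) with hU
  have hVV : V * Vᴴ = 1 := b7_unitary hh
  have hp : ∀ i, 0 ≤ h.eigenvalues i := fun i => hρ.eigenvalues_nonneg i
  refine ⟨?_, ?_, ?_, ?_⟩
  · rw [conjTranspose_kronecker, ← mul_kronecker_mul, hVV, conjTranspose_one, Matrix.one_mul,
      one_kronecker_one]
  · have e : diagonal (fun z : κ × γ => ((hh.eigenvalues z.1 : ℝ) : ℂ)) =
        diagonal (fun i => ((hh.eigenvalues i : ℝ) : ℂ)) ⊗ₖ (1 : Matrix γ γ ℂ) := by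
      rw [← diagonal_one, diagonal_kronecker_diagonal]
      simp
    rw [e, conjTranspose_kronecker, ← mul_kronecker_mul, ← mul_kronecker_mul, conjTranspose_one,
      Matrix.one_mul, Matrix.one_mul, hV, ← b7_spec hh]
  · intro j
    rw [← hm j]
    exact Finset.sum_nonneg fun c _ => Finset.sum_nonneg fun i _ => mul_nonneg (hp i) (sq_nonneg _)
  · intro i j hj
    have h1 := hm j.1
    rw [hj] at h1
    have h2 := (Finset.sum_eq_zero_iff_of_nonneg (fun c _ => Finset.sum_nonneg fun i _ =>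
      mul_nonneg (hp i) (sq_nonneg _))).mp h1 j.2 (Finset.mem_univ _)
    have h3 := (Finset.sum_eq_zero_iff_of_nonneg (fun i _ =>
      mul_nonneg (hp i) (sq_nonneg _))).mp h2 i (Finset.mem_univ _)
    rw [mul_comm]
    exact h3

/-- Strong subadditivity for matrices. -/
theorem ssa_matrix {ρ : Matrix ((α × β) × γ) ((α × β) × γ) ℂ} (hρ : ρ.PosSemidef)
    {ρAB : Matrix (α × β) (α × β) ℂ} {ρBC : Matrix (β × γ) (β × γ) ℂ} {ρB : Matrix β β ℂ}
    (hAB : ∀ x x', ρAB x x' = ∑ c, ρ (x, c) (x', c))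
    (hBCp : ρBC.PosSemidef)
    (hBC : ∀ y y', ρBC y y' = ∑ a, ρ ((a, y.1), y.2) ((a, y'.1), y'.2))
    (hB : ∀ b b', ρB b b' = ∑ a, ρAB (a, b) (a, b')) :
    vnEntropy ρ + vnEntropy ρB ≤ vnEntropy ρAB + vnEntropy ρBC := by
  have hB' : ∀ b b', ρB b b' = ∑ c, ρBC (b, c) (b', c) := by
    intro b b'
    rw [hB]
    simp only [hAB, hBC]
    rw [Finset.sum_comm]
  have h := hρ.isHermitian
  have h' := hBCp.isHermitian
  have hhAB := ssa_pt_herm hAB h
  have hhB := ssa_pt_herm hB' h'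
  obtain ⟨a1, a2, a3, a4⟩ := ssa_side hρ hAB hhAB
  obtain ⟨b1, b2, b3, b4⟩ := ssa_side hBCp hB' hhB
  have key := ssa_mono (Equiv.prodAssoc α β γ) (b7_unitary h) a1 (b7_spec h) a2
    (fun i => hρ.eigenvalues_nonneg i) (fun z => a3 z.1) (b7_unitary h') b1 (b7_spec h') b2
    (fun i => hBCp.eigenvalues_nonneg i) (fun z => b3 z.1) a4 b4 ?_ ?_ ?_
  · rw [ssa_eval hAB h hhAB, ssa_eval hB' h' hhB] at key
    linarith
  · have e1 := h.trace_eq_sum_eigenvalues
    have e2 := h'.trace_eq_sum_eigenvalues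
    have e3 : ρ.trace = ρBC.trace := by
      simp only [Matrix.trace, diag_apply, Fintype.sum_prod_type, hBC]
      rw [Finset.sum_comm]
      refine Finset.sum_congr rfl fun b _ => ?_
      rw [Finset.sum_comm]
    rw [e1, e2] at e3
    have e4 := congrArg Complex.re e3
    simpa using e4
  · intro k k'
    exact hBC k k'
  · intro k k'
    obtain ⟨b, c⟩ := k
    obtain ⟨b', c'⟩ := k'
    simp only [kroneckerMap_apply, Equiv.prodAssoc_symm_apply, hB, Finset.sum_mul]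

end matrix

section regions
variable {V : Type*} [Fintype V] [DecidableEq V] {q : ℕ}

theorem ssa_rdmL (A B D : Finset V) (hAB : Disjoint A B) (hD : ∀ x, x ∈ D ↔ x ∈ A ∨ x ∈ B)
    (Ω : Conf V q → ℂ) (i i' : {x // x ∈ A} → Fin q) :
    rdm A Ω i i' = ∑ j, rdm D Ω ((b7_in A B D hAB hD q).symm (i, j))
      ((b7_in A B D hAB hD q).symm (i', j)) := by
  show ∑ c, Ω ((cut A q).symm (i, c)) * star (Ω ((cut A q).symm (i', c))) = _
  rw [← (b7_out A B D hAB hD q).symm.sum_comp, Fintype.sum_prod_type]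
  refine Finset.sum_congr rfl fun b _ => ?_
  show _ = ∑ c, Ω ((cut D q).symm (_, c)) * star (Ω ((cut D q).symm (_, c)))
  exact Finset.sum_congr rfl fun c _ => by
    rw [b7_glueA A B D hAB hD, b7_glueA A B D hAB hD]

theorem ssa_rdmR (A B D : Finset V) (hAB : Disjoint A B) (hD : ∀ x, x ∈ D ↔ x ∈ A ∨ x ∈ B)
    (Ω : Conf V q → ℂ) (j j' : {x // x ∈ B} → Fin q) :
    rdm B Ω j j' = ∑ i, rdm D Ω ((b7_in A B D hAB hD q).symm (i, j))
      ((b7_in A B D hAB hD q).symm (i, j')) := by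
  have hD' : ∀ x, x ∈ D ↔ x ∈ B ∨ x ∈ A := fun x => (hD x).trans or_comm
  show ∑ c, Ω ((cut B q).symm (j, c)) * star (Ω ((cut B q).symm (j', c))) = _
  rw [← (b7_out B A D hAB.symm hD' q).symm.sum_comp, Fintype.sum_prod_type]
  refine Finset.sum_congr rfl fun a _ => ?_
  show _ = ∑ c, Ω ((cut D q).symm (_, c)) * star (Ω ((cut D q).symm (_, c)))
  exact Finset.sum_congr rfl fun c _ => by
    rw [b7_glueB A B D hAB hD hD', b7_glueB A B D hAB hD hD']

/-- Strong subadditivity. -/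
theorem ssa (A B C : Finset V) (hAB : Disjoint A B) (hAC : Disjoint A C) (hBC : Disjoint B C)
    (Ω : Conf V q → ℂ) :
    entropyOf (A ∪ B ∪ C) Ω + entropyOf B Ω ≤ entropyOf (A ∪ B) Ω + entropyOf (B ∪ C) Ω := by
  have d1 : Disjoint (A ∪ B) C := Finset.disjoint_union_left.mpr ⟨hAC, hBC⟩
  have d2 : Disjoint A (B ∪ C) := Finset.disjoint_union_right.mpr ⟨hAB, hAC⟩
  have m1 : ∀ x, x ∈ A ∪ B ↔ x ∈ A ∨ x ∈ B := fun x => Finset.mem_union
  have m2 : ∀ x, x ∈ B ∪ C ↔ x ∈ B ∨ x ∈ C := fun x => Finset.mem_union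
  have m3 : ∀ x, x ∈ A ∪ B ∪ C ↔ x ∈ A ∪ B ∨ x ∈ C := fun x => Finset.mem_union
  have m4 : ∀ x, x ∈ A ∪ B ∪ C ↔ x ∈ A ∨ x ∈ B ∪ C := fun x => by
    rw [Finset.union_assoc]; exact Finset.mem_union
  set eAB := b7_in A B (A ∪ B) hAB m1 q with heAB
  set eBC := b7_in B C (B ∪ C) hBC m2 q with heBC
  set e1 := b7_in (A ∪ B) C (A ∪ B ∪ C) d1 m3 q with he1
  set e2 := b7_in A (B ∪ C) (A ∪ B ∪ C) d2 m4 q with he2
  have hglue : ∀ a b c, e1.symm (eAB.symm (a, b), c) = e2.symm (a, eBC.symm (b, c)) := by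
    intro a b c
    funext x
    simp only [he1, he2, heAB, heBC, b7_in, Equiv.coe_fn_symm_mk]
    by_cases hA : x.1 ∈ A
    · simp [hA]
    · by_cases hB : x.1 ∈ B
      · simp [hA, hB]
      · simp [hA, hB]
  let E : ({x // x ∈ A ∪ B ∪ C} → Fin q) ≃
      (({x // x ∈ A} → Fin q) × ({x // x ∈ B} → Fin q)) × ({x // x ∈ C} → Fin q) :=
    e1.trans (Equiv.prodCongr eAB (Equiv.refl _))
  have hE : ∀ a b c, E.symm ((a, b), c) = e1.symm (eAB.symm (a, b), c) := fun a b c => rfl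
  have r1 : vnEntropy (Matrix.reindex E E (rdm (A ∪ B ∪ C) Ω)) = entropyOf (A ∪ B ∪ C) Ω :=
    b7_vn_reindex E (b7_rdm_psd _ Ω).isHermitian
  have r2 : vnEntropy (Matrix.reindex eAB eAB (rdm (A ∪ B) Ω)) = entropyOf (A ∪ B) Ω :=
    b7_vn_reindex eAB (b7_rdm_psd _ Ω).isHermitian
  have r3 : vnEntropy (Matrix.reindex eBC eBC (rdm (B ∪ C) Ω)) = entropyOf (B ∪ C) Ω :=
    b7_vn_reindex eBC (b7_rdm_psd _ Ω).isHermitian
  rw [← r1, ← r2, ← r3]
  refine ssa_matrix ((b7_rdm_psd _ Ω).submatrix _) ?_ ((b7_rdm_psd _ Ω).submatrix _) ?_ ?_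
  · intro x x'
    rw [Matrix.reindex_apply, Matrix.submatrix_apply, ssa_rdmL (A ∪ B) C (A ∪ B ∪ C) d1 m3]
    rfl
  · intro y y'
    rw [Matrix.reindex_apply, Matrix.submatrix_apply, ssa_rdmR A (B ∪ C) (A ∪ B ∪ C) d2 m4]
    refine Finset.sum_congr rfl fun a _ => ?_
    rw [Matrix.submatrix_apply, hE, hE, hglue, hglue]
  · intro b b'
    rw [ssa_rdmR A B (A ∪ B) hAB m1]
    rfl

/-- Submodularity. -/
theorem submod (X Y : Finset V) (Ω : Conf V q → ℂ) :
    entropyOf (X ∪ Y) Ω + entropyOf (X ∩ Y) Ω ≤ entropyOf X Ω + entropyOf Y Ω := by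
  have h := ssa (X \ Y) (X ∩ Y) (Y \ X) ?_ ?_ ?_ Ω
  · have e1 : X \ Y ∪ X ∩ Y = X := Finset.sdiff_union_inter X Y
    have e2 : X ∩ Y ∪ Y \ X = Y := by
      ext x; simp only [Finset.mem_union, Finset.mem_inter, Finset.mem_sdiff]; tauto
    have e3 : X ∪ Y \ X = X ∪ Y := Finset.union_sdiff_self_eq_union
    rwa [e1, e2, e3] at h
  · rw [Finset.disjoint_left]; intro x; simp only [Finset.mem_inter, Finset.mem_sdiff]; tauto
  · rw [Finset.disjoint_left]; intro x; simp only [Finset.mem_sdiff]; tauto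
  · rw [Finset.disjoint_left]; intro x; simp only [Finset.mem_inter, Finset.mem_sdiff]; tauto

/-- Mutual information decreases when the regions shrink. -/
theorem mi_mono {X X' Y Y' : Finset V} (hX : X ⊆ X') (hY : Y ⊆ Y') (hd : Disjoint X' Y')
    (Ω : Conf V q → ℂ) :
    entropyOf X Ω + entropyOf Y Ω - entropyOf (X ∪ Y) Ω ≤
      entropyOf X' Ω + entropyOf Y' Ω - entropyOf (X' ∪ Y') Ω := by
  have h1 := submod X' (X ∪ Y) Ω
  have e1 : X' ∪ (X ∪ Y) = X' ∪ Y := by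
    rw [← Finset.union_assoc, Finset.union_eq_left.mpr hX]
  have e2 : X' ∩ (X ∪ Y) = X := by
    ext x
    simp only [Finset.mem_inter, Finset.mem_union]
    constructor
    · rintro ⟨h, h' | h'⟩
      · exact h'
      · exact absurd (hY h') (Finset.disjoint_left.mp hd h)
    · exact fun h => ⟨hX h, Or.inl h⟩
  rw [e1, e2] at h1
  have h2 := submod Y' (X' ∪ Y) Ω
  have e3 : Y' ∪ (X' ∪ Y) = X' ∪ Y' := by
    rw [Finset.union_comm X' Y, ← Finset.union_assoc, Finset.union_eq_left.mpr hY,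
      Finset.union_comm]
  have e4 : Y' ∩ (X' ∪ Y) = Y := by
    ext x
    simp only [Finset.mem_inter, Finset.mem_union]
    constructor
    · rintro ⟨h, h' | h'⟩
      · exact absurd h' (Finset.disjoint_right.mp hd h)
      · exact h'
    · exact fun h => ⟨hY h, Or.inr h⟩
  rw [e3, e4] at h2
  linarith

/-- Decreasing marginal entropy. -/
theorem marginal {A A' Q : Finset V} (hA : A ⊆ A') (hQ : Disjoint A' Q) (Ω : Conf V q → ℂ) :
    entropyOf (A' ∪ Q) Ω - entropyOf A' Ω ≤ entropyOf (A ∪ Q) Ω - entropyOf A Ω := by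
  have h := mi_mono hA (Finset.Subset.refl Q) hQ Ω
  linarith

/-- The triangle inequality. -/
theorem triangle {X Y : Finset V} (hd : Disjoint X Y) (Ω : Conf V q → ℂ) (hΩ : nsq Ω = 1) :
    entropyOf X Ω ≤ entropyOf (X ∪ Y) Ω + entropyOf Y Ω := by
  have h := entropy_union (X ∪ Y)ᶜ Y (by
    rw [Finset.disjoint_left]
    intro x hx
    rw [Finset.mem_compl, Finset.mem_union] at hx
    tauto) Ω hΩ
  have e : (X ∪ Y)ᶜ ∪ Y = Xᶜ := by
    ext x
    simp only [Finset.mem_union, Finset.mem_compl]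
    have := fun h : x ∈ X => Finset.disjoint_left.mp hd h
    tauto
  rw [e, entropy_compl _ _ hΩ, entropy_compl _ _ hΩ] at h
  exact h

end regions

end Vale.Agent.P356.SA
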